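import Vale.Agent.P046.Const.Defs
import Vale.Agent.P046.Gap.Damped
import Vale.Agent.P046.Track.Recursion

/-!
P046, leading constant: bounds for the probability of visiting a set of states, and the
probability that the process ever leaves the track.
-/

namespace Vale.Agent.P046.Const

open Finset Vale.Agent.P046.Track Vale.Agent.P046.Gap

variable {V : Type} [Fintype V] [DecidableEq V]

variable {P : Finset (Finset V) → Prop} {A : Finset (Finset V)}

theorem reach_of_pos (h : P A) : reach P A = 1 := by
  rw [reach, if_pos h]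

theorem reach_of_empty (h : ¬ P A) (h' : tri A = ∅) : reach P A = 0 := by
  rw [reach, if_neg h, if_pos h']

theorem reach_of_ne (h : ¬ P A) (h' : tri A ≠ ∅) :
    reach P A = (∑ t ∈ tri A, reach P (A \ pairs t)) / (tri A).card := by
  rw [reach, if_neg h, if_neg h', sum_attach (tri A) (fun t => reach P (A \ pairs t))]

theorem reach_le (P : Finset (Finset V) → Prop) (W : Finset (Finset V) → ℝ) :
    ∀ A : Finset (Finset V),
      (∀ B ⊆ A, 0 ≤ W B) → (∀ B ⊆ A, P B → 1 ≤ W B) →
      (∀ B ⊆ A, ¬ P B → tri B ≠ ∅ → ∑ t ∈ tri B, W (B \ pairs t) ≤ (tri B).card * W B) →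
      reach P A ≤ W A := by
  intro A
  induction A using Finset.strongInduction with
  | H A ih =>
    intro h0 h1 hstep
    by_cases hP : P A
    · rw [reach_of_pos hP]; exact h1 A subset_rfl hP
    by_cases h : tri A = ∅
    · rw [reach_of_empty hP h]; exact h0 A subset_rfl
    · have hT : (0 : ℝ) < ((tri A).card : ℝ) := by
        exact_mod_cast card_pos.2 (nonempty_iff_ne_empty.2 h)
      rw [reach_of_ne hP h, div_le_iff₀ hT, mul_comm (W A)]
      refine le_trans (sum_le_sum fun t ht => ?_) (hstep A subset_rfl hP h)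
      have hs := sdiff_pairs_ssubset ht
      exact ih _ hs (fun B hB => h0 B (hB.trans hs.subset))
        (fun B hB => h1 B (hB.trans hs.subset)) (fun B hB => hstep B (hB.trans hs.subset))

theorem reach_nonneg (P : Finset (Finset V) → Prop) : ∀ A, 0 ≤ reach P A := by
  intro A
  induction A using Finset.strongInduction with
  | H A ih =>
    by_cases hP : P A
    · rw [reach_of_pos hP]; exact zero_le_one
    by_cases h : tri A = ∅
    · rw [reach_of_empty hP h]
    · rw [reach_of_ne hP h]
      exact div_nonneg (sum_nonneg fun t ht => ih _ (sdiff_pairs_ssubset ht)) (Nat.cast_nonneg _)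

theorem reach_le_one (P : Finset (Finset V) → Prop) (A : Finset (Finset V)) : reach P A ≤ 1 :=
  reach_le P (fun _ => 1) A (fun _ _ => zero_le_one) (fun _ _ _ => le_rfl) fun B _ _ _ => by simp

/-- `(L / E) ^ (1 / 4)`. -/
noncomputable def uu (L : ℝ) (A : Finset (Finset V)) : ℝ := (L / A.card) ^ ((1 : ℝ) / 4)

omit [Fintype V] [DecidableEq V] in
theorem uu_bounds {L : ℝ} (hL : 0 < L) {A : Finset (Finset V)} (hA : L < A.card) :
    0 < uu L A ∧ uu L A ≤ 1 :=
  weight_bounds (by norm_num) hL hA

omit [Fintype V] [DecidableEq V] in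
theorem uu_pow {L : ℝ} (hL : 0 < L) (A : Finset (Finset V)) (j : ℕ) :
    uu L A ^ j = (L / (A.card : ℝ)) ^ ((j : ℝ) / 4) := by
  rw [uu, ← Real.rpow_natCast, ← Real.rpow_mul (div_nonneg hL.le (Nat.cast_nonneg _))]
  congr 1
  ring

/-- The state is above `L` and its error exceeds `(L / E) ^ (3 / 2) / 64`. -/
def OffTrack (L : ℝ) (A : Finset (Finset V)) : Prop :=
  L < A.card ∧ uu L A ^ 6 / 64 < err A

/-- The process rarely leaves the track. -/
theorem reach_offTrack_le {ε K c θ : ℝ} (hε : 0 ≤ ε) (hK : 0 ≤ K) (hc : 0 < c) (hc1 : c ≤ 1)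
    (hθ : 0 < θ) (hθ1 : θ ≤ 1 / 64) (A₀ : Finset (Finset V))
    (hstep : ∀ A ⊆ A₀, 100 ≤ A.card → 1 ≤ dd A → err A ≤ θ →
      ∑ t ∈ tri A, full ε (A \ pairs t)
        ≤ (tri A).card * (full ε A * (1 - c / A.card) + K / A.card))
    (hV : 0 < (Fintype.card V : ℝ)) {L : ℝ} (hL : 100 ≤ L)
    (hLn : (Fintype.card V : ℝ) ^ 3 ≤ 4 * L ^ 2) :
    reach (OffTrack L) A₀
      ≤ (Fintype.card V : ℝ) ^ 3 * (full ε A₀ + 8 * K / (3 * c)) / (4 * θ * L ^ 2) := by
  set N := (Fintype.card V : ℝ) ^ 3 with hN
  have hN0 : 0 < N := by positivity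
  have hL0 : 0 < L := by linarith
  have hK' : 0 ≤ 8 * K / (3 * c) := by positivity
  set Z := damp (V := V) ε (c / 4) (8 * K / (3 * c)) L with hZ
  set T := 4 * L ^ 2 / N * θ with hT
  have hT0 : 0 < T := by positivity
  have hZ0 : ∀ A, 0 ≤ Z A := fun A => damp_nonneg hε (by linarith) hK' hL0 A
  have key : reach (OffTrack L) A₀ ≤ min 1 (Z A₀ / T) := by
    refine reach_le _ (fun A => min 1 (Z A / T)) A₀
      (fun A _ => le_min zero_le_one (div_nonneg (hZ0 A) hT0.le)) (fun A _ hP => ?_)
      (fun A hA _ hne => ?_)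
    · obtain ⟨hLA, herr⟩ := hP
      refine le_min le_rfl ?_
      rw [le_div_iff₀ hT0, one_mul]
      have hE : (0 : ℝ) < A.card := hL0.trans hLA
      obtain ⟨w1, w2⟩ := weight_bounds (a := c / 4) (by linarith) hL0 hLA
      have hl : lyap A ≤ full ε A := le_add_of_nonneg_right (mul_nonneg hε (pot2_nonneg A))
      have hz : (L / (A.card : ℝ)) ^ (c / 4) * lyap A ≤ Z A := by
        rw [hZ, damp, if_neg (not_le.2 hLA)]
        exact (mul_le_mul_of_nonneg_left hl w1.le).trans
          (le_add_of_nonneg_right (mul_nonneg hK' (by linarith)))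
      refine le_trans ?_ hz
      rw [uu_pow hL0] at herr
      have hp : (L / (A.card : ℝ)) ^ (2 : ℝ)
          ≤ (L / (A.card : ℝ)) ^ (c / 4) * (L / (A.card : ℝ)) ^ (((6 : ℕ) : ℝ) / 4) := by
        rw [← Real.rpow_add (div_pos hL0 hE)]
        exact Real.rpow_le_rpow_of_exponent_ge (div_pos hL0 hE) ((div_le_one hE).2 hLA.le)
          (by push_cast; linarith)
      calc T ≤ 4 * L ^ 2 / N * (1 / 64) := mul_le_mul_of_nonneg_left hθ1 (by positivity)
        _ = dd A * ((L / (A.card : ℝ)) ^ (2 : ℝ) / 64) := by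
            rw [Real.rpow_two, dd, ← hN]; field_simp
        _ ≤ dd A * ((L / (A.card : ℝ)) ^ (c / 4)
              * (L / (A.card : ℝ)) ^ (((6 : ℕ) : ℝ) / 4) / 64) :=
            mul_le_mul_of_nonneg_left (by linarith) (dd_nonneg A)
        _ ≤ dd A * ((L / (A.card : ℝ)) ^ (c / 4) * err A) := by
            refine mul_le_mul_of_nonneg_left ?_ (dd_nonneg A)
            rw [mul_div_assoc]
            exact mul_le_mul_of_nonneg_left herr.le w1.le
        _ = _ := by rw [lyap]; ring
    · rcases le_or_gt T (Z A) with hz | hz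
      · rw [min_eq_left ((one_le_div hT0).2 hz), mul_one]
        exact le_trans (sum_le_sum fun t _ => min_le_left _ _) (by simp)
      · rw [min_eq_right ((div_lt_one hT0).2 hz).le, mul_div_assoc']
        refine le_trans (sum_le_sum fun t _ => min_le_right _ _) ?_
        rw [← sum_div]
        refine div_le_div_of_nonneg_right ?_ hT0.le
        rcases le_or_gt (A.card : ℝ) L with hl | hl
        · refine le_trans (le_of_eq (sum_eq_zero fun t ht => ?_))
            (mul_nonneg (Nat.cast_nonneg _) (hZ0 A))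
          rw [hZ, damp, if_pos (le_trans (by exact_mod_cast card_le_card sdiff_subset) hl)]
        have h100 : 100 ≤ A.card := by
          have : ((100 : ℕ) : ℝ) ≤ A.card := by push_cast; linarith
          exact_mod_cast this
        have hdd : 1 ≤ dd A := by
          rw [dd, ← hN, le_div_iff₀ hN0, one_mul]
          have : L ^ 2 ≤ (A.card : ℝ) ^ 2 := pow_le_pow_left₀ hL0.le hl.le 2
          linarith
        have herr : err A ≤ θ :=
          le_of_mul_le_mul_left
            ((damp_err hε (by linarith) (by linarith) hK' hL0 hl).trans hz.le) (by positivity)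
        exact damp_drift hε hK hc hc1 hL0 hl h100 (hstep A hA h100 hdd herr)
  refine key.trans ((min_le_right _ _).trans ?_)
  refine (div_le_div_of_nonneg_right (damp_le hε (by linarith) hK' hL0 A₀) hT0.le).trans
    (le_of_eq ?_)
  rw [hT]
  field_simp

/-- If `g` is small at the good states that are not bad, it is small unless the process misses
the good states or visits a bad one. -/
theorem procVal_le_of_reach {g : Finset (Finset V) → ℝ} (hg : ∀ B, g B ≤ 1)
    (Good Bad : Finset (Finset V) → Prop) {b : ℝ} (hb : 0 ≤ b) (A₀ : Finset (Finset V))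
    (h : ∀ A ⊆ A₀, Good A → ¬ Bad A → procVal g A ≤ b) :
    procVal g A₀ ≤ b + (1 - reach Good A₀) + reach Bad A₀ := by
  induction A₀ using Finset.strongInduction with
  | H A ih =>
    have hg1 : procVal g A ≤ 1 :=
      procVal_le g (fun _ => 1) A (fun B _ _ => hg B) (fun B _ _ => by simp)
    have h1 := reach_le_one Good A
    have h2 := reach_nonneg Bad A
    by_cases hB : Bad A
    · rw [reach_of_pos hB]; linarith
    by_cases hG : Good A
    · have := h A subset_rfl hG hB; linarith
    by_cases ht : tri A = ∅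
    · rw [reach_of_empty hG ht]; linarith
    have hT : (0 : ℝ) < ((tri A).card : ℝ) := by
      exact_mod_cast card_pos.2 (nonempty_iff_ne_empty.2 ht)
    rw [procVal_of_ne g ht, reach_of_ne hG ht, reach_of_ne hB ht, div_le_iff₀ hT]
    refine (sum_le_sum fun t ht' => ih _ (sdiff_pairs_ssubset ht') fun B hB' =>
      h B (hB'.trans sdiff_subset)).trans (le_of_eq ?_)
    rw [sum_add_distrib, sum_add_distrib, sum_sub_distrib, sum_const, sum_const, nsmul_eq_mul,
      nsmul_eq_mul, add_mul, add_mul, sub_mul, one_mul, div_mul_cancel₀ _ hT.ne',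
      div_mul_cancel₀ _ hT.ne']
    ring

end Vale.Agent.P046.Const
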