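import Vale.Agent.P046.Const.Defs
import Vale.Agent.P046.Const.Reach
import Vale.Agent.P046.Gap.Upper
import Vale.Agent.P046.Track.Lower

/-!
P046, N6: the leading constant from the modules.

The process reaches, with high probability, a good state without many short cycles. From there
the leave is the sum of the cavity probabilities, which is that of the regular case,
`E / √(1 + 2D) = n^(3/2) / (2√2) (1 + O(1/D))` as `D = 4E²/n³`. The mean follows with the
quadratic tail of the exact order.
-/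

namespace Vale.Agent.P046.Const

open Finset Vale.Agent.P046.Track Vale.Agent.P046.Gap

section General

variable {V : Type} [Fintype V] [DecidableEq V]

/-- Scaling the observable scales its expectation. -/
theorem procVal_div (g : Finset (Finset V) → ℝ) (c : ℝ) :
    ∀ A : Finset (Finset V), procVal (fun B => g B / c) A = procVal g A / c := by
  intro A
  induction A using Finset.strongInduction with
  | H A ih =>
    by_cases h : tri A = ∅
    · rw [procVal_of_empty _ h, procVal_of_empty _ h]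
    · rw [procVal_of_ne _ h, procVal_of_ne _ h, sum_congr rfl fun t ht =>
        ih _ (sdiff_pairs_ssubset ht), ← sum_div, div_right_comm]

theorem procVal_mono {g g' : Finset (Finset V) → ℝ} (A : Finset (Finset V))
    (h : ∀ B ⊆ A, g B ≤ g' B) : procVal g A ≤ procVal g' A :=
  procVal_le g (procVal g') A (fun B hB he => (h B hB).trans (procVal_of_empty g' he).ge)
    fun B _ hne => by
      have hT : (0 : ℝ) < ((tri B).card : ℝ) := by
        exact_mod_cast card_pos.2 (nonempty_iff_ne_empty.2 hne)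
      rw [procVal_of_ne g' hne, mul_div_cancel₀ _ hT.ne']

theorem procVal_nonneg' {g : Finset (Finset V) → ℝ} :
    ∀ {A : Finset (Finset V)}, (∀ B ⊆ A, 0 ≤ g B) → 0 ≤ procVal g A := by
  intro A
  induction A using Finset.strongInduction with
  | H A ih =>
    intro hg
    by_cases h : tri A = ∅
    · rw [procVal_of_empty _ h]; exact hg A subset_rfl
    · rw [procVal_of_ne _ h]
      exact div_nonneg (sum_nonneg fun t ht => ih _ (sdiff_pairs_ssubset ht)
        fun B hB => hg B (hB.trans sdiff_subset)) (Nat.cast_nonneg _)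

/-- The expected leave from a bound `η` above `T` and a quadratic tail above `L`. -/
theorem expLeave_le_split (A : Finset (Finset V)) {T L η B : ℝ} (hT : 0 ≤ T) (hL : 2 ≤ L)
    (hη : 0 ≤ η) (hB : 0 ≤ B) (h1 : ∀ k : ℕ, T < k → probGT (k : ℝ) A ≤ η)
    (h2 : ∀ k : ℕ, L < k → probGT (k : ℝ) A ≤ B / (k : ℝ) ^ 2) :
    expLeave A ≤ (T + 1) + η * (L + 1) + 2 * B / L := by
  set m := ⌊L⌋₊ with hm
  have hL0 : 0 ≤ L := by linarith
  have hm1 : (m : ℝ) ≤ L := Nat.floor_le hL0
  have hm2 : L < m + 1 := Nat.lt_floor_add_one L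
  have hm0 : 1 ≤ m := Nat.le_floor (by push_cast; linarith)
  rw [expLeave_eq_sum]
  have hk : ∀ k ∈ range A.card, probGT (k : ℝ) A ≤ (if (k : ℝ) ≤ T then 1 else 0)
      + ((if k ≤ m then η else 0) + if m < k then B * (1 / (k : ℝ) ^ 2) else 0) := fun k _ => by
    rcases le_or_gt (k : ℝ) T with hkT | hkT
    · rw [if_pos hkT]
      refine (probGT_le_one _ A).trans (le_add_of_nonneg_right ?_)
      split_ifs <;> positivity
    · rw [if_neg (not_le.2 hkT), zero_add]
      rcases le_or_gt k m with hkm | hkm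
      · rw [if_pos hkm, if_neg (not_lt.2 hkm), add_zero]
        exact h1 k hkT
      · rw [if_neg (not_le.2 hkm), if_pos hkm, zero_add, mul_one_div]
        refine h2 k ?_
        have : (m : ℝ) + 1 ≤ k := by exact_mod_cast hkm
        linarith
  refine (sum_le_sum hk).trans ?_
  rw [sum_add_distrib, sum_add_distrib, ← sum_filter, ← sum_filter, ← sum_filter, sum_const,
    sum_const, nsmul_eq_mul, mul_one, nsmul_eq_mul]
  have c1 : (((range A.card).filter fun k : ℕ => (k : ℝ) ≤ T).card : ℝ) ≤ T + 1 := by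
    have hsub : (range A.card).filter (fun k : ℕ => (k : ℝ) ≤ T) ⊆ range (⌊T⌋₊ + 1) :=
      fun k hk => mem_range.2 (Nat.lt_succ_of_le (Nat.le_floor (mem_filter.1 hk).2))
    have h := card_le_card hsub
    rw [card_range] at h
    have h' : (((range A.card).filter fun k : ℕ => (k : ℝ) ≤ T).card : ℝ) ≤ ⌊T⌋₊ + 1 := by
      exact_mod_cast h
    linarith [Nat.floor_le hT]
  have c2 : (((range A.card).filter fun k : ℕ => k ≤ m).card : ℝ) ≤ L + 1 := by
    have hsub : (range A.card).filter (fun k : ℕ => k ≤ m) ⊆ range (m + 1) :=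
      fun k hk => mem_range.2 (Nat.lt_succ_of_le (mem_filter.1 hk).2)
    have h := card_le_card hsub
    rw [card_range] at h
    have h' : (((range A.card).filter fun k : ℕ => k ≤ m).card : ℝ) ≤ m + 1 := by
      exact_mod_cast h
    linarith
  have c3 : ∑ k ∈ (range A.card).filter (fun k => m < k), B * (1 / (k : ℝ) ^ 2) ≤ 2 * B / L := by
    calc _ ≤ B * ∑ k ∈ Ico (m + 1) (max A.card m + 1), (1 : ℝ) / (k : ℝ) ^ 2 := by
          rw [← mul_sum]
          gcongr
          intro k hk
          simp only [mem_filter, mem_range, mem_Ico] at hk ⊢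
          omega
      _ ≤ B * (1 / (m : ℝ)) := by
          gcongr
          exact (sum_inv_sq_le hm0 _ (le_max_right _ _)).trans (sub_le_self _ (by positivity))
      _ ≤ _ := by
          rw [mul_one_div, div_le_div_iff₀ (by exact_mod_cast hm0) (by linarith)]
          have : (1 : ℝ) ≤ m := by exact_mod_cast hm0
          nlinarith
  have := mul_le_mul_of_nonneg_left c2 hη
  linarith

end General

/-- `n ^ (3/2)`. -/
noncomputable def scale (n : ℕ) : ℝ := (n : ℝ) ^ ((3 : ℝ) / 2)

/-- The value of the regular cavity equation is `n^(3/2) / (2√2)` up to `O(1/D)`. -/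
theorem regular_value {E s : ℝ} (hs : 0 < s) (hE : 0 < E) :
    |E / Real.sqrt (1 + 2 * (4 * E ^ 2 / s ^ 2)) - s / (2 * Real.sqrt 2)|
      ≤ s / (2 * Real.sqrt 2) * (1 / (2 * (4 * E ^ 2 / s ^ 2))) ∧
    E / Real.sqrt (1 + 2 * (4 * E ^ 2 / s ^ 2)) ≤ s / (2 * Real.sqrt 2) := by
  set D := 4 * E ^ 2 / s ^ 2 with hD
  have hD0 : 0 < D := by positivity
  set c := s / (2 * Real.sqrt 2) with hc
  have hc0 : 0 < c := by positivity
  set u := E / Real.sqrt (1 + 2 * D) with hu
  have hu0 : 0 < u := by positivity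
  have hu2 : u ^ 2 = c ^ 2 * (2 * D / (1 + 2 * D)) := by
    rw [hu, hc, div_pow, div_pow, Real.sq_sqrt (by positivity), mul_pow,
      Real.sq_sqrt (by norm_num), hD]
    field_simp
    ring
  have hq : 2 * D / (1 + 2 * D) ≤ 1 := by rw [div_le_one (by positivity)]; linarith
  have hle : u ≤ c := by
    refine (pow_le_pow_iff_left₀ hu0.le hc0.le two_ne_zero).1 ?_
    rw [hu2]
    exact mul_le_of_le_one_right (by positivity) hq
  refine ⟨?_, hle⟩
  rw [abs_of_nonpos (by linarith)]
  have h1 : c * (2 * D / (1 + 2 * D)) ≤ u := by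
    refine (pow_le_pow_iff_left₀ (by positivity) hu0.le two_ne_zero).1 ?_
    rw [hu2, mul_pow]
    exact mul_le_mul_of_nonneg_left (pow_le_of_le_one (by positivity) hq two_ne_zero)
      (by positivity)
  have h2 : 1 - 2 * D / (1 + 2 * D) ≤ 1 / (2 * D) := by
    rw [one_sub_div (by positivity), div_le_div_iff₀ (by positivity) (by positivity)]
    nlinarith
  have := mul_le_mul_of_nonneg_left h2 hc0.le
  linarith

/-- The probability part. -/
theorem const_prob (hG : GoodLevel) (hN : NoCycles) (hL : LocalLaw) (hO : OdeTarget)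
    (hC : CavExists) {ε η : ℝ} (hε : 0 < ε) (hη : 0 < η) :
    ∃ n₀ : ℕ, ∀ n : ℕ, n₀ ≤ n →
      procVal (fun B : Finset (Finset (Fin n)) =>
        if ε * scale n < |(B.card : ℝ) - scale n / (2 * Real.sqrt 2)| then 1 else 0)
        (complete n) ≤ η := by
  obtain ⟨D₀, δ, hδ, hode⟩ := hO (ε / 3) (by linarith)
  obtain ⟨Λ₁, hgood⟩ := hG (η / 3) δ (by linarith) hδ
  obtain ⟨Λ₂, hcyc⟩ := hN (η / 3) (by linarith)
  obtain ⟨Λ, hΛ1, hΛ2, hΛ3, hΛ4, hΛ5⟩ :
      ∃ Λ : ℝ, 1 ≤ Λ ∧ Λ₁ ≤ Λ ∧ Λ₂ ≤ Λ ∧ D₀ ≤ Λ ∧ 1 / ε ≤ Λ :=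
    ⟨max 1 (max Λ₁ (max Λ₂ (max D₀ (1 / ε)))), by simp, by simp, by simp, by simp, by simp⟩
  obtain ⟨a, A₀, ha, n₁, hn₁⟩ := hgood Λ hΛ2
  obtain ⟨R, δ', E₀, hδ', hloc⟩ := hL a A₀ (ε * η / (18 * Λ)) ha (by positivity)
  obtain ⟨n₂, hn₂⟩ := hcyc Λ hΛ3 R δ' hδ'
  refine ⟨max (max n₁ n₂) (max 1 ⌈E₀⌉₊), fun n hn => ?_⟩
  simp only [max_le_iff, Nat.ceil_le] at hn
  obtain ⟨⟨hn1, hn2⟩, hn3, hn4⟩ := hn
  set s := scale n with hsdef
  have hn' : (1 : ℝ) ≤ n := by exact_mod_cast hn3
  have hsn : (n : ℝ) ≤ s := Real.self_le_rpow_of_one_le hn' (by norm_num)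
  have hs : 0 < s := by linarith
  have hs2 : s ^ 2 = (n : ℝ) ^ 3 := by
    rw [hsdef, scale, ← Real.rpow_natCast ((n : ℝ) ^ ((3 : ℝ) / 2)) 2,
      ← Real.rpow_mul (Nat.cast_nonneg n),
      show (3 : ℝ) / 2 * ((2 : ℕ) : ℝ) = ((3 : ℕ) : ℝ) by norm_num, Real.rpow_natCast]
  refine (procVal_le_of_reach (fun B => by split_ifs <;> norm_num) (Good Λ δ a A₀)
    (fun A => InWindow Λ A ∧ Many R δ' A) (b := η / 3) (by linarith) _
    fun G hGsub hG hnM => ?_).trans (by linarith [hn₁ n hn1, hn₂ n hn2])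
  obtain ⟨hwin, hreg, hexp⟩ := hG
  have h2 : ∀ e ∈ G, e.card = 2 := fun e he => (mem_powersetCard.1 (hGsub he)).2
  obtain ⟨hw1, hw2⟩ := hwin
  rw [Fintype.card_fin] at hw1 hw2
  change Λ * s < _ at hw1
  change _ ≤ 2 * (Λ * s) at hw2
  have hΛs : s ≤ Λ * s := le_mul_of_one_le_left hs.le hΛ1
  have hE : (0 : ℝ) < G.card := by linarith
  have hD : dd G = 4 * (G.card : ℝ) ^ 2 / s ^ 2 := by rw [dd, Fintype.card_fin, hs2]
  have hDΛ : 4 * Λ ^ 2 ≤ dd G := by
    rw [hD, le_div_iff₀ (by positivity)]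
    have := pow_le_pow_left₀ (by positivity) hw1.le 2
    rw [mul_pow] at this
    linarith
  have hΛsq : Λ ≤ 4 * Λ ^ 2 := by nlinarith
  obtain ⟨I, hI⟩ := hC (Fin n) G
  have hlive := hode (Fin n) G I h2 (by linarith) hreg hI
  have hlaw := hloc (Fin n) G I h2 (by linarith) hexp
    (fun hm => hnM ⟨⟨by rw [Fintype.card_fin]; exact hw1, by rw [Fintype.card_fin]; exact hw2⟩,
      hm⟩) hI
  obtain ⟨hv1, hv2⟩ := regular_value hs hE
  rw [← hD] at hv1 hv2
  set c := s / (2 * Real.sqrt 2) with hc
  have hc0 : 0 ≤ c := by positivity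
  have hcs : c ≤ s := by
    rw [hc, div_le_iff₀ (by positivity)]
    have := Real.one_le_sqrt.2 (by norm_num : (1 : ℝ) ≤ 2)
    nlinarith
  have hval : |liveSum G I - c| ≤ 2 * ε / 3 * s := by
    have h1 : 1 / (2 * dd G) ≤ ε / 3 := by
      rw [div_le_div_iff₀ (by linarith) (by norm_num)]
      rw [div_le_iff₀ hε] at hΛ5
      nlinarith
    have h3 := mul_le_mul hcs h1 (by have := dd_nonneg G; positivity) hs.le
    have h4 := mul_le_mul_of_nonneg_left (hv2.trans hcs) (show (0 : ℝ) ≤ ε / 3 by linarith)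
    have h5 := abs_sub_le (liveSum G I) (G.card / Real.sqrt (1 + 2 * dd G)) c
    linarith
  refine (procVal_mono (g' := fun B => |(B.card : ℝ) - liveSum G I| / (ε / 3 * s)) G
    fun B _ => ?_).trans ?_
  · split_ifs with h
    · rw [le_div_iff₀ (by positivity)]
      have := abs_sub_le (B.card : ℝ) (liveSum G I) c
      linarith
    · positivity
  · rw [procVal_div, div_le_iff₀ (by positivity)]
    refine hlaw.trans ?_
    refine (mul_le_mul_of_nonneg_left hw2 (by positivity)).trans (le_of_eq ?_)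
    field_simp
    ring

/-- **N6.** The leading constant from the five modules and the exact order. -/
theorem const_limit_of (hG : GoodLevel) (hN : NoCycles) (hL : LocalLaw) (hO : OdeTarget)
    (hC : CavExists) (hU : OrderUpper) : ConstLimit := by
  refine ⟨fun ε hε => Metric.tendsto_atTop.2 fun η hη => ?_, Metric.tendsto_atTop.2 fun e he => ?_⟩
  · obtain ⟨n₀, h⟩ := const_prob hG hN hL hO hC hε (half_pos hη)
    refine ⟨n₀, fun n hn => ?_⟩
    rw [Real.dist_eq, sub_zero, abs_of_nonneg]
    · exact lt_of_le_of_lt (h n hn) (by linarith)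
    · exact procVal_nonneg' (fun B _ => by split_ifs <;> norm_num)
  · obtain ⟨C, hCt⟩ := hU
    set M := max 2 (16 * |C| / e) with hM
    have hM2 : 2 ≤ M := le_max_left _ _
    obtain ⟨n₀, h⟩ := const_prob hG hN hL hO hC (show 0 < e / 4 by linarith)
      (show 0 < e / (8 * (M + 1)) by positivity)
    refine ⟨max (max n₀ 3) ⌈8 / e⌉₊, fun n hn => ?_⟩
    simp only [max_le_iff, Nat.ceil_le] at hn
    obtain ⟨⟨hn1, hn2⟩, hn3⟩ := hn
    set η := e / (8 * (M + 1)) with hη
    have hη0 : 0 < η := by positivity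
    set s := scale n with hsdef
    have hn' : (3 : ℝ) ≤ n := by exact_mod_cast hn2
    have hsn : (n : ℝ) ≤ s := Real.self_le_rpow_of_one_le (by linarith) (by norm_num)
    have hs : 0 < s := by linarith
    change dist (expLeave (complete n) / s) _ < e
    rw [Real.dist_eq, div_sub' hs.ne', abs_div, abs_of_pos hs, div_lt_iff₀ hs, abs_lt]
    set c := s / (2 * Real.sqrt 2) with hc
    rw [show s * (1 / (2 * Real.sqrt 2)) = c by rw [hc, mul_one_div]]
    have hc0 : 0 ≤ c := by positivity
    have hcs : c ≤ s := by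
      rw [hc, div_le_iff₀ (by positivity)]
      have := Real.one_le_sqrt.2 (by norm_num : (1 : ℝ) ≤ 2)
      nlinarith
    have hp := h n hn1
    constructor
    · have h1 := expLeave_ge (c - e / 4 * s) (complete n)
      have h2 : probLT (c - e / 4 * s) (complete n) ≤ η := by
        refine (procVal_mono _ fun B _ => ?_).trans hp
        split_ifs with a b <;> norm_num
        exact b (lt_of_lt_of_le (by linarith) (neg_le_abs _))
      have h3 : η ≤ e / 4 := by
        rw [hη, div_le_div_iff₀ (by positivity) (by norm_num)]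
        nlinarith
      rcases le_or_gt 0 (c - e / 4 * s) with h4 | h4
      · have h5 := mul_le_mul_of_nonneg_left h2 h4
        have h6 := mul_le_mul (show c - e / 4 * s ≤ s by nlinarith) h3 hη0.le hs.le
        nlinarith
      · have h5 : 0 ≤ expLeave (complete n) := by
          rw [expLeave_eq_sum]; exact sum_nonneg fun k _ => probGT_nonneg _ _
        nlinarith
    · have h1 := expLeave_le_split (complete n) (T := c + e / 4 * s) (L := M * s) (η := η)
        (B := |C| * s ^ 2) (by positivity) (by nlinarith) hη0.le (by positivity)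
        (fun k hk => (procVal_mono _ fun B _ => ?_).trans hp) (fun k hk => ?_)
      · have h3 : η * (M + 1) = e / 8 := by rw [hη]; field_simp
        have h4 : η * (M * s + 1) ≤ e / 8 * s := by
          rw [← h3]; nlinarith
        have h5 : 2 * (|C| * s ^ 2) / (M * s) ≤ e / 8 * s := by
          rw [div_le_iff₀ (by positivity)]
          have : 16 * |C| / e ≤ M := le_max_right _ _
          rw [div_le_iff₀ he] at this
          nlinarith [mul_le_mul_of_nonneg_right this (sq_nonneg s)]
        have h6 : 8 ≤ e * s := by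
          rw [div_le_iff₀ he] at hn3
          nlinarith
        linarith
      · split_ifs with a b <;> norm_num
        exact b (lt_of_lt_of_le (by linarith) (le_abs_self _))
      · have hk' : 1 ≤ (k : ℝ) / s := by
          rw [le_div_iff₀ hs]; nlinarith
        have := (hCt n hn2).2 ((k : ℝ) / s) hk'
        rw [show (n : ℝ) ^ ((3 : ℝ) / 2) = s from rfl, div_mul_cancel₀ _ hs.ne'] at this
        refine this.trans ?_
        rw [div_pow, div_div_eq_mul_div]
        exact div_le_div_of_nonneg_right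
          (mul_le_mul_of_nonneg_right (le_abs_self C) (sq_nonneg s)) (sq_nonneg _)

end Vale.Agent.P046.Const
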