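import Vale.Agent.P046.Const.Branch

/-!
P046: the levels around an edge either give a witness or carry no overlapping branches.
-/

namespace Vale.Agent.P046.Const.Law

open Finset Vale.Agent.P046.Gap

variable {V : Type} [Fintype V] [DecidableEq V]

/-- The vertices of a set of edges. -/
def verts (W : Finset (Finset V)) : Finset V := W.biUnion id

/-- The triangles with an edge in `W`. -/
def meet (A W : Finset (Finset V)) : Finset (Finset V) :=
  (tri A).filter fun r => ∃ g ∈ pairs r, g ∈ W

/-- The edges within a given distance of `e`. -/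
def lev (A : Finset (Finset V)) (e : Finset V) : ℕ → Finset (Finset V)
  | 0 => ∅
  | j + 1 => insert e (lev A e j ∪ (meet A (lev A e j)).biUnion pairs)

theorem lev_mono (A : Finset (Finset V)) (e : Finset V) {i j : ℕ} (h : i ≤ j) :
    lev A e i ⊆ lev A e j := by
  induction h with
  | refl => exact subset_rfl
  | step _ ih => exact fun g hg => mem_insert_of_mem (mem_union_left _ (ih hg))

theorem mem_lev_succ {A : Finset (Finset V)} {e r g : Finset V} {j : ℕ}
    (hr : r ∈ meet A (lev A e j)) (hg : g ∈ pairs r) : g ∈ lev A e (j + 1) :=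
  mem_insert_of_mem (mem_union_right _ (mem_biUnion.2 ⟨r, hr, hg⟩))

theorem self_mem_lev (A : Finset (Finset V)) (e : Finset V) (j : ℕ) : e ∈ lev A e (j + 1) :=
  mem_insert_self _ _

theorem lev_one (A : Finset (Finset V)) (e : Finset V) : lev A e 1 = {e} := by
  simp [lev, meet]

theorem lev_step (A : Finset (Finset V)) (e : Finset V) (j : ℕ) :
    lev A e (j + 2) = lev A e (j + 1) ∪ (meet A (lev A e (j + 1))).biUnion pairs :=
  insert_eq_of_mem (mem_union_left _ (self_mem_lev A e j))

theorem lev_subset {A : Finset (Finset V)} {e : Finset V} (he : e ∈ A) (j : ℕ) :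
    lev A e j ⊆ A := by
  induction j with
  | zero => exact empty_subset _
  | succ j ih =>
    refine insert_subset he (union_subset ih (biUnion_subset.2 fun r hr => ?_))
    exact tri_sub (mem_filter.1 hr).1

theorem pairs_card {A : Finset (Finset V)} {r : Finset V} (hr : r ∈ tri A) :
    (pairs r).card = 3 := by
  simp [pairs, tri_card hr]

theorem biUnion_pairs_id {A : Finset (Finset V)} {r : Finset V} (hr : r ∈ tri A) :
    verts (pairs r) = r := by
  ext v
  simp only [verts, mem_biUnion, id]
  constructor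
  · rintro ⟨g, hg, hv⟩
    exact (mem_powersetCard.1 hg).1 hv
  · intro hv
    obtain ⟨w, hw⟩ : ∃ w, w ∈ r.erase v := Finset.Nonempty.exists_mem <| by
      rw [← card_pos, card_erase_of_mem hv, tri_card hr]; decide
    exact ⟨{v, w}, mem_powersetCard.2 ⟨by
      simp [insert_subset_iff, hv, mem_of_mem_erase hw],
      card_pair (ne_of_mem_erase hw).symm⟩, mem_insert_self _ _⟩

/-- `W` has exactly as many edges as a tree of triangles on its vertices. -/
def Exact (W : Finset (Finset V)) : Prop := W.card + 3 = 2 * (verts W).card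

/-- `W` has more edges than a tree of triangles on its vertices. -/
def Over (W : Finset (Finset V)) : Prop := W.Nonempty ∧ 2 * (verts W).card ≤ W.card + 2

/-- The triangles at `W` form a tree over it. -/
structure Sprout (A W : Finset (Finset V)) (X : Finset (Finset V)) : Prop where
  exact' : Exact (W ∪ X.biUnion pairs)
  one : ∀ r ∈ X, ∀ f ∈ pairs r, ∀ f' ∈ pairs r, f ∈ W → f' ∈ W → f = f' ∨ pairs r ⊆ W
  uniq : ∀ g ∉ W, ∀ r ∈ X, ∀ r' ∈ X, g ∈ pairs r → g ∈ pairs r' → r = r'
  closed : ∀ r ∈ tri A, pairs r ⊆ W ∪ X.biUnion pairs → pairs r ⊆ W ∨ r ∈ X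

theorem sprout_or_over {A W : Finset (Finset V)} (hW : Exact W) (hne : W.Nonempty) :
    ∀ X ⊆ meet A W, (∃ W' ⊆ W ∪ X.biUnion pairs, Over W') ∨ Sprout A W X := by
  intro X
  induction X using Finset.induction with
  | empty =>
    intro _
    exact Or.inr ⟨by simpa using hW, by simp, by simp, fun r _ h => Or.inl (by simpa using h)⟩
  | insert r X hrX ih =>
    intro hX
    have hr := hX (mem_insert_self r X)
    have hrA := (mem_filter.1 hr).1
    obtain ⟨p, hp, hpW⟩ := (mem_filter.1 hr).2
    set W1 := W ∪ X.biUnion pairs with hW1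
    have hW2 : W ∪ (insert r X).biUnion pairs = W1 ∪ pairs r := by
      rw [biUnion_insert, hW1, union_assoc, union_comm (pairs r)]
    rw [hW2]
    rcases ih fun x hx => hX (mem_insert_of_mem hx) with ⟨W', hsub, ho⟩ | hs
    · exact Or.inl ⟨W', hsub.trans subset_union_left, ho⟩
    by_cases hin : pairs r ⊆ W1
    · have hrW : pairs r ⊆ W := (hs.closed r hrA hin).resolve_right hrX
      refine Or.inr ⟨?_, ?_, ?_, ?_⟩
      · rw [hW2, union_eq_left.2 hin]
        exact hs.exact'
      · intro x hx f hf f' hf' h h'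
        rcases mem_insert.1 hx with rfl | hx
        · exact Or.inr hrW
        · exact hs.one x hx f hf f' hf' h h'
      · intro g hg a ha b hb hga hgb
        rcases mem_insert.1 ha with rfl | ha
        · exact absurd (hrW hga) hg
        rcases mem_insert.1 hb with rfl | hb
        · exact absurd (hrW hgb) hg
        exact hs.uniq g hg a ha b hb hga hgb
      · intro x hx hsub
        rw [hW2, union_eq_left.2 hin] at hsub
        exact (hs.closed x hx hsub).imp_right mem_insert_of_mem
    · have hpW1 : p ∈ W1 := mem_union_left _ hpW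
      have hverts : verts (W1 ∪ pairs r) = verts W1 ∪ r := by
        rw [verts, union_biUnion]
        exact congrArg (verts W1 ∪ ·) (biUnion_pairs_id hrA)
      by_cases hrU : r ⊆ verts W1
      · refine Or.inl ⟨W1 ∪ pairs r, subset_rfl, hne.mono (subset_union_left.trans
          subset_union_left), ?_⟩
        have hlt : W1.card < (W1 ∪ pairs r).card :=
          card_lt_card (Finset.ssubset_iff_subset_ne.2
            ⟨subset_union_left, fun h => hin (union_eq_left.1 h.symm)⟩)
        have he : W1.card + 3 = 2 * (verts W1).card := hs.exact'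
        rw [hverts, union_eq_left.2 hrU]
        omega
      obtain ⟨v, hvr, hv⟩ := not_subset.1 hrU
      have hvp : v ∉ p := fun h => hv (mem_biUnion.2 ⟨p, hpW1, h⟩)
      have hper : p = r.erase v := eq_of_subset_of_card_le
        (fun x hx => mem_erase.2 ⟨fun h : x = v => hvp (h ▸ hx), (mem_powersetCard.1 hp).1 hx⟩)
        (by rw [card_erase_of_mem hvr, tri_card hrA, (mem_powersetCard.1 hp).2])
      have hnew : ∀ g ∈ pairs r, g ≠ p → v ∈ g := fun g hg hgp => by
        by_contra hvg
        exact hgp (hper ▸ eq_of_subset_of_card_le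
          (fun x hx => mem_erase.2 ⟨fun h : x = v => hvg (h ▸ hx), (mem_powersetCard.1 hg).1 hx⟩)
          (by rw [card_erase_of_mem hvr, tri_card hrA, (mem_powersetCard.1 hg).2]))
      have hv1 : ∀ g ∈ W1, v ∉ g := fun g hg h => hv (mem_biUnion.2 ⟨g, hg, h⟩)
      have hold : ∀ g ∈ pairs r, g ∈ W1 → g = p := fun g hg hg1 => by
        by_contra h
        exact hv1 g hg1 (hnew g hg h)
      refine Or.inr ⟨?_, ?_, ?_, ?_⟩
      · rw [hW2]
        have hsd : pairs r \ W1 = (pairs r).erase p := by
          ext g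
          simp only [mem_sdiff, mem_erase]
          exact ⟨fun h => ⟨fun e : g = p => h.2 (e ▸ hpW1), h.1⟩,
            fun h => ⟨h.2, fun hg => h.1 (hold g h.2 hg)⟩⟩
        have hc : (W1 ∪ pairs r).card = W1.card + 2 := by
          rw [← union_sdiff_self_eq_union, card_union_of_disjoint disjoint_sdiff, hsd,
            card_erase_of_mem hp, pairs_card hrA]
        have hU : (verts W1 ∪ r).card = (verts W1).card + 1 := by
          rw [show verts W1 ∪ r = insert v (verts W1) from ?_, card_insert_of_notMem hv]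
          refine subset_antisymm (union_subset (subset_insert _ _) fun x hx => ?_)
            (insert_subset (mem_union_right _ hvr) subset_union_left)
          by_cases hxv : x = v
          · exact hxv ▸ mem_insert_self _ _
          · exact mem_insert_of_mem (mem_biUnion.2 ⟨p, hpW1, hper ▸ mem_erase.2 ⟨hxv, hx⟩⟩)
        have he : W1.card + 3 = 2 * (verts W1).card := hs.exact'
        rw [Exact, hverts, hc, hU]
        omega
      · intro x hx f hf f' hf' h h'
        rcases mem_insert.1 hx with rfl | hx
        · exact Or.inl ((hold f hf (mem_union_left _ h)).trans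
            (hold f' hf' (mem_union_left _ h')).symm)
        · exact hs.one x hx f hf f' hf' h h'
      · intro g hg a ha b hb hga hgb
        rcases mem_insert.1 ha with har | haX <;> rcases mem_insert.1 hb with hbr | hbX
        · exact har.trans hbr.symm
        · exact absurd ((hold g (har ▸ hga)
            (mem_union_right _ (mem_biUnion.2 ⟨b, hbX, hgb⟩))) ▸ hpW) hg
        · exact absurd ((hold g (hbr ▸ hgb)
            (mem_union_right _ (mem_biUnion.2 ⟨a, haX, hga⟩))) ▸ hpW) hg
        · exact hs.uniq g hg a haX b hbX hga hgb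
      · intro x hx hsub
        rw [hW2] at hsub
        by_cases hvx : v ∈ x
        · refine Or.inr (mem_insert.2 (Or.inl (eq_of_subset_of_card_le (fun y hy => ?_)
            (by rw [tri_card hx, tri_card hrA]))))
          by_cases hyv : y = v
          · exact hyv ▸ hvr
          have hg : ({v, y} : Finset V) ∈ pairs x := mem_powersetCard.2
            ⟨by simp [insert_subset_iff, hvx, hy], card_pair (Ne.symm hyv)⟩
          rcases mem_union.1 (hsub hg) with h | h
          · exact absurd (mem_insert_self v {y}) (hv1 _ h)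
          · exact (mem_powersetCard.1 h).1 (by simp)
        · have : pairs x ⊆ W1 := fun g hg => by
            rcases mem_union.1 (hsub hg) with h | h
            · exact h
            · by_cases hgp : g = p
              · exact hgp ▸ hpW1
              · exact absurd ((mem_powersetCard.1 hg).1 (hnew g h hgp)) hvx
          exact (hs.closed x hx this).imp_right mem_insert_of_mem

/-- The properties of a tree of triangles at level `j`. -/
structure TreeAt (A : Finset (Finset V)) (e : Finset V) (j : ℕ) : Prop where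
  one : ∀ r ∈ tri A, ∀ f ∈ pairs r, ∀ f' ∈ pairs r,
    f ∈ lev A e j → f' ∈ lev A e j → f = f' ∨ pairs r ⊆ lev A e j
  uniq : ∀ g ∉ lev A e j, ∀ r ∈ meet A (lev A e j), ∀ r' ∈ meet A (lev A e j),
    g ∈ pairs r → g ∈ pairs r' → r = r'
  closed : ∀ r ∈ tri A, pairs r ⊆ lev A e (j + 1) → r ∈ meet A (lev A e j)

theorem tree_or_over {A : Finset (Finset V)} {e : Finset V} (he : e.card = 2) (m : ℕ) :
    (∃ W ⊆ lev A e (m + 1), Over W) ∨ Exact (lev A e (m + 1)) ∧ ∀ j ≤ m, TreeAt A e j := by
  induction m with
  | zero =>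
    refine Or.inr ⟨by simp [Exact, verts, lev_one, he], fun j hj => ?_⟩
    obtain rfl := Nat.le_zero.1 hj
    refine ⟨fun r hr f _ f' _ hf => absurd hf (by simp [lev]), by simp [meet, lev], fun r hr h => ?_⟩
    rw [lev_one] at h
    have := card_le_card h
    rw [pairs_card hr] at this
    simp at this
  | succ m ih =>
    rcases ih with ⟨W, hW, ho⟩ | ⟨hex, htree⟩
    · exact Or.inl ⟨W, hW.trans (lev_mono A e (Nat.le_succ _)), ho⟩
    rcases sprout_or_over (A := A) hex ⟨e, self_mem_lev A e m⟩ _ subset_rfl with ⟨W, hW, ho⟩ | hs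
    · exact Or.inl ⟨W, by rwa [lev_step], ho⟩
    refine Or.inr ⟨by rw [lev_step]; exact hs.exact', fun j hj => ?_⟩
    rcases Nat.lt_or_eq_of_le hj with hj | rfl
    · exact htree j (by omega)
    refine ⟨fun r hr f hf f' hf' h h' => hs.one r (mem_filter.2 ⟨hr, f, hf, h⟩) f hf f' hf' h h',
      hs.uniq, fun r hr h => ?_⟩
    rw [lev_step] at h
    refine (hs.closed r hr h).elim (fun hsub => ?_) id
    obtain ⟨g, hg⟩ : (pairs r).Nonempty := by rw [← card_pos, pairs_card hr]; decide
    exact mem_filter.2 ⟨hr, g, hg, hsub hg⟩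

/-- `f` sits at level `j + 1`, created by `s`. -/
def Sits (A : Finset (Finset V)) (e : Finset V) (j : ℕ) (s f : Finset V) : Prop :=
  f ∈ lev A e (j + 1) ∧ f ∉ lev A e j ∧
    ∀ r ∈ tri A, f ∈ pairs r → (r ∈ meet A (lev A e j) ↔ r = s)

theorem sits_root (A : Finset (Finset V)) (e : Finset V) : Sits A e 0 ∅ e :=
  ⟨self_mem_lev A e 0, by simp [lev], fun r hr _ =>
    ⟨fun h => by simp [meet, lev] at h, fun h => absurd (h ▸ hr) (empty_not_tri A)⟩⟩

theorem others_meet {A : Finset (Finset V)} {e s f r : Finset V} {j : ℕ}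
    (h : Sits A e j s f) (hr : r ∈ others A s f) :
    r ∈ tri A ∧ f ∈ pairs r ∧ r ∈ meet A (lev A e (j + 1)) ∧ r ∉ meet A (lev A e j) := by
  obtain ⟨hne, hr⟩ := mem_erase.1 hr
  obtain ⟨hrA, hf⟩ := mem_filter.1 hr
  exact ⟨hrA, hf, mem_filter.2 ⟨hrA, f, hf, h.1⟩, fun hm => hne ((h.2.2 r hrA hf).1 hm)⟩

theorem child_sits {A : Finset (Finset V)} {e s f r g : Finset V} {j : ℕ}
    (h0 : TreeAt A e j) (h1 : TreeAt A e (j + 1)) (h : Sits A e j s f) (hr : r ∈ others A s f)
    (hg : g ∈ (pairs r).erase f) : Sits A e (j + 1) r g := by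
  obtain ⟨hrA, hf, hm, hn⟩ := others_meet h hr
  obtain ⟨hgf, hgr⟩ := mem_erase.1 hg
  have hg1 : g ∉ lev A e (j + 1) := fun hg1 => by
    rcases h1.one r hrA g hgr f hf hg1 h.1 with e' | e'
    · exact hgf e'
    · exact hn (h0.closed r hrA e')
  refine ⟨mem_lev_succ hm hgr, hg1, fun r' hr' hgr' => ⟨fun hm' => ?_, fun e' => e' ▸ hm⟩⟩
  exact h1.uniq g hg1 r' hm' r hm hgr' hgr

theorem meet_mono {A W W' : Finset (Finset V)} (h : W ⊆ W') : meet A W ⊆ meet A W' := fun r hr => by
  obtain ⟨hrA, g, hg, hgW⟩ := mem_filter.1 hr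
  exact mem_filter.2 ⟨hrA, g, hg, h hgW⟩

theorem branch_avoid {A : Finset (Finset V)} {e : Finset V} :
    ∀ (k j : ℕ) (s f : Finset V), (∀ i ≤ j + k, TreeAt A e i) → Sits A e j s f →
      ∀ r ∈ branch A k s f, r ∉ meet A (lev A e j) := by
  intro k
  induction k with
  | zero => simp [branch]
  | succ k ih =>
    intro j s f ht h r hr
    rcases mem_union.1 hr with hr | hr
    · exact (others_meet h hr).2.2.2
    · obtain ⟨p, hp, hr⟩ := mem_biUnion.1 hr
      obtain ⟨hp1, hp2⟩ := mem_sigma.1 hp
      exact fun hm => ih (j + 1) p.1 p.2 (fun i hi => ht i (by omega))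
        (child_sits (ht j (by omega)) (ht (j + 1) (by omega)) h hp1 hp2) r hr
        (meet_mono (lev_mono A e (Nat.le_succ j)) hm)

theorem branch_disjoint {A : Finset (Finset V)} {e : Finset V} :
    ∀ (k j : ℕ) (s f s' f' : Finset V), (∀ i ≤ j + k, TreeAt A e i) → Sits A e j s f →
      Sits A e j s' f' → f ≠ f' → Disjoint (branch A k s f) (branch A k s' f') := by
  intro k
  induction k with
  | zero => simp [branch]
  | succ k ih =>
    intro j s f s' f' ht h h' hff
    have hone : ∀ r, r ∈ others A s f → r ∈ others A s' f' → False := fun r hr hr' => by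
      obtain ⟨hrA, hf, -, hn⟩ := others_meet h hr
      rcases (ht (j + 1) (by omega)).one r hrA f hf f' (others_meet h' hr').2.1 h.1 h'.1 with
        e' | e'
      · exact hff e'
      · exact hn ((ht j (by omega)).closed r hrA e')
    have hmix : ∀ {s f s' f' r}, Sits A e j s f → Sits A e j s' f' → r ∈ others A s f →
        r ∈ (children A s' f').biUnion (fun p => branch A k p.1 p.2) → False := by
      intro s f s' f' r h h' hr hr'
      obtain ⟨p, hp, hr'⟩ := mem_biUnion.1 hr'
      obtain ⟨hp1, hp2⟩ := mem_sigma.1 hp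
      exact branch_avoid k (j + 1) p.1 p.2 (fun i hi => ht i (by omega))
        (child_sits (ht j (by omega)) (ht (j + 1) (by omega)) h' hp1 hp2) r hr'
        (others_meet h hr).2.2.1
    rw [Finset.disjoint_left]
    intro r hr hr'
    rcases mem_union.1 hr with hr | hr <;> rcases mem_union.1 hr' with hr' | hr'
    · exact hone r hr hr'
    · exact hmix h h' hr hr'
    · exact hmix h' h hr' hr
    · obtain ⟨⟨a, g⟩, hp, hr⟩ := mem_biUnion.1 hr
      obtain ⟨⟨a', g'⟩, hp', hr'⟩ := mem_biUnion.1 hr'
      obtain ⟨hp1, hp2⟩ := mem_sigma.1 hp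
      obtain ⟨hp1', hp2'⟩ := mem_sigma.1 hp'
      have hs := child_sits (ht j (by omega)) (ht (j + 1) (by omega)) h hp1 hp2
      have hs' := child_sits (ht j (by omega)) (ht (j + 1) (by omega)) h' hp1' hp2'
      have hgg : g ≠ g' := by
        rintro rfl
        obtain ⟨haA, -, hm, -⟩ := others_meet h hp1
        have : a = a' := (hs'.2.2 a haA (mem_of_mem_erase hp2)).1 hm
        exact hone a hp1 (this ▸ hp1')
      exact Finset.disjoint_left.1
        (ih (j + 1) a g a' g' (fun i hi => ht i (by omega)) hs hs' hgg) hr hr'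

theorem apart_of_tree {A : Finset (Finset V)} {e : Finset V} :
    ∀ (k j : ℕ) (s f : Finset V), (∀ i ≤ j + k, TreeAt A e i) → Sits A e j s f →
      Apart A k s f := by
  intro k
  induction k with
  | zero => exact fun _ _ _ _ _ => trivial
  | succ k ih =>
    intro j s f ht h
    have hc : ∀ p ∈ children A s f, Sits A e (j + 1) p.1 p.2 := fun p hp =>
      child_sits (ht j (by omega)) (ht (j + 1) (by omega)) h (mem_sigma.1 hp).1 (mem_sigma.1 hp).2
    refine ⟨fun p hp => ⟨ih (j + 1) p.1 p.2 (fun i hi => ht i (by omega)) (hc p hp), ?_⟩,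
      fun p hp q hq hpq => branch_disjoint k (j + 1) p.1 p.2 q.1 q.2 (fun i hi => ht i (by omega))
        (hc p hp) (hc q hq) fun he => ?_⟩
    · exact Finset.disjoint_right.2 fun r hr hr' => branch_avoid k (j + 1) p.1 p.2
        (fun i hi => ht i (by omega)) (hc p hp) r hr (others_meet h hr').2.2.1
    · obtain ⟨a, g⟩ := p
      obtain ⟨b, g'⟩ := q
      obtain rfl : g = g' := he
      obtain ⟨haA, -, hm, -⟩ := others_meet h (mem_sigma.1 hp).1
      have hga : g ∈ pairs a := mem_of_mem_erase (mem_sigma.1 hp).2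
      obtain rfl : a = b := ((hc _ hq).2.2 a haA hga).1 hm
      exact hpq rfl

/-- Around an edge the branches are apart or a witness lies nearby. -/
theorem apart_or_over {A : Finset (Finset V)} {e : Finset V} (he : e.card = 2) (k : ℕ) :
    (∃ W ⊆ lev A e (k + 1), Over W) ∨ Apart A k ∅ e :=
  (tree_or_over he k).imp_right fun h =>
    apart_of_tree k 0 ∅ e (fun i hi => h.2 i (by omega)) (sits_root A e)

theorem branch_subset {A : Finset (Finset V)} {e : Finset V} :
    ∀ (k j : ℕ) (s f : Finset V), f ∈ lev A e (j + 1) →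
      branch A k s f ⊆ meet A (lev A e (j + k)) := by
  intro k
  induction k with
  | zero => simp [branch]
  | succ k ih =>
    intro j s f hf r hr
    rcases mem_union.1 hr with hr | hr
    · obtain ⟨hrA, hfr⟩ := mem_filter.1 (mem_of_mem_erase hr)
      exact mem_filter.2 ⟨hrA, f, hfr, lev_mono A e (by omega) hf⟩
    · obtain ⟨p, hp, hr⟩ := mem_biUnion.1 hr
      obtain ⟨hp1, hp2⟩ := mem_sigma.1 hp
      obtain ⟨hrA, hfr⟩ := mem_filter.1 (mem_of_mem_erase hp1)
      have hg : p.2 ∈ lev A e (j + 2) :=
        mem_lev_succ (mem_filter.2 ⟨hrA, f, hfr, hf⟩) (mem_of_mem_erase hp2)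
      have := ih (j + 1) p.1 p.2 hg hr
      rwa [show j + 1 + k = j + (k + 1) by omega] at this

end Vale.Agent.P046.Const.Law
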