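import Vale.Agent.P046.Const.Defs

/-!
P046: the cavity equations of random greedy triangle removal.

`cav A s e x` is the chance that the triangle `s` has killed the edge `e` by time `x` in the
computation tree of `e`. It is the limit of the iteration `iter`, which alternates around it.
-/

namespace Vale.Agent.P046.Const.Law

open Finset MeasureTheory Filter Vale.Agent.P046.Gap
open scoped Topology

variable {V : Type} [Fintype V] [DecidableEq V]

/-- The triangles at `f` other than `s`. -/
def others (A : Finset (Finset V)) (s f : Finset V) : Finset (Finset V) :=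
  (triEdge A f).erase s

/-- The chance that both other edges of `s` are alive at time `x`. -/
noncomputable def rateAt (A : Finset (Finset V)) (I : Finset V → Finset V → ℝ → ℝ)
    (s e : Finset V) (x : ℝ) : ℝ :=
  ∏ f ∈ (pairs s).erase e, ∏ s' ∈ others A s f, (1 - I s' f x)

/-- The clamp to the unit interval. -/
noncomputable def clamp (t : ℝ) : ℝ := max 0 (min t 1)

/-- The iteration of the cavity equations. -/
noncomputable def iter (A : Finset (Finset V)) : ℕ → Finset V → Finset V → ℝ → ℝ
  | 0 => fun _ _ _ => 0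
  | k + 1 => fun s e x => ∫ t in (0 : ℝ)..x, rateAt A (iter A k) s e (clamp t)

/-- The solution of the cavity equations. -/
noncomputable def cav (A : Finset (Finset V)) (s e : Finset V) (x : ℝ) : ℝ :=
  ∫ t in (0 : ℝ)..x, rateAt A (fun s e y => limUnder atTop fun k => iter A k s e y) s e (clamp t)

theorem clamp_mem (t : ℝ) : clamp t ∈ Set.Icc (0 : ℝ) 1 := by
  simp [clamp]

theorem clamp_of_mem {t : ℝ} (h : t ∈ Set.Icc (0 : ℝ) 1) : clamp t = t := by
  simp [clamp, h.1, h.2]

@[fun_prop]
theorem continuous_clamp : Continuous clamp := by unfold clamp; fun_prop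

theorem prod_one_sub_mem {ι : Type*} (s : Finset ι) {a : ι → ℝ}
    (h : ∀ i ∈ s, a i ∈ Set.Icc (0 : ℝ) 1) : ∏ i ∈ s, (1 - a i) ∈ Set.Icc (0 : ℝ) 1 :=
  ⟨prod_nonneg fun i hi => by linarith [(h i hi).2],
    prod_le_one (fun i hi => by linarith [(h i hi).2]) fun i hi => by linarith [(h i hi).1]⟩

theorem abs_prod_sub {ι : Type*} (s : Finset ι) {a b : ι → ℝ} (ha : ∀ i ∈ s, |a i| ≤ 1)
    (hb : ∀ i ∈ s, |b i| ≤ 1) : |∏ i ∈ s, a i - ∏ i ∈ s, b i| ≤ ∑ i ∈ s, |a i - b i| := by
  classical
  induction s using Finset.induction with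
  | empty => simp
  | insert j s hj ih =>
    rw [prod_insert hj, prod_insert hj, sum_insert hj]
    have h1 := ih (fun i hi => ha i (mem_insert_of_mem hi)) fun i hi => hb i (mem_insert_of_mem hi)
    have hP : |∏ i ∈ s, b i| ≤ 1 := by
      rw [abs_prod]
      exact prod_le_one (fun i _ => abs_nonneg _) fun i hi => hb i (mem_insert_of_mem hi)
    calc |a j * ∏ i ∈ s, a i - b j * ∏ i ∈ s, b i|
        = |a j * (∏ i ∈ s, a i - ∏ i ∈ s, b i) + (a j - b j) * ∏ i ∈ s, b i| := by ring_nf
      _ ≤ |a j| * |∏ i ∈ s, a i - ∏ i ∈ s, b i| + |a j - b j| * |∏ i ∈ s, b i| := by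
          rw [← abs_mul, ← abs_mul]; exact abs_add_le _ _
      _ ≤ 1 * ∑ i ∈ s, |a i - b i| + |a j - b j| * 1 :=
          add_le_add (mul_le_mul (ha j (mem_insert_self j s)) h1 (abs_nonneg _) zero_le_one)
            (mul_le_mul_of_nonneg_left hP (abs_nonneg _))
      _ = |a j - b j| + ∑ i ∈ s, |a i - b i| := by ring

theorem rate_mem {A : Finset (Finset V)} {I : Finset V → Finset V → ℝ → ℝ} {x : ℝ}
    (h : ∀ s e, I s e x ∈ Set.Icc (0 : ℝ) 1) (s e : Finset V) :
    rateAt A I s e x ∈ Set.Icc (0 : ℝ) 1 :=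
  ⟨prod_nonneg fun f _ => (prod_one_sub_mem _ fun s' _ => h s' f).1,
    prod_le_one (fun f _ => (prod_one_sub_mem _ fun s' _ => h s' f).1)
      fun f _ => (prod_one_sub_mem _ fun s' _ => h s' f).2⟩

theorem rate_anti {A : Finset (Finset V)} {I J : Finset V → Finset V → ℝ → ℝ} {x : ℝ}
    (hJ : ∀ s e, J s e x ≤ 1) (h : ∀ s e, I s e x ≤ J s e x) (s e : Finset V) :
    rateAt A J s e x ≤ rateAt A I s e x :=
  prod_le_prod (fun f _ => prod_nonneg fun s' _ => by linarith [hJ s' f]) fun f _ =>
    prod_le_prod (fun s' _ => by linarith [hJ s' f]) fun s' _ => by linarith [h s' f]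

/-- A crude Lipschitz constant of the rateAt. -/
noncomputable def lip (V : Type) [Fintype V] : ℝ := (Fintype.card (Finset V) : ℝ) ^ 2

theorem rate_lip {A : Finset (Finset V)} {I J : Finset V → Finset V → ℝ → ℝ} {x B : ℝ}
    (hI : ∀ s e, I s e x ∈ Set.Icc (0 : ℝ) 1) (hJ : ∀ s e, J s e x ∈ Set.Icc (0 : ℝ) 1)
    (h : ∀ s e, |I s e x - J s e x| ≤ B) (s e : Finset V) :
    |rateAt A I s e x - rateAt A J s e x| ≤ lip V * B := by
  have hB : 0 ≤ B := le_trans (abs_nonneg _) (h s e)
  have habs : ∀ {r : ℝ}, r ∈ Set.Icc (0 : ℝ) 1 → |r| ≤ 1 := fun hr =>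
    (abs_of_nonneg hr.1).trans_le hr.2
  have hone : ∀ {r : ℝ}, r ∈ Set.Icc (0 : ℝ) 1 → |1 - r| ≤ 1 := fun hr => by
    rw [abs_of_nonneg (by linarith [hr.2])]; linarith [hr.1]
  refine (abs_prod_sub _ (fun f _ => habs (prod_one_sub_mem _ fun s' _ => hI s' f))
    fun f _ => habs (prod_one_sub_mem _ fun s' _ => hJ s' f)).trans ?_
  calc ∑ f ∈ (pairs s).erase e, |∏ s' ∈ others A s f, (1 - I s' f x) -
        ∏ s' ∈ others A s f, (1 - J s' f x)|
      ≤ ∑ f ∈ (pairs s).erase e, ∑ s' ∈ others A s f, B := sum_le_sum fun f _ =>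
        (abs_prod_sub _ (fun s' _ => hone (hI s' f)) fun s' _ => hone (hJ s' f)).trans
          (sum_le_sum fun s' _ => by
            rw [show 1 - I s' f x - (1 - J s' f x) = -(I s' f x - J s' f x) by ring, abs_neg]
            exact h s' f)
    _ ≤ ∑ f : Finset V, ∑ _s' : Finset V, B :=
        (sum_le_sum fun f _ => sum_le_sum_of_subset_of_nonneg (subset_univ _) fun _ _ _ => hB).trans
          (sum_le_sum_of_subset_of_nonneg (subset_univ _)
            fun _ _ _ => sum_nonneg fun _ _ => hB)
    _ = lip V * B := by simp [lip]; ring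

theorem continuous_rateAt {A : Finset (Finset V)} {I : Finset V → Finset V → ℝ → ℝ}
    (h : ∀ s e, Continuous (I s e)) (s e : Finset V) : Continuous (rateAt A I s e) :=
  continuous_finsetProd _ fun f _ => continuous_finsetProd _ fun s' _ =>
    continuous_const.sub (h s' f)

theorem continuous_iter (A : Finset (Finset V)) (k : ℕ) (s e : Finset V) :
    Continuous (iter A k s e) := by
  induction k generalizing s e with
  | zero => exact continuous_const
  | succ k ih =>
    exact intervalIntegral.continuous_primitive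
      (fun a b => ((continuous_rateAt ih s e).comp continuous_clamp).intervalIntegrable a b) 0

theorem primitive_mem {g : ℝ → ℝ} (hg : Continuous g) (h : ∀ t, g t ∈ Set.Icc (0 : ℝ) 1) {x : ℝ}
    (hx : 0 ≤ x) : ∫ t in (0 : ℝ)..x, g t ∈ Set.Icc (0 : ℝ) x := by
  refine ⟨intervalIntegral.integral_nonneg hx fun t _ => (h t).1, ?_⟩
  have := intervalIntegral.integral_mono_on hx (hg.intervalIntegrable (μ := volume) 0 x)
    (intervalIntegrable_const (μ := volume) (c := (1 : ℝ))) fun t _ => (h t).2
  simpa using this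

theorem iter_mem (A : Finset (Finset V)) (k : ℕ) (s e : Finset V) {x : ℝ}
    (hx : x ∈ Set.Icc (0 : ℝ) 1) : iter A k s e x ∈ Set.Icc (0 : ℝ) x := by
  induction k generalizing s e x with
  | zero => simp [iter, hx.1]
  | succ k ih =>
    exact primitive_mem ((continuous_rateAt (continuous_iter A k) s e).comp continuous_clamp)
      (fun t => rate_mem (fun s e =>
        ⟨(ih s e (clamp_mem t)).1, (ih s e (clamp_mem t)).2.trans (clamp_mem t).2⟩) s e) hx.1

theorem iter_mem_unit (A : Finset (Finset V)) (k : ℕ) (s e : Finset V) {x : ℝ}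
    (hx : x ∈ Set.Icc (0 : ℝ) 1) : iter A k s e x ∈ Set.Icc (0 : ℝ) 1 :=
  ⟨(iter_mem A k s e hx).1, (iter_mem A k s e hx).2.trans hx.2⟩

theorem iter_step (A : Finset (Finset V)) (k : ℕ) (s e : Finset V) {x : ℝ}
    (hx : x ∈ Set.Icc (0 : ℝ) 1) :
    |iter A (k + 1) s e x - iter A k s e x| ≤ lip V ^ k * x ^ (k + 1) / (k + 1).factorial := by
  induction k generalizing s e x with
  | zero =>
    have := iter_mem A 1 s e hx
    simp [iter] at this ⊢
    rw [abs_of_nonneg this.1]
    exact this.2
  | succ k ih =>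
    have hc : ∀ j, Continuous fun t => rateAt A (iter A j) s e (clamp t) := fun j =>
      (continuous_rateAt (continuous_iter A j) s e).comp continuous_clamp
    show |(∫ t in (0 : ℝ)..x, rateAt A (iter A (k + 1)) s e (clamp t)) -
      ∫ t in (0 : ℝ)..x, rateAt A (iter A k) s e (clamp t)| ≤ _
    rw [← intervalIntegral.integral_sub ((hc _).intervalIntegrable _ _)
      ((hc _).intervalIntegrable _ _), ← Real.norm_eq_abs]
    refine (intervalIntegral.norm_integral_le_of_norm_le hx.1 (g := fun t =>
      lip V * (lip V ^ k * t ^ (k + 1) / (k + 1).factorial)) (Eventually.of_forall fun t ht => ?_)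
      (Continuous.intervalIntegrable (by fun_prop) _ _)).trans (le_of_eq ?_)
    · have ht' : t ∈ Set.Icc (0 : ℝ) 1 := ⟨ht.1.le, ht.2.trans hx.2⟩
      rw [Real.norm_eq_abs, clamp_of_mem ht']
      exact rate_lip (fun s e => iter_mem_unit A _ s e ht') (fun s e => iter_mem_unit A _ s e ht')
        (fun s e => ih s e ht') s e
    · rw [intervalIntegral.integral_const_mul, intervalIntegral.integral_div,
        intervalIntegral.integral_const_mul, integral_pow, Nat.factorial_succ (k + 1)]
      push_cast
      field_simp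
      ring

theorem tendsto_iter (A : Finset (Finset V)) (s e : Finset V) {x : ℝ}
    (hx : x ∈ Set.Icc (0 : ℝ) 1) :
    Tendsto (fun k => iter A k s e x) atTop
      (𝓝 (limUnder atTop fun k => iter A k s e x)) := by
  refine CauchySeq.tendsto_limUnder (cauchySeq_of_dist_le_of_summable
    (fun k => lip V ^ k / k.factorial) (fun k => ?_) (Real.summable_pow_div_factorial _))
  rw [Real.dist_eq, abs_sub_comm]
  refine (iter_step A k s e hx).trans ?_
  have h0 : 0 ≤ lip V := sq_nonneg _
  refine div_le_div₀ (pow_nonneg h0 k) ?_ (by positivity) ?_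
  · exact mul_le_of_le_one_right (pow_nonneg h0 k) (pow_le_one₀ hx.1 hx.2)
  · exact_mod_cast Nat.factorial_le (Nat.le_succ k)

theorem tendsto_rateAt (A : Finset (Finset V)) (s e : Finset V) (t : ℝ) :
    Tendsto (fun k => rateAt A (iter A k) s e (clamp t)) atTop
      (𝓝 (rateAt A (fun s e y => limUnder atTop fun k => iter A k s e y) s e (clamp t))) :=
  tendsto_finsetProd _ fun f _ => tendsto_finsetProd _ fun s' _ =>
    (tendsto_iter A s' f (clamp_mem t)).const_sub 1

theorem tendsto_cav (A : Finset (Finset V)) (s e : Finset V) (x : ℝ) :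
    Tendsto (fun k => iter A k s e x) atTop (𝓝 (cav A s e x)) := by
  rw [← tendsto_add_atTop_iff_nat 1]
  exact intervalIntegral.tendsto_integral_filter_of_dominated_convergence (fun _ => 1)
    (Eventually.of_forall fun k =>
      ((continuous_rateAt (continuous_iter A k) s e).comp continuous_clamp).aestronglyMeasurable)
    (Eventually.of_forall fun k => Eventually.of_forall fun t _ => by
      have := rate_mem (A := A) (fun s e => iter_mem_unit A k s e (clamp_mem t)) s e
      rw [Real.norm_eq_abs, abs_of_nonneg this.1]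
      exact this.2)
    intervalIntegrable_const (Eventually.of_forall fun t _ => tendsto_rateAt A s e t)

theorem cav_eq_lim (A : Finset (Finset V)) (s e : Finset V) {x : ℝ}
    (hx : x ∈ Set.Icc (0 : ℝ) 1) :
    (limUnder atTop fun k => iter A k s e x) = cav A s e x :=
  tendsto_nhds_unique (tendsto_iter A s e hx) (tendsto_cav A s e x)

theorem cav_mem (A : Finset (Finset V)) (s e : Finset V) {x : ℝ}
    (hx : x ∈ Set.Icc (0 : ℝ) 1) : cav A s e x ∈ Set.Icc (0 : ℝ) x :=
  isClosed_Icc.mem_of_tendsto (tendsto_cav A s e x)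
    (Eventually.of_forall fun k => iter_mem A k s e hx)

theorem cav_mem_unit (A : Finset (Finset V)) (s e : Finset V) {x : ℝ}
    (hx : x ∈ Set.Icc (0 : ℝ) 1) : cav A s e x ∈ Set.Icc (0 : ℝ) 1 :=
  ⟨(cav_mem A s e hx).1, (cav_mem A s e hx).2.trans hx.2⟩

theorem cav_eq (A : Finset (Finset V)) (s e : Finset V) (x : ℝ) :
    cav A s e x = ∫ t in (0 : ℝ)..x, rateAt A (cav A) s e (clamp t) :=
  intervalIntegral.integral_congr fun t _ => prod_congr rfl fun f _ => prod_congr rfl fun s' _ =>
    congrArg (1 - ·) (cav_eq_lim A s' f (clamp_mem t))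

theorem continuous_cav (A : Finset (Finset V)) (s e : Finset V) : Continuous (cav A s e) := by
  refine LipschitzWith.continuous (K := 1) (LipschitzWith.of_dist_le_mul fun x y => ?_)
  have hlim := ((tendsto_cav A s e x).comp (tendsto_add_atTop_nat 1)).dist
    ((tendsto_cav A s e y).comp (tendsto_add_atTop_nat 1))
  refine le_of_tendsto hlim (Eventually.of_forall fun k => ?_)
  have hc : Continuous fun t => rateAt A (iter A k) s e (clamp t) :=
    (continuous_rateAt (continuous_iter A k) s e).comp continuous_clamp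
  simp only [Function.comp, iter, Real.dist_eq, NNReal.coe_one, one_mul]
  rw [intervalIntegral.integral_interval_sub_left (hc.intervalIntegrable _ _)
    (hc.intervalIntegrable _ _), ← Real.norm_eq_abs]
  refine (intervalIntegral.norm_integral_le_of_norm_le_const (C := 1) fun t _ => ?_).trans
    (one_mul _).le
  have := rate_mem (A := A) (fun s e => iter_mem_unit A k s e (clamp_mem t)) s e
  rw [Real.norm_eq_abs, abs_of_nonneg this.1]
  exact this.2

/-- The cavity equation. -/
theorem cav_hasDeriv (A : Finset (Finset V)) (s e : Finset V) {x : ℝ}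
    (hx : x ∈ Set.Icc (0 : ℝ) 1) :
    HasDerivAt (cav A s e)
      (∏ f ∈ (pairs s).erase e,
        ∏ s' ∈ others A s f, (1 - cav A s' f x)) x := by
  have hc := (continuous_rateAt (A := A) (continuous_cav A) s e).comp continuous_clamp
  have h := intervalIntegral.integral_hasDerivAt_right (hc.intervalIntegrable 0 x)
    hc.stronglyMeasurable.stronglyMeasurableAtFilter hc.continuousAt
  rw [show cav A s e = fun y => ∫ t in (0 : ℝ)..y, rateAt A (cav A) s e (clamp t) from
    funext (cav_eq A s e)]
  simpa [Function.comp, clamp_of_mem hx, rateAt, others] using h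

theorem iter_eq_picard (A : Finset (Finset V)) (k : ℕ) (s e : Finset V) {x : ℝ}
    (hx : x ∈ Set.Icc (0 : ℝ) 1) : iter A k s e x = picard A k s e x := by
  induction k generalizing s e x with
  | zero => rfl
  | succ k ih =>
    refine intervalIntegral.integral_congr fun t ht => ?_
    rw [Set.uIcc_of_le hx.1] at ht
    have ht' : t ∈ Set.Icc (0 : ℝ) 1 := ⟨ht.1, ht.2.trans hx.2⟩
    simp only [clamp_of_mem ht']
    exact prod_congr rfl fun f _ => prod_congr rfl fun s' _ => by rw [ih s' f ht']

/-- The cavity equation has a solution. -/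
theorem cav_exists : CavExists := fun V _ _ A =>
  ⟨cav A, fun s _ e _ _ hx =>
    ⟨(cav_mem A s e hx).1, (cav_mem A s e hx).2, (cav_hasDeriv A s e hx).hasDerivWithinAt⟩⟩

end Vale.Agent.P046.Const.Law
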