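import Vale.Agent.P046.Const.Rules
import Vale.Agent.P046.Const.CavSol

/-!
P046: at a root whose branches do not overlap the local rules follow the cavity iteration.

`branch A k s f` is the set of triangles that decide the depth `k` rule at `f` with `s` removed.
The root `e` uses `s = ∅`, which is no triangle.
-/

namespace Vale.Agent.P046.Const.Law

open Finset MeasureTheory Function Vale.Agent.P046.Gap

variable {V : Type} [Fintype V] [DecidableEq V]

/-- The index set of the children of `f` away from `s`. -/
def children (A : Finset (Finset V)) (s f : Finset V) : Finset (Σ _ : Finset V, Finset V) :=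
  (others A s f).sigma fun s' => (pairs s').erase f

/-- The triangles below `f` away from `s`, down to depth `k`. -/
def branch (A : Finset (Finset V)) : ℕ → Finset V → Finset V → Finset (Finset V)
  | 0, _, _ => ∅
  | k + 1, s, f => others A s f ∪ (children A s f).biUnion fun p => branch A k p.1 p.2

/-- The branches below `f` do not overlap, down to depth `k`. -/
def Apart (A : Finset (Finset V)) : ℕ → Finset V → Finset V → Prop
  | 0, _, _ => True
  | k + 1, s, f =>
      (∀ p ∈ children A s f, Apart A k p.1 p.2 ∧ Disjoint (others A s f) (branch A k p.1 p.2)) ∧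
      ∀ p ∈ children A s f, ∀ q ∈ children A s f, p ≠ q →
        Disjoint (branch A k p.1 p.2) (branch A k q.1 q.2)

/-- The depth `k` rule with the triangle `s` removed. -/
def locx (A : Finset (Finset V)) (T : Finset V → ℝ) : ℕ → Finset V → Finset V → ℝ → Prop
  | 0, _, _, _ => True
  | k + 1, s, f, x => ∀ s' ∈ others A s f, T s' < x →
      ∃ g ∈ (pairs s').erase f, ¬ locx A T k s' g (T s')

theorem empty_not_tri (A : Finset (Finset V)) : (∅ : Finset V) ∉ tri A := fun h => by
  simpa using tri_card h

theorem loc_iff_locx (A : Finset (Finset V)) (T : Finset V → ℝ) :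
    ∀ (k : ℕ) (s f : Finset V) (x : ℝ), (s ∈ tri A → x ≤ T s) →
      (loc A T k f x ↔ locx A T k s f x) := by
  intro k
  induction k with
  | zero => exact fun _ _ _ _ => Iff.rfl
  | succ k ih =>
    intro s f x hx
    constructor
    · intro h s' hs' hlt
      obtain ⟨hs'A, hfs⟩ := mem_filter.1 (mem_of_mem_erase hs')
      obtain ⟨g, hg, hgf, hn⟩ := h s' hs'A hfs hlt
      exact ⟨g, mem_erase.2 ⟨hgf, hg⟩, fun hl => hn ((ih s' g _ fun _ => le_rfl).2 hl)⟩
    · intro h s' hs' hfs hlt
      have hne : s' ≠ s := fun e => not_le.2 hlt (e ▸ hx (e ▸ hs'))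
      obtain ⟨g, hg, hn⟩ := h s' (mem_erase.2 ⟨hne, mem_filter.2 ⟨hs', hfs⟩⟩) hlt
      exact ⟨g, mem_of_mem_erase hg, ne_of_mem_erase hg,
        fun hl => hn ((ih s' g _ fun _ => le_rfl).1 hl)⟩

theorem loc_eq_locx (A : Finset (Finset V)) (T : Finset V → ℝ) (k : ℕ) (e : Finset V) (x : ℝ) :
    loc A T k e x ↔ locx A T k ∅ e x :=
  loc_iff_locx A T k ∅ e x fun h => absurd h (empty_not_tri A)

theorem locx_congr (A : Finset (Finset V)) :
    ∀ (k : ℕ) (s f : Finset V) (x : ℝ) (T T' : Finset V → ℝ),
      (∀ r ∈ branch A k s f, T r = T' r) → (locx A T k s f x ↔ locx A T' k s f x) := by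
  intro k
  induction k with
  | zero => exact fun _ _ _ _ _ _ => Iff.rfl
  | succ k ih =>
    intro s f x T T' h
    refine forall₂_congr fun s' hs' => ?_
    have hs : T s' = T' s' := h s' (mem_union_left _ hs')
    rw [hs]
    refine imp_congr_right fun _ => exists_congr fun g => and_congr_right fun hg =>
      not_congr (ih s' g _ T T' fun r hr => h r (mem_union_right _ (mem_biUnion.2
        ⟨⟨s', g⟩, mem_sigma.2 ⟨hs', hg⟩, hr⟩)))

theorem measurableSet_locx (A : Finset (Finset V)) (k : ℕ) (s f : Finset V)
    {φ : (Finset V → ℝ) → ℝ} (hφ : Measurable φ) :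
    MeasurableSet {T | locx A T k s f (φ T)} := by
  induction k generalizing s f φ with
  | zero => simp [locx]
  | succ k ih =>
    have : {T | locx A T (k + 1) s f (φ T)} = ⋂ s' ∈ others A s f,
        {T | T s' < φ T}ᶜ ∪ ⋃ g ∈ (pairs s').erase f, {T | locx A T k s' g (T s')}ᶜ := by
      ext T
      simp [locx, imp_iff_not_or]
    rw [this]
    exact MeasurableSet.biInter (Set.to_countable _) fun s' _ =>
      ((measurableSet_lt (measurable_pi_apply s') hφ).compl).union
        (MeasurableSet.biUnion (Set.to_countable _)
          fun g _ => (ih s' g (measurable_pi_apply s')).compl)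

theorem times_pieces (S : Finset (Finset V)) :
    ((times V).prod (times V)).map (fun p i => if i ∈ S then p.1 i else p.2 i) = times V := by
  refine (Measure.pi_eq fun s hs => ?_).symm
  have hpre : (fun (p : (Finset V → ℝ) × (Finset V → ℝ)) i => if i ∈ S then p.1 i else p.2 i) ⁻¹'
      Set.univ.pi s = (Set.univ.pi fun i => if i ∈ S then s i else Set.univ) ×ˢ
        Set.univ.pi fun i => if i ∈ S then Set.univ else s i := by
    ext p
    simp only [Set.mem_preimage, Set.mem_pi, Set.mem_univ, true_implies, Set.mem_prod]
    constructor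
    · intro h
      constructor <;> intro i <;> have := h i <;> split_ifs at this ⊢ <;> simp_all
    · rintro ⟨h1, h2⟩ i
      have a := h1 i
      have b := h2 i
      split_ifs at a b ⊢ <;> assumption
  rw [Measure.map_apply (measurable_pi_iff.2 fun i => by split_ifs <;> fun_prop)
    (MeasurableSet.univ_pi hs), hpre, Measure.prod_prod, times, Measure.pi_pi, Measure.pi_pi,
    ← prod_mul_distrib]
  refine prod_congr rfl fun i _ => ?_
  split_ifs <;> simp

/-- Functions of disjoint sets of times are independent. -/
theorem integral_mul_of_disjoint (S : Finset (Finset V)) {F G : (Finset V → ℝ) → ℝ}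
    (hF : Measurable F) (hG : Measurable G)
    (hFS : ∀ T T', (∀ i ∈ S, T i = T' i) → F T = F T')
    (hGS : ∀ T T', (∀ i, i ∉ S → T i = T' i) → G T = G T') :
    ∫ T, F T * G T ∂times V = (∫ T, F T ∂times V) * ∫ T, G T ∂times V := by
  conv_lhs => rw [← times_pieces S]
  have hFG : Measurable fun T => F T * G T := hF.mul hG
  rw [integral_map (measurable_pi_iff.2 fun i => by split_ifs <;> fun_prop).aemeasurable
    hFG.aestronglyMeasurable, ← integral_prod_mul F G]
  refine integral_congr_ae (Filter.Eventually.of_forall fun p => ?_)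
  simp only
  rw [hFS _ p.1 fun i hi => if_pos hi, hGS _ p.2 fun i hi => if_neg hi]

theorem integral_prod_of_disjoint {ι : Type*} (I : Finset ι) (F : ι → (Finset V → ℝ) → ℝ)
    (S : ι → Finset (Finset V)) (hF : ∀ i ∈ I, Measurable (F i))
    (hS : ∀ i ∈ I, ∀ T T', (∀ r ∈ S i, T r = T' r) → F i T = F i T')
    (hdisj : ∀ i ∈ I, ∀ j ∈ I, i ≠ j → Disjoint (S i) (S j)) :
    ∫ T, ∏ i ∈ I, F i T ∂times V = ∏ i ∈ I, ∫ T, F i T ∂times V := by
  classical
  induction I using Finset.induction with
  | empty => simp
  | insert j I hj ih =>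
    simp only [prod_insert hj]
    rw [integral_mul_of_disjoint (S j) (hF j (mem_insert_self j I))
      (Finset.measurable_fun_prod _ fun i hi => hF i (mem_insert_of_mem hi))
      (hS j (mem_insert_self j I)) fun T T' h => prod_congr rfl fun i hi =>
        hS i (mem_insert_of_mem hi) T T' fun r hr => h r ?_,
      ih (fun i hi => hF i (mem_insert_of_mem hi)) (fun i hi => hS i (mem_insert_of_mem hi))
        fun a ha b hb => hdisj a (mem_insert_of_mem ha) b (mem_insert_of_mem hb)]
    exact Finset.disjoint_right.1 (hdisj j (mem_insert_self j I) i (mem_insert_of_mem hi)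
      fun e => hj (e ▸ hi)) hr

open Classical in
/-- The indicator of a proposition. -/
noncomputable def ind (p : Prop) : ℝ := if p then 1 else 0

theorem ind_mem (p : Prop) : ind p ∈ Set.Icc (0 : ℝ) 1 := by
  rw [ind]; split_ifs <;> norm_num

theorem measurable_ind {α : Type*} [MeasurableSpace α] {p : α → Prop}
    (h : MeasurableSet {a | p a}) : Measurable fun a => ind (p a) :=
  Measurable.ite h measurable_const measurable_const

omit [DecidableEq V] in
theorem integrable_unit {F : (Finset V → ℝ) → ℝ} (hF : Measurable F)
    (h : ∀ T, F T ∈ Set.Icc (0 : ℝ) 1) : Integrable F (times V) :=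
  Integrable.of_bound hF.aestronglyMeasurable 1 (Filter.Eventually.of_forall fun T => by
    rw [Real.norm_eq_abs, abs_of_nonneg (h T).1]; exact (h T).2)

/-- The indicator that `s'` has killed `f` by time `x`. -/
noncomputable def killed (A : Finset (Finset V)) (k : ℕ) (s' f : Finset V) (x : ℝ)
    (T : Finset V → ℝ) : ℝ :=
  ind (T s' < x) * ∏ g ∈ (pairs s').erase f, ind (locx A T k s' g (T s'))

theorem measurable_killed (A : Finset (Finset V)) (k : ℕ) (s' f : Finset V) (x : ℝ) :
    Measurable (killed A k s' f x) :=
  (measurable_ind (measurableSet_lt (measurable_pi_apply s') measurable_const)).mul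
    (Finset.measurable_fun_prod _ fun g _ =>
      measurable_ind (measurableSet_locx A k s' g (measurable_pi_apply s')))

theorem killed_mem (A : Finset (Finset V)) (k : ℕ) (s' f : Finset V) (x : ℝ)
    (T : Finset V → ℝ) : killed A k s' f x T ∈ Set.Icc (0 : ℝ) 1 :=
  ⟨mul_nonneg (ind_mem _).1 (prod_nonneg fun g _ => (ind_mem _).1),
    mul_le_one₀ (ind_mem _).2 (prod_nonneg fun g _ => (ind_mem _).1)
      (prod_le_one (fun g _ => (ind_mem _).1) fun g _ => (ind_mem _).2)⟩

theorem ind_true {p : Prop} (h : p) : ind p = 1 := by rw [ind, if_pos h]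

theorem ind_false {p : Prop} (h : ¬ p) : ind p = 0 := by rw [ind, if_neg h]

theorem ind_locx_succ (A : Finset (Finset V)) (T : Finset V → ℝ) (k : ℕ) (s f : Finset V)
    (x : ℝ) : ind (locx A T (k + 1) s f x) = ∏ s' ∈ others A s f, (1 - killed A k s' f x T) := by
  by_cases h : locx A T (k + 1) s f x
  · rw [ind_true h]
    refine (prod_eq_one fun s' hs' => ?_).symm
    by_cases hlt : T s' < x
    · obtain ⟨g, hg, hn⟩ := h s' hs' hlt
      have h0 : ∏ g' ∈ (pairs s').erase f, ind (locx A T k s' g' (T s')) = 0 :=
        prod_eq_zero hg (ind_false hn)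
      simp [killed, h0]
    · simp [killed, ind_false hlt]
  · rw [ind_false h]
    simp only [locx, not_forall, not_exists, not_and, not_not] at h
    obtain ⟨s', hs', hlt, hall⟩ := h
    refine (prod_eq_zero hs' ?_).symm
    rw [killed, ind_true hlt, prod_eq_one fun g hg => ind_true (hall g hg)]
    ring

/-- Without overlaps the local rule has the law of the cavity iteration. -/
theorem integral_locx (A : Finset (Finset V)) :
    ∀ (k : ℕ) (s f : Finset V) (x : ℝ), Apart A k s f → x ∈ Set.Icc (0 : ℝ) 1 →
      ∫ T, ind (locx A T k s f x) ∂times V =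
        ∏ s' ∈ others A s f, (1 - iter A k s' f x) := by
  classical
  intro k
  induction k with
  | zero => intro s f x _ _; simp [ind, locx, iter]
  | succ k ih =>
    intro s f x hgood hx
    obtain ⟨hsub, hdisj⟩ := hgood
    simp only [ind_locx_succ]
    rw [integral_prod_of_disjoint (others A s f) (fun s' T => 1 - killed A k s' f x T)
      (fun s' => insert s' (((pairs s').erase f).biUnion fun g => branch A k s' g))
      (fun s' _ => measurable_const.sub (measurable_killed A k s' f x)) ?_ ?_]
    · refine prod_congr rfl fun s' hs' => ?_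
      rw [integral_sub (integrable_const _)
        (integrable_unit (measurable_killed A k s' f x) (killed_mem A k s' f x))]
      simp only [integral_const, probReal_univ, one_smul]
      congr 1
      have hup : ∀ g ∈ (pairs s').erase f, ∀ (T : Finset V → ℝ) (y : ℝ),
          ind (locx A (update T s' y) k s' g y) = ind (locx A T k s' g y) := fun g hg T y => by
        have hn : s' ∉ branch A k s' g :=
          Finset.disjoint_left.1 (hsub ⟨s', g⟩ (mem_sigma.2 ⟨hs', hg⟩)).2 hs'
        rw [ind, ind]
        exact if_congr (locx_congr A k s' g y _ _ fun r hr =>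
          update_of_ne (fun e : r = s' => hn (e ▸ hr)) _ _) rfl rfl
      have hmeas : Measurable fun p : ℝ × (Finset V → ℝ) => update p.2 s' p.1 := by fun_prop
      conv_lhs => rw [← times_split s']
      rw [integral_map hmeas.aemeasurable (measurable_killed A k s' f x).aestronglyMeasurable,
        integral_prod (fun p => killed A k s' f x (update p.2 s' p.1)) (Integrable.of_bound
          ((measurable_killed A k s' f x).comp hmeas).aestronglyMeasurable 1
          (Filter.Eventually.of_forall fun p => by
            rw [Real.norm_eq_abs, abs_of_nonneg (killed_mem A k s' f x _).1]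
            exact (killed_mem A k s' f x _).2))]
      rw [integral_congr_ae (g := Set.indicator (Set.Iio x)
        fun y => rateAt A (iter A k) s' f (clamp y)) ?_]
      · rw [clock, setIntegral_indicator measurableSet_Iio,
          show Set.Icc (0 : ℝ) 1 ∩ Set.Iio x = Set.Ico 0 x by
            ext y
            simp only [Set.mem_inter_iff, Set.mem_Icc, Set.mem_Iio, Set.mem_Ico]
            exact ⟨fun h => ⟨h.1.1, h.2⟩, fun h => ⟨⟨h.1, (h.2.trans_le hx.2).le⟩, h.2⟩⟩,
          integral_Ico_eq_integral_Ioc, ← intervalIntegral.integral_of_le hx.1]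
        simp [iter]
      filter_upwards [ae_restrict_mem (μ := volume) measurableSet_Icc] with y hy
      simp only [killed, update_self, integral_const_mul]
      rw [integral_congr_ae (g := fun T => ∏ g ∈ (pairs s').erase f, ind (locx A T k s' g y))
        (Filter.Eventually.of_forall fun T => prod_congr rfl fun g hg => hup g hg T y),
        integral_prod_of_disjoint ((pairs s').erase f) (fun g T => ind (locx A T k s' g y))
          (fun g => branch A k s' g)
          (fun g _ => measurable_ind (measurableSet_locx A k s' g measurable_const))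
          (fun g _ T T' h => by
            simp only [ind]
            exact if_congr (locx_congr A k s' g y T T' h) rfl rfl)
          (fun g hg g' hg' hne => hdisj ⟨s', g⟩ (mem_sigma.2 ⟨hs', hg⟩) ⟨s', g'⟩
            (mem_sigma.2 ⟨hs', hg'⟩) (by simpa using hne))]
      by_cases hyx : y < x
      · simp only [ind, hyx, if_true, Set.indicator_of_mem (Set.mem_Iio.2 hyx), clamp_of_mem hy,
          one_mul]
        exact prod_congr rfl fun g hg => by
          simpa only [ind] using ih s' g y (hsub ⟨s', g⟩ (mem_sigma.2 ⟨hs', hg⟩)).1 hy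
      · simp [ind, hyx]
    · intro s' _ T T' h
      simp only [killed, h s' (mem_insert_self _ _)]
      congr 2
      exact prod_congr rfl fun g hg => by
        simp only [ind]
        exact if_congr (locx_congr A k s' g _ T T' fun r hr =>
          h r (mem_insert_of_mem (mem_biUnion.2 ⟨g, hg, hr⟩))) rfl rfl
    · intro a ha b hb hab
      rw [Finset.disjoint_left]
      intro r hra hrb
      rw [mem_insert, mem_biUnion] at hra hrb
      rcases hra with rfl | ⟨g, hg, hra⟩
      · rcases hrb with h | ⟨g, hg, hrb⟩
        · exact hab h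
        · exact Finset.disjoint_left.1 (hsub ⟨b, g⟩ (mem_sigma.2 ⟨hb, hg⟩)).2 ha hrb
      · rcases hrb with rfl | ⟨g', hg', hrb⟩
        · exact Finset.disjoint_left.1 (hsub ⟨a, g⟩ (mem_sigma.2 ⟨ha, hg⟩)).2 hb hra
        · exact Finset.disjoint_left.1 (hdisj ⟨a, g⟩ (mem_sigma.2 ⟨ha, hg⟩) ⟨b, g'⟩
            (mem_sigma.2 ⟨hb, hg'⟩) (by simp [hab])) hra hrb

/-- The tree formula at a root. -/
theorem integral_loc (A : Finset (Finset V)) (k : ℕ) (e : Finset V) {x : ℝ}
    (hg : Apart A k ∅ e) (hx : x ∈ Set.Icc (0 : ℝ) 1) :
    ∫ T, ind (loc A T k e x) ∂times V = live A (fun s f => iter A k s f x) e := by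
  simp only [loc_eq_locx]
  rw [integral_locx A k ∅ e x hg hx]
  refine prod_congr ?_ fun _ _ => rfl
  ext s
  exact ⟨fun h => mem_of_mem_erase h,
    fun h => mem_erase.2 ⟨fun he => empty_not_tri A (he ▸ (mem_filter.1 h).1), h⟩⟩

theorem branch_mono (A : Finset (Finset V)) :
    ∀ (k : ℕ) (s f : Finset V), branch A k s f ⊆ branch A (k + 1) s f := by
  intro k
  induction k with
  | zero => intro s f; exact empty_subset _
  | succ k ih => exact fun s f =>
      union_subset_union_right (biUnion_mono fun p _ => ih p.1 p.2)

theorem Apart.of_succ {A : Finset (Finset V)} :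
    ∀ {k : ℕ} {s f : Finset V}, Apart A (k + 1) s f → Apart A k s f := by
  intro k
  induction k with
  | zero => exact fun {s f} _ => trivial
  | succ k ih => exact fun {s f} h =>
      ⟨fun p hp => ⟨ih (h.1 p hp).1, (h.1 p hp).2.mono_right (branch_mono A k p.1 p.2)⟩,
        fun p hp q hq hpq => (h.2 p hp q hq hpq).mono (branch_mono A k p.1 p.2)
          (branch_mono A k q.1 q.2)⟩

end Vale.Agent.P046.Const.Law
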