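import Vale.Agent.P046.Stopping

/-!
P046: the removal process is the greedy algorithm for independent uniform triangle times.

`greedy g A T` evaluates `g` at the edge set left when the triangles of `A` are scanned in the
order of the times `T`, each one being removed if it is still present.
-/

namespace Vale.Agent.P046.Const.Law

open Finset MeasureTheory Function

variable {V : Type} [Fintype V] [DecidableEq V]

/-- The uniform distribution on the unit interval. -/
noncomputable def clock : Measure ℝ := volume.restrict (Set.Icc 0 1)

instance : IsProbabilityMeasure clock := ⟨by simp [clock]⟩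

/-- Independent uniform times for all vertex sets. -/
noncomputable def times (V : Type) [Fintype V] : Measure (Finset V → ℝ) :=
  Measure.pi fun _ => clock

instance : IsProbabilityMeasure (times V) := by unfold times; infer_instance

open Classical in
/-- The value at the final edge set of the greedy removal in the order of the times. -/
noncomputable def greedy (g : Finset (Finset V) → ℝ) (A : Finset (Finset V))
    (T : Finset V → ℝ) : ℝ :=
  if tri A = ∅ then g A
  else ∑ t ∈ (tri A).attach,
    if ∀ s ∈ (tri A).erase t.1, T t.1 < T s then greedy g (A \ pairs t.1) T else 0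
termination_by A.card
decreasing_by exact card_sdiff_pairs_lt t.2

open Classical in
theorem greedy_of_ne (g : Finset (Finset V) → ℝ) {A : Finset (Finset V)} (T : Finset V → ℝ)
    (h : tri A ≠ ∅) :
    greedy g A T = ∑ t ∈ tri A,
      if ∀ s ∈ (tri A).erase t, T t < T s then greedy g (A \ pairs t) T else 0 := by
  rw [greedy, if_neg h, sum_attach (tri A)
    (fun t => if ∀ s ∈ (tri A).erase t, T t < T s then greedy g (A \ pairs t) T else 0)]

theorem tri_sdiff_subset {A : Finset (Finset V)} {t : Finset V} (ht : t ∈ tri A) :
    tri (A \ pairs t) ⊆ (tri A).erase t := by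
  intro s hs
  have hs' := (mem_filter.1 hs)
  refine mem_erase.2 ⟨?_, mem_filter.2 ⟨hs'.1, fun e he => (mem_sdiff.1 (hs'.2 he)).1⟩⟩
  rintro rfl
  obtain ⟨e, he⟩ : (pairs s).Nonempty := by
    rw [← card_pos, pairs, card_powersetCard, tri_card ht]; decide
  exact (mem_sdiff.1 (hs'.2 he)).2 he

theorem measurable_greedy (g : Finset (Finset V) → ℝ) (A : Finset (Finset V)) :
    Measurable (greedy g A) := by
  classical
  induction A using Finset.strongInduction with
  | H A ih =>
    by_cases h : tri A = ∅
    · rw [show greedy g A = fun _ => g A from funext fun T => by rw [greedy, if_pos h]]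
      exact measurable_const
    · rw [show greedy g A = _ from funext fun T => greedy_of_ne g T h]
      refine Finset.measurable_fun_sum _ fun t ht => Measurable.ite ?_
        (ih _ (sdiff_pairs_ssubset ht)) measurable_const
      rw [show {T : Finset V → ℝ | ∀ s ∈ (tri A).erase t, T t < T s} =
        ⋂ s ∈ (tri A).erase t, {T | T t < T s} by ext; simp]
      exact MeasurableSet.biInter (Set.to_countable _)
        fun s _ => measurableSet_lt (measurable_pi_apply _) (measurable_pi_apply _)

theorem greedy_order (g : Finset (Finset V) → ℝ) (A : Finset (Finset V)) :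
    ∀ T T' : Finset V → ℝ, (∀ a ∈ tri A, ∀ b ∈ tri A, (T a < T b ↔ T' a < T' b)) →
      greedy g A T = greedy g A T' := by
  induction A using Finset.strongInduction with
  | H A ih =>
    intro T T' hTT
    by_cases h : tri A = ∅
    · rw [greedy, greedy, if_pos h, if_pos h]
    · rw [greedy_of_ne g T h, greedy_of_ne g T' h]
      refine sum_congr rfl fun t ht => ?_
      have h1 := ih _ (sdiff_pairs_ssubset ht) T T' fun a ha b hb =>
        hTT a (mem_of_mem_erase (tri_sdiff_subset ht ha)) b (mem_of_mem_erase (tri_sdiff_subset ht hb))
      rw [h1]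
      exact if_congr (forall₂_congr fun s hs => hTT t ht s (mem_of_mem_erase hs)) rfl rfl

theorem abs_greedy_le (g : Finset (Finset V) → ℝ) (A : Finset (Finset V)) (T : Finset V → ℝ) :
    |greedy g A T| ≤ ∑ B : Finset (Finset V), |g B| := by
  classical
  induction A using Finset.strongInduction with
  | H A ih =>
    have h0 : 0 ≤ ∑ B : Finset (Finset V), |g B| := sum_nonneg fun B _ => abs_nonneg _
    by_cases h : tri A = ∅
    · rw [greedy, if_pos h]
      exact single_le_sum (fun B _ => abs_nonneg (g B)) (mem_univ A)
    · rw [greedy_of_ne g T h]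
      by_cases he : ∃ t ∈ tri A, ∀ s ∈ (tri A).erase t, T t < T s
      · obtain ⟨t, ht, hmin⟩ := he
        rw [sum_eq_single_of_mem t ht fun s hs hst => if_neg fun hmin' => ?_, if_pos hmin]
        · exact ih _ (sdiff_pairs_ssubset ht)
        · exact lt_asymm (hmin s (mem_erase.2 ⟨hst, hs⟩))
            (hmin' t (mem_erase.2 ⟨Ne.symm hst, ht⟩))
      · rw [sum_eq_zero fun t ht => if_neg fun hm => he ⟨t, ht, hm⟩, abs_zero]
        exact h0

/-- Rescaling the uniform law to the part of the interval above `x`. -/
theorem clock_restrict {x : ℝ} (h0 : 0 ≤ x) (h1 : x < 1) :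
    clock.restrict (Set.Ioi x) = ENNReal.ofReal (1 - x) • clock.map fun y => x + (1 - x) * y := by
  have hd : 0 < 1 - x := sub_pos.2 h1
  have hm : Measurable fun y => x + (1 - x) * y := by fun_prop
  have hpre : (fun y => x + (1 - x) * y) ⁻¹' Set.Icc x 1 = Set.Icc 0 1 := by
    ext y
    simp only [Set.mem_preimage, Set.mem_Icc]
    constructor <;> rintro ⟨a, b⟩ <;> constructor <;> nlinarith
  have hmap : (volume : Measure ℝ).map (fun y => x + (1 - x) * y) =
      ENNReal.ofReal (1 - x)⁻¹ • volume := by
    rw [show (fun y => x + (1 - x) * y) = (x + ·) ∘ ((1 - x) * ·) from rfl,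
      ← Measure.map_map (by fun_prop) (by fun_prop), Real.map_volume_mul_left hd.ne',
      Measure.map_smul, (measurePreserving_add_left volume x).map_eq,
      abs_of_pos (inv_pos.2 hd)]
  rw [clock, ← hpre, ← Measure.restrict_map hm measurableSet_Icc, hmap, Measure.restrict_smul,
    smul_smul, ← ENNReal.ofReal_mul hd.le, mul_inv_cancel₀ hd.ne', ENNReal.ofReal_one, one_smul,
    hpre, Measure.restrict_restrict measurableSet_Ioi]
  refine Measure.restrict_congr_set ?_
  have : Set.Ioi x ∩ Set.Icc 0 1 = Set.Ioc x 1 := by
    ext y
    simp only [Set.mem_inter_iff, Set.mem_Ioi, Set.mem_Icc, Set.mem_Ioc]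
    constructor <;> intro h <;> refine ⟨by linarith [h.1], ?_⟩
    · exact h.2.2
    · exact ⟨by linarith [h.1], h.2⟩
  rw [this]
  exact Ioc_ae_eq_Icc

omit [DecidableEq V] in
theorem pi_smul_clock (c : Finset V → ENNReal) (ν : Finset V → Measure ℝ)
    [∀ i, IsFiniteMeasure (ν i)] [∀ i, SigmaFinite (c i • ν i)] :
    Measure.pi (fun i => c i • ν i) = (∏ i, c i) • Measure.pi ν :=
  Measure.pi_eq fun s _ => by simp [Measure.pi_pi, prod_mul_distrib]

/-- The law of the times above a level is the law of the times, rescaled. -/
theorem integral_above (S : Finset (Finset V)) (h : (Finset V → ℝ) → ℝ) (hm : Measurable h)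
    (hord : ∀ T T' : Finset V → ℝ, (∀ a ∈ S, ∀ b ∈ S, (T a < T b ↔ T' a < T' b)) → h T = h T')
    {x : ℝ} (h0 : 0 ≤ x) (h1 : x < 1) :
    ∫ T in {T | ∀ s ∈ S, x < T s}, h T ∂times V = (1 - x) ^ S.card * ∫ T, h T ∂times V := by
  classical
  have hset : {T : Finset V → ℝ | ∀ s ∈ S, x < T s} =
      Set.univ.pi fun i => if i ∈ S then Set.Ioi x else Set.univ := by
    ext T
    simp only [Set.mem_ofPred_eq, Set.mem_pi, Set.mem_univ, true_implies]
    refine forall_congr' fun i => ?_
    by_cases hi : i ∈ S <;> simp [hi]
  let F : Finset V → ℝ → ℝ := fun i => if i ∈ S then fun y => x + (1 - x) * y else id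
  let c : Finset V → ENNReal := fun i => if i ∈ S then ENNReal.ofReal (1 - x) else 1
  have hF : ∀ i, Measurable (F i) := fun i => by
    simp only [F]; split_ifs <;> fun_prop
  have hν : ∀ i, clock.restrict (if i ∈ S then Set.Ioi x else Set.univ) =
      c i • clock.map (F i) := fun i => by
    by_cases hi : i ∈ S <;> simp [c, F, hi, clock_restrict h0 h1]
  have : ∀ i, SigmaFinite (c i • clock.map (F i)) := fun i => by rw [← hν i]; infer_instance
  have : ∀ i, IsFiniteMeasure (clock.map (F i)) := fun i => inferInstance
  rw [hset, times, Measure.restrict_pi_pi]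
  simp only [hν]
  have hFT : Measurable fun (T : Finset V → ℝ) (i : Finset V) => F i (T i) :=
    measurable_pi_iff.2 fun i => (hF i).comp (measurable_pi_apply i)
  rw [pi_smul_clock, ← Measure.pi_map_pi fun i => (hF i).aemeasurable, integral_smul_measure,
    integral_map hFT.aemeasurable hm.aestronglyMeasurable]
  have hc : (∏ i, c i).toReal = (1 - x) ^ S.card := by
    simp [c, prod_ite_mem, ENNReal.toReal_ofReal (sub_nonneg.2 h1.le)]
  rw [smul_eq_mul, hc]
  congr 1
  refine integral_congr_ae (Filter.Eventually.of_forall fun T => hord _ _ fun a ha b hb => ?_)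
  simp [F, ha, hb, sub_pos.2 h1]

theorem times_split (t : Finset V) :
    (clock.prod (times V)).map (fun p => update p.2 t p.1) = times V := by
  classical
  refine (Measure.pi_eq fun s hs => ?_).symm
  have hpre : (fun p : ℝ × (Finset V → ℝ) => update p.2 t p.1) ⁻¹' Set.univ.pi s =
      s t ×ˢ Set.univ.pi (update s t Set.univ) := by
    ext ⟨y, T⟩
    simp only [Set.mem_preimage, Set.mem_pi, Set.mem_univ, true_implies, Set.mem_prod]
    constructor
    · intro hp
      refine ⟨by simpa using hp t, fun i => ?_⟩
      by_cases hi : i = t
      · subst hi; simp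
      · simpa [hi] using hp i
    · rintro ⟨hy, hT⟩ i
      by_cases hi : i = t
      · subst hi; simpa using hy
      · simpa [hi] using hT i
  rw [Measure.map_apply (by fun_prop) (MeasurableSet.univ_pi hs), hpre, Measure.prod_prod, times,
    Measure.pi_pi, ← mul_prod_erase univ (fun i => clock (s i)) (mem_univ t),
    ← mul_prod_erase univ (fun i => clock (update s t Set.univ i)) (mem_univ t)]
  simp only [update_self, measure_univ, one_mul]
  congr 1
  exact prod_congr rfl fun i hi => by rw [update_of_ne (ne_of_mem_erase hi)]

/-- The first of finitely many times is uniform and independent of the order of the others. -/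
theorem integral_first (S : Finset (Finset V)) (t : Finset V) (ht : t ∉ S)
    (h : (Finset V → ℝ) → ℝ) (hm : Measurable h) {C : ℝ} (hC : ∀ T, |h T| ≤ C)
    (hord : ∀ T T' : Finset V → ℝ, (∀ a ∈ S, ∀ b ∈ S, (T a < T b ↔ T' a < T' b)) → h T = h T') :
    ∫ T in {T | ∀ s ∈ S, T t < T s}, h T ∂times V =
      (∫ T, h T ∂times V) / (S.card + 1) := by
  classical
  have hB : MeasurableSet {T : Finset V → ℝ | ∀ s ∈ S, T t < T s} := by
    rw [show {T : Finset V → ℝ | ∀ s ∈ S, T t < T s} = ⋂ s ∈ S, {T | T t < T s} by ext; simp]
    exact MeasurableSet.biInter (Set.to_countable _)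
      fun s _ => measurableSet_lt (measurable_pi_apply _) (measurable_pi_apply _)
  set B : Set (Finset V → ℝ) := {T | ∀ s ∈ S, T t < T s}
  have hmeas : Measurable fun p : ℝ × (Finset V → ℝ) => update p.2 t p.1 := by fun_prop
  rw [← integral_indicator hB]
  conv_lhs => rw [← times_split t]
  rw [integral_map hmeas.aemeasurable (hm.indicator hB).aestronglyMeasurable,
    integral_prod (fun p => B.indicator h (update p.2 t p.1)) (Integrable.of_bound
      ((hm.indicator hB).comp hmeas).aestronglyMeasurable C
      (Filter.Eventually.of_forall fun p => (norm_indicator_le_norm_self h _).trans (hC _)))]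
  have hne : ∀ᵐ y ∂clock, y ≠ 1 :=
    Measure.absolutelyContinuous_of_le Measure.restrict_le_self
      (compl_mem_ae_iff.2 (measure_singleton (1 : ℝ)))
  have hin : ∀ᵐ y ∂clock, y ∈ Set.Icc (0 : ℝ) 1 := ae_restrict_mem measurableSet_Icc
  rw [integral_congr_ae (g := fun y => (1 - y) ^ S.card * ∫ T, h T ∂times V) ?_]
  · rw [integral_mul_const, clock, integral_Icc_eq_integral_Ioc,
      ← intervalIntegral.integral_of_le zero_le_one,
      intervalIntegral.integral_comp_sub_left (fun y => y ^ S.card) 1]
    norm_num
    ring
  filter_upwards [hne, hin] with y hy hy'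
  rw [← integral_above S h hm hord hy'.1 (lt_of_le_of_ne hy'.2 hy), ← integral_indicator]
  · refine integral_congr_ae (Filter.Eventually.of_forall fun T => ?_)
    have hup : ∀ s ∈ S, update T t y s = T s := fun s hs =>
      update_of_ne (fun e : s = t => ht (e ▸ hs)) _ _
    simp only [Set.indicator_apply]
    refine if_congr (forall₂_congr fun s hs => by rw [update_self, hup s hs])
      (hord _ _ fun a ha b hb => by rw [hup a ha, hup b hb]) rfl
  · rw [show {T : Finset V → ℝ | ∀ s ∈ S, y < T s} = ⋂ s ∈ S, {T | y < T s} by ext; simp]
    exact MeasurableSet.biInter (Set.to_countable _)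
      fun s _ => measurableSet_lt measurable_const (measurable_pi_apply _)

/-- The removal process is the greedy algorithm with uniform times. -/
theorem integral_greedy (g : Finset (Finset V) → ℝ) (A : Finset (Finset V)) :
    ∫ T, greedy g A T ∂times V = procVal g A := by
  classical
  induction A using Finset.strongInduction with
  | H A ih =>
    by_cases h : tri A = ∅
    · rw [procVal_of_empty g h, show greedy g A = fun _ => g A from
        funext fun T => by rw [greedy, if_pos h]]
      simp
    · rw [procVal_of_ne g h, show greedy g A = _ from funext fun T => greedy_of_ne g T h]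
      have hmin : ∀ t, MeasurableSet {T : Finset V → ℝ | ∀ s ∈ (tri A).erase t, T t < T s} :=
        fun t => by
          rw [show {T : Finset V → ℝ | ∀ s ∈ (tri A).erase t, T t < T s} =
            ⋂ s ∈ (tri A).erase t, {T | T t < T s} by ext; simp]
          exact MeasurableSet.biInter (Set.to_countable _)
            fun s _ => measurableSet_lt (measurable_pi_apply _) (measurable_pi_apply _)
      rw [integral_finsetSum _ fun t ht => ?_, sum_div]
      · refine sum_congr rfl fun t ht => ?_
        rw [← ih _ (sdiff_pairs_ssubset ht)]
        refine Eq.trans ?_ ((integral_first ((tri A).erase t) t (notMem_erase t _)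
          (greedy g (A \ pairs t)) (measurable_greedy _ _) (abs_greedy_le g _) fun T T' hTT =>
            greedy_order g _ T T' fun a ha b hb =>
              hTT a (tri_sdiff_subset ht ha) b (tri_sdiff_subset ht hb)).trans ?_)
        · rw [← integral_indicator (hmin t)]
          refine integral_congr_ae (Filter.Eventually.of_forall fun T => ?_)
          simp [Set.indicator_apply]
        · rw [← Nat.cast_add_one, card_erase_add_one ht]
      · refine Integrable.of_bound (Measurable.ite (hmin t) (measurable_greedy _ _)
          measurable_const).aestronglyMeasurable (∑ B : Finset (Finset V), |g B|)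
          (Filter.Eventually.of_forall fun T => ?_)
        split_ifs
        · exact abs_greedy_le g _ T
        · simpa using sum_nonneg fun B _ => abs_nonneg (g B)

end Vale.Agent.P046.Const.Law
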