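import Vale.Agent.P046.Const.Ball

/-!
P046: counting the roots with a heavy edge nearby, with a witness nearby, or with meeting branches.
-/

namespace Vale.Agent.P046.Const.Law

open Finset Vale.Agent.P046.Gap

variable {V : Type} [Fintype V] [DecidableEq V]

/-- All edges within distance `m` of `e` have codegree at most `K`. -/
def Light (A : Finset (Finset V)) (K : ℕ) (e : Finset V) (m : ℕ) : Prop :=
  ∀ f ∈ lev A e m, codeg A f ≤ K

/-- The edges from which `g` can be reached in `j` steps through edges of codegree at most `K`. -/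
def rev (A : Finset (Finset V)) (K : ℕ) (g : Finset V) : ℕ → Finset (Finset V)
  | 0 => {g}
  | j + 1 => rev A K g j ∪
      (meet A ((rev A K g j).filter fun h => h = g ∨ codeg A h ≤ K)).biUnion pairs

theorem rev_mono (A : Finset (Finset V)) (K : ℕ) (g : Finset V) {i j : ℕ} (h : i ≤ j) :
    rev A K g i ⊆ rev A K g j := by
  induction h with
  | refl => exact subset_rfl
  | step _ ih => exact fun x hx => mem_union_left _ (ih hx)

theorem self_mem_rev (A : Finset (Finset V)) (K : ℕ) (g : Finset V) (j : ℕ) :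
    g ∈ rev A K g j :=
  rev_mono A K g (Nat.zero_le j) (mem_singleton_self g)

theorem rev_shift {A : Finset (Finset V)} {K : ℕ} {g h r : Finset V} (hr : r ∈ tri A)
    (hg : g ∈ pairs r) (hh : h ∈ pairs r) (hK : codeg A h ≤ K) (j : ℕ) :
    rev A K h j ⊆ rev A K g (j + 1) := by
  induction j with
  | zero =>
    intro x hx
    obtain rfl := mem_singleton.1 hx
    exact mem_union_right _ (mem_biUnion.2 ⟨r, mem_filter.2 ⟨hr, g, hg,
      mem_filter.2 ⟨mem_singleton_self g, Or.inl rfl⟩⟩, hh⟩)
  | succ j ih =>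
    intro x hx
    rcases mem_union.1 hx with hx | hx
    · exact mem_union_left _ (ih hx)
    · refine mem_union_right _ (biUnion_subset_biUnion_of_subset_left _
        (meet_mono fun y hy => ?_) hx)
      obtain ⟨hy1, hy2⟩ := mem_filter.1 hy
      refine mem_filter.2 ⟨ih hy1, Or.inr ?_⟩
      rcases hy2 with rfl | hy2
      · exact hK
      · exact hy2

theorem mem_rev {A : Finset (Finset V)} {K : ℕ} {e : Finset V} :
    ∀ (m : ℕ) (g : Finset V), Light A K e m → g ∈ lev A e (m + 1) → e ∈ rev A K g m := by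
  intro m
  induction m with
  | zero =>
    intro g _ hg
    rw [lev_one] at hg
    exact mem_singleton.2 (mem_singleton.1 hg).symm
  | succ m ih =>
    intro g hl hg
    have hl' : Light A K e m := fun f hf => hl f (lev_mono A e (Nat.le_succ m) hf)
    rw [lev_step] at hg
    rcases mem_union.1 hg with hg | hg
    · exact rev_mono A K g (Nat.le_succ m) (ih g hl' hg)
    · obtain ⟨r, hr, hgr⟩ := mem_biUnion.1 hg
      obtain ⟨hrA, h, hh, hhl⟩ := mem_filter.1 hr
      exact rev_shift hrA hgr hh (hl h hhl) m (ih h hl' hhl)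

theorem meet_card_le (A : Finset (Finset V)) (W : Finset (Finset V)) :
    (meet A W).card ≤ ∑ f ∈ W, codeg A f := by
  have : meet A W ⊆ W.biUnion (triEdge A) := fun r hr => by
    obtain ⟨hrA, g, hg, hgW⟩ := mem_filter.1 hr
    exact mem_biUnion.2 ⟨g, hgW, mem_filter.2 ⟨hrA, hg⟩⟩
  exact (card_le_card this).trans card_biUnion_le

theorem meet_pairs_card_le (A W : Finset (Finset V)) :
    ((meet A W).biUnion pairs).card ≤ 3 * ∑ f ∈ W, codeg A f := by
  refine card_biUnion_le.trans ?_
  rw [sum_congr rfl fun r (hr : r ∈ meet A W) => pairs_card (mem_filter.1 hr).1, sum_const,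
    smul_eq_mul, mul_comm]
  exact Nat.mul_le_mul le_rfl (meet_card_le A W)

theorem rev_card (A : Finset (Finset V)) (K : ℕ) (g : Finset V) (j : ℕ) :
    (rev A K g j).card ≤ (3 * codeg A g + 1) * (3 * K + 2) ^ j := by
  induction j with
  | zero => simp [rev]
  | succ j ih =>
    refine (card_union_le _ _).trans ((Nat.add_le_add le_rfl (meet_pairs_card_le A _)).trans ?_)
    have hsum : ∑ h ∈ (rev A K g j).filter (fun h => h = g ∨ codeg A h ≤ K), codeg A h ≤
        codeg A g + K * (rev A K g j).card := by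
      refine (sum_le_sum_of_subset (filter_subset_filter _ (subset_insert g _))).trans ?_
      rw [filter_insert, if_pos (Or.inl rfl), ← add_sum_erase _ _ (mem_insert_self g _)]
      refine Nat.add_le_add le_rfl ((sum_le_card_nsmul _ _ K fun h hh => ?_).trans ?_)
      · obtain ⟨hne, hh⟩ := mem_erase.1 hh
        exact ((mem_filter.1 ((mem_insert.1 hh).resolve_left hne)).2).resolve_left hne
      · rw [smul_eq_mul, mul_comm]
        refine Nat.mul_le_mul le_rfl (card_le_card fun h hh => ?_)
        obtain ⟨hne, hh⟩ := mem_erase.1 hh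
        exact (mem_filter.1 ((mem_insert.1 hh).resolve_left hne)).1
    have h1 : 1 ≤ (3 * K + 2) ^ j := Nat.one_le_pow _ _ (by omega)
    rw [pow_succ]
    nlinarith [ih, hsum, h1, Nat.zero_le (codeg A g), Nat.zero_le K]

theorem lev_card {A : Finset (Finset V)} {K : ℕ} {e : Finset V} :
    ∀ m : ℕ, Light A K e m → (lev A e (m + 1)).card ≤ (3 * K + 2) ^ m := by
  intro m
  induction m with
  | zero => simp [lev_one]
  | succ m ih =>
    intro hl
    rw [lev_step]
    refine (card_union_le _ _).trans ((Nat.add_le_add le_rfl (meet_pairs_card_le A _)).trans ?_)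
    have hsum := sum_le_card_nsmul (lev A e (m + 1)) (codeg A) K hl
    have := ih fun f hf => hl f (lev_mono A e (Nat.le_succ m) hf)
    rw [smul_eq_mul] at hsum
    rw [pow_succ]
    nlinarith

theorem light_mono {A : Finset (Finset V)} {K : ℕ} {e : Finset V} {i j : ℕ} (h : i ≤ j)
    (hl : Light A K e j) : Light A K e i :=
  fun f hf => hl f (lev_mono A e h hf)

theorem heavy_near {A : Finset (Finset V)} {K : ℕ} {e : Finset V} (he : e ∈ A) :
    ∀ m : ℕ, ¬ Light A K e m → ∃ g ∈ A, K < codeg A g ∧ e ∈ rev A K g m := by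
  intro m
  induction m with
  | zero => exact fun h => absurd (fun f hf => by simp [lev] at hf) h
  | succ m ih =>
    intro h
    by_cases hm : Light A K e m
    · simp only [Light, not_forall, not_le] at h
      obtain ⟨g, hg, hK⟩ := h
      exact ⟨g, lev_subset he _ hg, hK, rev_mono A K g (Nat.le_succ m) (mem_rev m g hm hg)⟩
    · obtain ⟨g, hgA, hK, hr⟩ := ih hm
      exact ⟨g, hgA, hK, rev_mono A K g (Nat.le_succ m) hr⟩

open Classical in
/-- The roots with a heavy edge nearby are few. -/
theorem heavy_count (A : Finset (Finset V)) (K m : ℕ) :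
    (A.filter fun e => ¬ Light A K e m).card ≤
      ∑ g ∈ A.filter (fun g => K < codeg A g), (3 * codeg A g + 1) * (3 * K + 2) ^ m := by
  refine (card_le_card (t := (A.filter fun g => K < codeg A g).biUnion fun g => rev A K g m)
    fun e he => ?_).trans (card_biUnion_le.trans (sum_le_sum fun g _ => rev_card A K g m))
  obtain ⟨heA, hl⟩ := mem_filter.1 he
  obtain ⟨g, hgA, hK, hr⟩ := heavy_near heA m hl
  exact mem_biUnion.2 ⟨g, mem_filter.2 ⟨hgA, hK⟩, hr⟩

open Classical in
/-- The light roots with overlapping branches yield disjoint witnesses. -/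
theorem overlap_count {A : Finset (Finset V)} (hA : ∀ e ∈ A, e.card = 2) (K k : ℕ) :
    ∃ F : Finset (Finset (Finset V)),
      (∀ W ∈ F, IsWitness (2 * (3 * K + 2) ^ (k + 1)) A W) ∧
      (F : Set (Finset (Finset V))).Pairwise Disjoint ∧
      (A.filter fun e => Light A K e (k + 1) ∧ ¬ Apart A k ∅ e).card ≤
        F.card * ((3 * K + 2) ^ (k + 1) * (3 * K + 2) ^ (k + 1)) := by
  set N := (3 * K + 2) ^ (k + 1) with hN
  set bad := A.filter fun e => Light A K e (k + 1) ∧ ¬ Apart A k ∅ e
  have hwit : ∀ e ∈ bad, ∃ W ⊆ lev A e (k + 1), Over W := fun e he => by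
    obtain ⟨heA, -, hn⟩ := mem_filter.1 he
    exact (apart_or_over (hA e heA) k).resolve_right hn
  choose wit hsub hover using hwit
  let All : Finset (Finset (Finset V)) := bad.attach.image fun e => wit e.1 e.2
  have hlight : ∀ e ∈ bad, Light A K e (k + 1) := fun e he => (mem_filter.1 he).2.1
  have hAll : ∀ W ∈ All, IsWitness (2 * N) A W ∧ W.card ≤ N ∧ ∀ g ∈ W, codeg A g ≤ K := by
    intro W hW
    obtain ⟨⟨e, he⟩, -, rfl⟩ := mem_image.1 hW
    have heA := (mem_filter.1 he).1
    have hsubA : wit e he ⊆ A := (hsub e he).trans (lev_subset heA _)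
    have hc : (wit e he).card ≤ N :=
      ((card_le_card (hsub e he)).trans (lev_card k (light_mono (Nat.le_succ k) (hlight e he)))).trans
        (Nat.pow_le_pow_right (by omega) (Nat.le_succ k))
    refine ⟨⟨(hover e he).1, hsubA, verts (wit e he), ?_, fun g hg => ?_, (hover e he).2⟩, hc,
      fun g hg => hlight e he g (hsub e he hg)⟩
    · refine card_biUnion_le.trans ?_
      rw [sum_congr rfl fun g hg => (show (id g).card = 2 from hA g (hsubA hg)), sum_const,
        smul_eq_mul]
      omega
    · exact mem_powersetCard.2 ⟨fun v hv => mem_biUnion.2 ⟨g, hg, hv⟩, hA g (hsubA hg)⟩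
  obtain ⟨F, hF, hmax⟩ := exists_max_image
    (All.powerset.filter fun F : Finset (Finset (Finset V)) =>
      (F : Set (Finset (Finset V))).Pairwise Disjoint) Finset.card
    ⟨∅, mem_filter.2 ⟨empty_mem_powerset _, by simp⟩⟩
  obtain ⟨hFsub, hFd⟩ := mem_filter.1 hF
  rw [mem_powerset] at hFsub
  refine ⟨F, fun W hW => (hAll W (hFsub hW)).1, hFd, ?_⟩
  have hcover : bad ⊆ F.biUnion fun W => W.biUnion fun g => rev A K g k := by
    intro e he
    have hW : wit e he ∈ All := mem_image.2 ⟨⟨e, he⟩, mem_attach _ _, rfl⟩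
    obtain ⟨W, hWF, hmeet⟩ : ∃ W ∈ F, ¬ Disjoint (wit e he) W := by
      by_contra hc
      push Not at hc
      have hnot : wit e he ∉ F := fun h =>
        (hover e he).1.ne_empty ((disjoint_self_iff_empty _).1 (hc _ h))
      have := hmax (insert (wit e he) F) (mem_filter.2 ⟨mem_powerset.2 (insert_subset hW hFsub), by
        rw [coe_insert]
        exact hFd.insert fun W hW _ => ⟨hc W hW, (hc W hW).symm⟩⟩)
      rw [card_insert_of_notMem hnot] at this
      omega
    obtain ⟨g, hg, hgW⟩ := Finset.not_disjoint_iff.1 hmeet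
    exact mem_biUnion.2 ⟨W, hWF, mem_biUnion.2 ⟨g, hgW,
      mem_rev k g (light_mono (Nat.le_succ k) (hlight e he)) (hsub e he hg)⟩⟩
  refine (card_le_card hcover).trans (card_biUnion_le.trans ?_)
  refine (sum_le_card_nsmul _ _ _ fun W hW => ?_).trans_eq (smul_eq_mul _ _)
  refine card_biUnion_le.trans ((sum_le_card_nsmul _ _ N fun g hg => ?_).trans ?_)
  · refine (rev_card A K g k).trans ?_
    rw [hN, pow_succ']
    exact Nat.mul_le_mul (by have := (hAll W (hFsub hW)).2.2 g hg; omega) le_rfl
  · rw [smul_eq_mul]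
    exact Nat.mul_le_mul_right _ (hAll W (hFsub hW)).2.1

open Classical in
/-- A light root meets few other light roots. -/
theorem meet_count {A : Finset (Finset V)} (K k : ℕ) {e : Finset V}
    (hl : Light A K e (k + 1)) :
    (A.filter fun e' => Light A K e' (k + 1) ∧
        ¬ Disjoint (branch A k ∅ e) (branch A k ∅ e')).card ≤
      K * (3 * K + 2) ^ k * (3 * (3 * K + 2) ^ (k + 1)) := by
  refine (card_le_card (t := (branch A k ∅ e).biUnion fun r =>
    ((pairs r).filter fun h => codeg A h ≤ K).biUnion fun h => rev A K h k) ?_).trans ?_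
  · intro e' he'
    obtain ⟨-, hl', hnd⟩ := mem_filter.1 he'
    obtain ⟨r, hr, hr'⟩ := Finset.not_disjoint_iff.1 hnd
    have hm := branch_subset k 0 ∅ e' (self_mem_lev A e' 0) hr'
    rw [Nat.zero_add] at hm
    obtain ⟨-, h, hh, hhl⟩ := mem_filter.1 hm
    refine mem_biUnion.2 ⟨r, hr, mem_biUnion.2 ⟨h, mem_filter.2 ⟨hh,
      hl' h (lev_mono A e' (Nat.le_succ k) hhl)⟩, ?_⟩⟩
    exact mem_rev k h (light_mono (Nat.le_succ k) hl') (lev_mono A e' (Nat.le_succ k) hhl)
  have hbr : branch A k ∅ e ⊆ meet A (lev A e k) := by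
    simpa using branch_subset k 0 ∅ e (self_mem_lev A e 0)
  refine (card_biUnion_le.trans (sum_le_card_nsmul _ _ (3 * (3 * K + 2) ^ (k + 1))
    fun r hr => ?_)).trans ?_
  · refine card_biUnion_le.trans ((sum_le_card_nsmul _ _ ((3 * K + 2) ^ (k + 1))
      fun h hh => ?_).trans ?_)
    · refine (rev_card A K h k).trans ?_
      rw [pow_succ']
      exact Nat.mul_le_mul (by have := (mem_filter.1 hh).2; omega) le_rfl
    · rw [smul_eq_mul]
      refine Nat.mul_le_mul_right _ ((card_le_card (filter_subset _ _)).trans_eq ?_)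
      exact pairs_card (mem_filter.1 (hbr hr)).1
  · rw [smul_eq_mul]
    refine Nat.mul_le_mul_right _ ((card_le_card hbr).trans ((meet_card_le A _).trans
      ((sum_le_card_nsmul _ _ K fun f hf => hl f (lev_mono A e (Nat.le_succ k) hf)).trans ?_)))
    rw [smul_eq_mul, mul_comm]
    exact Nat.mul_le_mul le_rfl ((card_le_card (lev_mono A e (Nat.le_succ k))).trans
      (lev_card k (light_mono (Nat.le_succ k) hl)))

end Vale.Agent.P046.Const.Law
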