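import Vale.Agent.P046.Const.CycleRate

/-!
P046, leading constant: averages over the subfamilies of a disjoint family of witnesses.
-/

namespace Vale.Agent.P046.Const

open Finset Vale.Agent.P046.Track

theorem choose_sub_one {m q : ℕ} (hq : 1 ≤ q) (hqm : q ≤ m) :
    ((m - 1).choose (q - 1) : ℝ) = m.choose q * ((q : ℝ) / m) := by
  obtain ⟨k, rfl⟩ : ∃ k, q = k + 1 := ⟨q - 1, by omega⟩
  obtain ⟨n, rfl⟩ : ∃ n, m = n + 1 := ⟨m - 1, by omega⟩
  have h : ((n + 1 : ℕ) : ℝ) * n.choose k = (n + 1).choose (k + 1) * ((k + 1 : ℕ) : ℝ) := by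
    exact_mod_cast Nat.add_one_mul_choose_eq n k
  rw [Nat.add_sub_cancel, Nat.add_sub_cancel, mul_div_assoc',
    eq_div_iff (by exact_mod_cast Nat.succ_ne_zero n)]
  linarith

theorem choose_sub_two {m q : ℕ} (hq : 2 ≤ q) (hqm : q ≤ m) :
    ((m - 2).choose (q - 2) : ℝ) ≤ m.choose q * ((q : ℝ) / m) ^ 2 := by
  have h := choose_sub_one (m := m - 1) (q := q - 1) (by omega) (by omega)
  rw [show m - 1 - 1 = m - 2 by omega, show q - 1 - 1 = q - 2 by omega] at h
  rw [h, choose_sub_one (by omega) hqm, mul_assoc, sq]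
  refine mul_le_mul_of_nonneg_left (mul_le_mul_of_nonneg_left ?_ (by positivity))
    (Nat.cast_nonneg _)
  have h1 : (0 : ℝ) < ((m - 1 : ℕ) : ℝ) := by exact_mod_cast (by omega : 0 < m - 1)
  have hm : (0 : ℝ) < m := by exact_mod_cast (by omega : 0 < m)
  rw [div_le_div_iff₀ h1 hm, Nat.cast_sub (by omega), Nat.cast_sub (by omega)]
  have : (q : ℝ) ≤ m := by exact_mod_cast hqm
  push_cast
  linarith

/-- The elementary symmetric sum is at most a power of the sum over a factorial. -/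
theorem esymm_le {α : Type} [DecidableEq α] (s : Finset α) (x : α → ℝ) (hx : ∀ a ∈ s, 0 ≤ x a) :
    ∀ q : ℕ, (q.factorial : ℝ) * ∑ F ∈ s.powersetCard q, ∏ a ∈ F, x a ≤ (∑ a ∈ s, x a) ^ q := by
  induction s using Finset.induction_on with
  | empty =>
    intro q
    cases q with
    | zero => simp
    | succ q => simp [powersetCard_eq_empty.2 (show (∅ : Finset α).card < q + 1 by simp)]
  | @insert a s ha ih =>
    have hx' : ∀ b ∈ s, 0 ≤ x b := fun b hb => hx b (mem_insert_of_mem hb)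
    have ha0 : 0 ≤ x a := hx a (mem_insert_self _ _)
    have hS : 0 ≤ ∑ b ∈ s, x b := sum_nonneg hx'
    intro q
    cases q with
    | zero => simp
    | succ q =>
      rw [sum_insert ha, powersetCard_succ_insert ha, sum_union, sum_image, mul_add]
      rotate_left
      · intro F hF G hG he
        have h1 : a ∉ F := fun h => ha ((mem_powersetCard.1 hF).1 h)
        have h2 : a ∉ G := fun h => ha ((mem_powersetCard.1 hG).1 h)
        exact (erase_insert h1).symm.trans ((congrArg (erase · a) he).trans (erase_insert h2))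
      · rw [disjoint_left]
        intro F hF hF'
        obtain ⟨G, hG, rfl⟩ := mem_image.1 hF'
        exact ha ((mem_powersetCard.1 hF).1 (mem_insert_self a G))
      have e1 : ∀ F ∈ s.powersetCard q, ∏ b ∈ insert a F, x b = x a * ∏ b ∈ F, x b := fun F hF =>
        prod_insert fun h => ha ((mem_powersetCard.1 hF).1 h)
      rw [sum_congr rfl e1, ← mul_sum]
      set S := ∑ b ∈ s, x b with hSdef
      have h1 := ih hx' (q + 1)
      have h2 := mul_le_mul_of_nonneg_left (ih hx' q) (show 0 ≤ ((q + 1 : ℕ) : ℝ) * x a by positivity)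
      have h3 : S ^ (q + 1) + ((q + 1 : ℕ) : ℝ) * x a * S ^ q ≤ (x a + S) ^ (q + 1) := by
        rw [add_pow, sum_range_succ, sum_range_succ']
        rcases q with _ | r
        · simp [add_comm]
        · have : 0 ≤ ∑ i ∈ range r, x a ^ (i + 1 + 1) * S ^ (r + 1 + 1 - (i + 1 + 1))
              * ((r + 1 + 1).choose (i + 1 + 1) : ℝ) :=
            sum_nonneg fun i _ => by positivity
          have h4 : 0 ≤ x a ^ (r + 1 + 1) := by positivity
          rw [sum_range_succ']
          simp only [zero_add, pow_zero, one_mul, Nat.choose_zero_right, Nat.cast_one, mul_one,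
            pow_one, Nat.choose_one_right, Nat.sub_zero, Nat.sub_self, Nat.choose_self,
            Nat.add_sub_cancel] at this h4 ⊢
          push_cast at this h4 ⊢
          linarith
      have e2 : ((q + 1).factorial : ℝ) = ((q + 1 : ℕ) : ℝ) * (q.factorial : ℝ) := by
        rw [Nat.factorial_succ]; push_cast; ring
      rw [e2] at h1 ⊢
      linarith

variable {V : Type} [Fintype V] [DecidableEq V]

omit [Fintype V] in
/-- The edges of a family. -/
def edgesOf (F : Finset (Finset (Finset V))) : Finset (Finset V) := F.biUnion id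

omit [Fintype V] in
theorem count_pair_le {U : Finset (Finset (Finset V))} {q : ℕ} (hq : 1 ≤ q) (hqU : q ≤ U.card)
    (hd : ∀ w ∈ U, ∀ w' ∈ U, w ≠ w' → Disjoint w w') (e f : Finset V) :
    (((U.powersetCard q).filter fun F => e ∈ edgesOf F ∧ f ∈ edgesOf F).card : ℝ)
      ≤ U.card.choose q *
        (((q : ℝ) / U.card) * (U.filter fun w => e ∈ w ∧ f ∈ w).card
          + ((q : ℝ) / U.card) ^ 2 * if e ∈ edgesOf U then 1 else 0) := by
  rcases Finset.eq_empty_or_nonempty
    ((U.powersetCard q).filter fun F => e ∈ edgesOf F ∧ f ∈ edgesOf F) with h0 | ⟨F₀, hF₀⟩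
  · rw [h0, card_empty, Nat.cast_zero]
    split_ifs <;> positivity
  obtain ⟨hF₀U, he, hf⟩ := mem_filter.1 hF₀
  obtain ⟨hF₀U, hF₀c⟩ := mem_powersetCard.1 hF₀U
  obtain ⟨w, hw, hew⟩ := mem_biUnion.1 he
  obtain ⟨w', hw', hfw⟩ := mem_biUnion.1 hf
  have heU : e ∈ edgesOf U := mem_biUnion.2 ⟨w, hF₀U hw, hew⟩
  rw [if_pos heU, mul_one]
  have huniq : ∀ g : Finset V, ∀ v ∈ U, g ∈ v → ∀ x ∈ U, g ∈ x → v = x := fun g v hv hgv x hx hgx => by
    by_contra hne
    exact disjoint_left.1 (hd v hv x hx hne) hgv hgx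
  have hsub : ((U.powersetCard q).filter fun F => e ∈ edgesOf F ∧ f ∈ edgesOf F)
      ⊆ (U.powersetCard q).filter fun F => {w, w'} ⊆ F := by
    intro F hF
    obtain ⟨hFU, he', hf'⟩ := mem_filter.1 hF
    obtain ⟨x, hx, hex⟩ := mem_biUnion.1 he'
    obtain ⟨x', hx', hfx⟩ := mem_biUnion.1 hf'
    have hFs := (mem_powersetCard.1 hFU).1
    refine mem_filter.2 ⟨hFU, insert_subset ?_ (singleton_subset_iff.2 ?_)⟩
    · rwa [huniq e w (hF₀U hw) hew x (hFs hx) hex]
    · rwa [huniq f w' (hF₀U hw') hfw x' (hFs hx') hfx]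
  refine (Nat.cast_le.2 (card_le_card hsub)).trans ?_
  have hsU : {w, w'} ⊆ U := insert_subset (hF₀U hw) (singleton_subset_iff.2 (hF₀U hw'))
  have hs0 : ({w, w'} : Finset _).card ≤ q := hF₀c ▸
    card_le_card (insert_subset hw (singleton_subset_iff.2 hw'))
  rw [card_filter_powersetCard_subset _ _ _ hsU hs0]
  have hC : (0 : ℝ) ≤ U.card.choose q := Nat.cast_nonneg _
  by_cases hww : w = w'
  · subst hww
    rw [pair_eq_singleton, card_singleton, choose_sub_one hq hqU]
    refine mul_le_mul_of_nonneg_left ?_ hC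
    have h1 : (1 : ℝ) ≤ ((U.filter fun x => e ∈ x ∧ f ∈ x).card : ℝ) := by
      exact Nat.one_le_cast.2 (card_pos.2 ⟨w, mem_filter.2 ⟨hF₀U hw, hew, hfw⟩⟩)
    nlinarith [show (0 : ℝ) ≤ (q : ℝ) / U.card by positivity, sq_nonneg ((q : ℝ) / U.card)]
  · rw [card_pair hww] at hs0 ⊢
    refine (choose_sub_two hs0 hqU).trans (mul_le_mul_of_nonneg_left ?_ hC)
    exact le_add_of_nonneg_left (by positivity)

theorem dbl_card_le (S A : Finset (Finset V)) :
    ((dbl S A).card : ℝ) ≤ ∑ t ∈ tri A, ∑ e ∈ pairs t, ∑ f ∈ (pairs t).erase e,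
      if e ∈ S ∧ f ∈ S then (1 : ℝ) else 0 := by
  rw [dbl, card_filter, Nat.cast_sum]
  refine sum_le_sum fun t _ => ?_
  split_ifs with h
  · obtain ⟨e, f, he, hf, hef⟩ := one_lt_card_iff.1 h
    obtain ⟨he, heS⟩ := mem_inter.1 he
    obtain ⟨hf, hfS⟩ := mem_inter.1 hf
    push_cast
    refine le_trans ?_ (single_le_sum (fun g _ => sum_nonneg fun g' _ => by split_ifs <;> norm_num)
      he)
    refine le_trans ?_ (single_le_sum (fun g' _ => by split_ifs <;> norm_num)
      (mem_erase.2 ⟨Ne.symm hef, hf⟩))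
    rw [if_pos ⟨heS, hfS⟩]
  · simp only [Nat.cast_zero]
    exact sum_nonneg fun g _ => sum_nonneg fun g' _ => by split_ifs <;> norm_num

/-- Two edges of one set of size `R` determine the triangle. -/
theorem same_count_le (w A : Finset (Finset V)) :
    ∑ t ∈ tri A, ∑ e ∈ pairs t, ∑ f ∈ (pairs t).erase e,
      (if e ∈ w ∧ f ∈ w then (1 : ℝ) else 0) ≤ (w.card : ℝ) ^ 2 := by
  have e1 : ∀ t ∈ tri A, ∑ e ∈ pairs t, ∑ f ∈ (pairs t).erase e,
      (if e ∈ w ∧ f ∈ w then (1 : ℝ) else 0)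
      = (((pairs t ×ˢ pairs t).filter fun p => p.1 ≠ p.2 ∧ p.1 ∈ w ∧ p.2 ∈ w).card : ℝ) := by
    intro t _
    rw [← sum_boole, sum_product]
    refine sum_congr rfl fun e _ => ?_
    refine Eq.trans (sum_congr rfl fun f hf => ?_) (sum_erase (pairs t) (by simp))
    have hne : e ≠ f := Ne.symm (mem_erase.1 hf).1
    simp [hne]
  rw [sum_congr rfl e1, ← Nat.cast_sum, ← card_sigma, sq, ← Nat.cast_mul, Nat.cast_le,
    ← card_product]
  refine card_le_card_of_injOn (fun x => x.2) (fun x hx => ?_) ?_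
  · obtain ⟨-, hp⟩ := mem_sigma.1 hx
    obtain ⟨-, -, h1, h2⟩ := mem_filter.1 hp
    exact mem_product.2 ⟨h1, h2⟩
  · rintro ⟨s, p⟩ hx ⟨t, p'⟩ hy (rfl : p = p')
    obtain ⟨hs, hp⟩ := mem_sigma.1 hx
    obtain ⟨ht, hp'⟩ := mem_sigma.1 hy
    obtain ⟨a, hne, -, -⟩ := mem_filter.1 hp
    obtain ⟨b, -, -, -⟩ := mem_filter.1 hp'
    obtain ⟨a1, a2⟩ := mem_product.1 a
    obtain ⟨b1, b2⟩ := mem_product.1 b
    obtain rfl := eq_of_two_pairs hs ht hne a1 a2 b1 b2
    rfl

/-- A random subfamily rarely has two edges in one triangle. -/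
theorem sum_dbl_le {U : Finset (Finset (Finset V))} {q R : ℕ} (hq : 1 ≤ q) (hqU : q ≤ U.card)
    (hd : ∀ w ∈ U, ∀ w' ∈ U, w ≠ w' → Disjoint w w') (hR : ∀ w ∈ U, w.card ≤ R)
    {A : Finset (Finset V)} (hUA : edgesOf U ⊆ A) :
    ∑ F ∈ U.powersetCard q, ((dbl (edgesOf F) A).card : ℝ)
      ≤ U.card.choose q * ((q : ℝ) * R ^ 2
          + 2 * ((q : ℝ) / U.card) ^ 2 * ∑ e ∈ edgesOf U, (codeg A e : ℝ)) := by
  have hm : (0 : ℝ) < U.card := by exact_mod_cast (by omega : 0 < U.card)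
  set C : ℝ := (U.card.choose q : ℝ) with hC
  set r : ℝ := (q : ℝ) / U.card with hr
  have hC0 : 0 ≤ C := Nat.cast_nonneg _
  have hr0 : 0 ≤ r := by positivity
  let G : Finset V → Finset V → ℝ := fun e f =>
    C * (r * ∑ w ∈ U, (if e ∈ w ∧ f ∈ w then (1 : ℝ) else 0)
      + r ^ 2 * if e ∈ edgesOf U then (1 : ℝ) else 0)
  have hpair : ∀ e f, ∑ F ∈ U.powersetCard q,
      (if e ∈ edgesOf F ∧ f ∈ edgesOf F then (1 : ℝ) else 0) ≤ G e f := fun e f => by
    rw [sum_boole]
    simp only [G, sum_boole]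
    exact count_pair_le hq hqU hd e f
  calc ∑ F ∈ U.powersetCard q, ((dbl (edgesOf F) A).card : ℝ)
      ≤ ∑ F ∈ U.powersetCard q, ∑ t ∈ tri A, ∑ e ∈ pairs t, ∑ f ∈ (pairs t).erase e,
          (if e ∈ edgesOf F ∧ f ∈ edgesOf F then (1 : ℝ) else 0) :=
        sum_le_sum fun F _ => dbl_card_le _ _
    _ = ∑ t ∈ tri A, ∑ e ∈ pairs t, ∑ f ∈ (pairs t).erase e, ∑ F ∈ U.powersetCard q,
          (if e ∈ edgesOf F ∧ f ∈ edgesOf F then (1 : ℝ) else 0) := by
        rw [sum_comm]
        refine sum_congr rfl fun t _ => ?_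
        rw [sum_comm]
        exact sum_congr rfl fun e _ => sum_comm
    _ ≤ ∑ t ∈ tri A, ∑ e ∈ pairs t, ∑ f ∈ (pairs t).erase e, G e f :=
        sum_le_sum fun t _ => sum_le_sum fun e _ => sum_le_sum fun f _ => hpair e f
    _ = C * (r * ∑ w ∈ U, ∑ t ∈ tri A, ∑ e ∈ pairs t, ∑ f ∈ (pairs t).erase e,
            (if e ∈ w ∧ f ∈ w then (1 : ℝ) else 0)
          + r ^ 2 * ∑ t ∈ tri A, ∑ e ∈ pairs t, ∑ f ∈ (pairs t).erase e,
            (if e ∈ edgesOf U then (1 : ℝ) else 0)) := by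
        simp only [G, mul_sum, sum_add_distrib, mul_add]
        congr 1
        rw [sum_comm (s := U)]
        refine sum_congr rfl fun t _ => ?_
        rw [sum_comm (s := U)]
        exact sum_congr rfl fun e _ => sum_comm
    _ ≤ C * (r * (U.card * (R : ℝ) ^ 2) + r ^ 2 * (2 * ∑ e ∈ edgesOf U, (codeg A e : ℝ))) := by
        refine mul_le_mul_of_nonneg_left (add_le_add (mul_le_mul_of_nonneg_left ?_ hr0)
          (mul_le_mul_of_nonneg_left (le_of_eq ?_) (sq_nonneg _))) hC0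
        · refine (sum_le_card_nsmul _ _ ((R : ℝ) ^ 2) fun w hw => (same_count_le w A).trans ?_).trans
            (le_of_eq (nsmul_eq_mul _ _))
          exact pow_le_pow_left₀ (Nat.cast_nonneg _) (Nat.cast_le.2 (hR w hw)) 2
        · have h1 : ∀ t ∈ tri A, ∑ e ∈ pairs t, ∑ f ∈ (pairs t).erase e,
              (if e ∈ edgesOf U then (1 : ℝ) else 0)
              = ∑ e ∈ pairs t, 2 * (if e ∈ edgesOf U then (1 : ℝ) else 0) := fun t ht =>
            sum_congr rfl fun e he => by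
              rw [sum_const, card_erase_of_mem he, pairs_card ht, nsmul_eq_mul]; norm_num
          rw [sum_congr rfl h1, sum_tri_pairs, mul_sum]
          simp only [mul_ite, mul_one, mul_zero, ← sum_filter]
          rw [filter_mem_eq_inter, inter_eq_right.2 hUA]
          exact sum_congr rfl fun e _ => mul_comm _ _
    _ = C * ((q : ℝ) * (R : ℝ) ^ 2 + 2 * r ^ 2 * ∑ e ∈ edgesOf U, (codeg A e : ℝ)) := by
        rw [hr]; field_simp

end Vale.Agent.P046.Const
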