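import Vale.Agent.P046.Const.Reach
import Vale.Agent.P046.Track.Basic

/-!
P046, leading constant: the kill rate of a fixed edge set on the track.
-/

namespace Vale.Agent.P046.Const

open Finset Vale.Agent.P046.Track Vale.Agent.P046.Gap

variable {V : Type} [Fintype V] [DecidableEq V]

/-- The triangles of `A` with two edges in `S`. -/
def dbl (S A : Finset (Finset V)) : Finset (Finset V) :=
  (tri A).filter fun t => 2 ≤ (pairs t ∩ S).card

/-- Removing a uniform triangle spares `S` with probability at most `1 - (sum c - 2 #dbl) / T`. -/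
theorem card_avoid_le (S A : Finset (Finset V)) :
    (((tri A).filter fun t => S ⊆ A \ pairs t).card : ℝ)
      ≤ (tri A).card - ∑ e ∈ S, (codeg A e : ℝ) + 2 * (dbl S A).card := by
  have h1 : ∑ e ∈ S, (codeg A e : ℝ) = ∑ t ∈ tri A, ((pairs t ∩ S).card : ℝ) := by
    simp only [codeg, card_filter, Nat.cast_sum]
    rw [sum_comm]
    refine sum_congr rfl fun t _ => ?_
    rw [← Nat.cast_sum]
    congr 1
    rw [sum_boole, Nat.cast_id, inter_comm, ← filter_mem_eq_inter]
  rw [h1, card_filter, dbl, card_filter, Nat.cast_sum, Nat.cast_sum, card_eq_sum_ones,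
    Nat.cast_sum, mul_sum, ← sum_sub_distrib, ← sum_add_distrib]
  refine sum_le_sum fun t ht => ?_
  have h3 : (pairs t ∩ S).card ≤ 3 := by
    refine (card_le_card inter_subset_left).trans (le_of_eq ?_)
    simp [pairs, tri_card ht]
  by_cases hav : S ⊆ A \ pairs t
  · have h0 : pairs t ∩ S = ∅ := by
      rw [← disjoint_iff_inter_eq_empty, disjoint_left]
      exact fun e he heS => (mem_sdiff.1 (hav heS)).2 he
    simp [hav, h0]
  · rw [if_neg hav]
    by_cases h2 : 2 ≤ (pairs t ∩ S).card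
    · rw [if_pos h2]
      have : ((pairs t ∩ S).card : ℝ) ≤ 3 := by exact_mod_cast h3
      push_cast
      linarith
    · rw [if_neg h2]
      have : ((pairs t ∩ S).card : ℝ) ≤ 1 := by exact_mod_cast (by omega)
      push_cast
      linarith

/-- The facts used about a state above `L` on the track. -/
theorem track_facts {L : ℝ} (hL : 100 ≤ L) {A : Finset (Finset V)} (h2 : ∀ e ∈ A, e.card = 2)
    (hA : L < A.card) (hon : ¬ OffTrack L A)
    (hV : 0 < (Fintype.card V : ℝ)) (hLn : (Fintype.card V : ℝ) ^ 3 ≤ 4 * L ^ 2) :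
    OnTrack A ∧ err A ≤ uu L A ^ 6 / 64 ∧ 1 ≤ dd A * uu L A ∧ |tw A| ≤ uu L A ∧
      uu L A ^ 4 = L / A.card := by
  have hL0 : 0 < L := by linarith
  obtain ⟨u0, u1⟩ := uu_bounds hL0 hA
  have hE : (0 : ℝ) < A.card := hL0.trans hA
  have herr : err A ≤ uu L A ^ 6 / 64 := by
    by_contra h; exact hon ⟨hA, not_le.1 h⟩
  have hu4 : uu L A ^ 4 = L / A.card := by
    rw [uu_pow hL0, Nat.cast_ofNat, div_self (by norm_num : (4 : ℝ) ≠ 0), Real.rpow_one]
  have hdd : 1 ≤ dd A * uu L A ^ 8 := by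
    rw [show uu L A ^ 8 = (uu L A ^ 4) ^ 2 by ring, hu4, dd, div_pow]
    rw [show 4 * (A.card : ℝ) ^ 2 / (Fintype.card V : ℝ) ^ 3 * (L ^ 2 / (A.card : ℝ) ^ 2)
        = 4 * L ^ 2 / (Fintype.card V : ℝ) ^ 3 by field_simp, le_div_iff₀ (by positivity), one_mul]
    exact hLn
  have hp : ∀ j : ℕ, 1 ≤ j → uu L A ^ j ≤ uu L A := fun j hj =>
    (pow_le_pow_of_le_one u0.le u1 hj).trans (le_of_eq (pow_one _))
  have hd0 : 0 ≤ dd A := Track.dd_nonneg A
  have hddu : 1 ≤ dd A * uu L A := hdd.trans (mul_le_mul_of_nonneg_left (hp 8 (by norm_num)) hd0)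
  have hdd1 : 1 ≤ dd A := hddu.trans (mul_le_of_le_one_right hd0 u1)
  have herr4 : err A ≤ 1 / 4 := by
    have : uu L A ^ 6 ≤ 1 := pow_le_one₀ u0.le u1
    linarith
  have h100 : 100 ≤ A.card := by
    have : ((100 : ℕ) : ℝ) ≤ A.card := by push_cast; linarith
    exact_mod_cast this
  refine ⟨onTrack_of_err h2 h100 hdd1 herr4, herr, hddu, ?_, hu4⟩
  have h5 := five_sq_le_err (fun y _ => psi_nonneg y) A
  have h6 := hp 3 (by norm_num)
  refine le_trans ((pow_le_pow_iff_left₀ (abs_nonneg _) (pow_nonneg u0.le 3) two_ne_zero).1 ?_) h6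
  rw [sq_abs, ← pow_mul]
  have : 0 ≤ uu L A ^ 6 := by positivity
  norm_num
  linarith

/-- The deviations on a fixed set cancel up to `25 √(|S| L) u`. -/
theorem abs_sum_dev_le {L : ℝ} (hL : 0 < L) {S A : Finset (Finset V)} (hS : S ⊆ A)
    (hA : L < A.card) (herr : err A ≤ uu L A ^ 6 / 64) (hu4 : uu L A ^ 4 = L / A.card) :
    |∑ e ∈ S, dev A e| ≤ 25 * Real.sqrt (S.card * L) * uu L A := by
  obtain ⟨u0, -⟩ := uu_bounds hL hA
  have hE : (0 : ℝ) < A.card := hL.trans hA
  have hsq : ∑ e ∈ A, dev A e ^ 2 ≤ 625 * (L * uu L A ^ 2) := by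
    calc ∑ e ∈ A, dev A e ^ 2 ≤ ∑ e ∈ A, 40000 * psi (dev A e) :=
          sum_le_sum fun e _ => sq_le_psi (dev_ge' A e)
      _ = 40000 * mass A := by rw [mass, mul_sum]
      _ ≤ 40000 * (uu L A ^ 6 / 64 * A.card) := by
          have hm : mass A / (A.card : ℝ) ≤ uu L A ^ 6 / 64 := by
            unfold err at herr; nlinarith [sq_nonneg (tw A)]
          rw [div_le_iff₀ hE] at hm
          linarith
      _ = _ := by
          have : uu L A ^ 4 * A.card = L := by rw [hu4]; field_simp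
          linear_combination 625 * uu L A ^ 2 * this
  refine (pow_le_pow_iff_left₀ (abs_nonneg _) (by positivity) two_ne_zero).1 ?_
  rw [sq_abs, mul_pow, mul_pow, Real.sq_sqrt (by positivity)]
  calc (∑ e ∈ S, dev A e) ^ 2 ≤ (S.card : ℝ) * ∑ e ∈ S, dev A e ^ 2 := sq_sum_le_card_mul_sum_sq
    _ ≤ (S.card : ℝ) * (625 * (L * uu L A ^ 2)) := by
        refine mul_le_mul_of_nonneg_left (le_trans ?_ hsq) (Nat.cast_nonneg _)
        exact sum_le_sum_of_subset_of_nonneg hS fun e _ _ => sq_nonneg _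
    _ = _ := by ring

/-- The kill rate of a fixed set is almost `3 |S| / E`, from both sides. -/
theorem rate_bounds {L : ℝ} (hL : 100 ≤ L) {S A : Finset (Finset V)}
    (h2 : ∀ e ∈ A, e.card = 2) (hS : S ⊆ A) (hA : L < A.card) (hon : ¬ OffTrack L A)
    (hV : 0 < (Fintype.card V : ℝ)) (hLn : (Fintype.card V : ℝ) ^ 3 ≤ 4 * L ^ 2) :
    (3 * S.card - uu L A * (3 * S.card + 150 * Real.sqrt (S.card * L))) / A.card
        ≤ (∑ e ∈ S, (codeg A e : ℝ)) / (tri A).card ∧
      (∑ e ∈ S, (codeg A e : ℝ)) / (tri A).card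
        ≤ 4 * (S.card + 25 * Real.sqrt (S.card * L)) / A.card := by
  have hL0 : 0 < L := by linarith
  obtain ⟨hT, herr, -, htw, hu4⟩ := track_facts hL h2 hA hon hV hLn
  obtain ⟨u0, u1⟩ := uu_bounds hL0 hA
  have hY := abs_le.1 (abs_sum_dev_le hL0 hS hA herr hu4)
  have hw := abs_le.1 hT.tw_le
  have hd := hT.dd_pos
  have hE := hT.card_pos
  set w := tw A
  set Y := ∑ e ∈ S, dev A e
  set r := Real.sqrt ((S.card : ℝ) * L)
  have hr : 0 ≤ r := Real.sqrt_nonneg _
  have hsum : ∑ e ∈ S, (codeg A e : ℝ) = dd A * ((S.card : ℝ) + Y) := by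
    simp only [hT.codeg_eq, ← mul_sum, sum_add_distrib, sum_const, nsmul_eq_mul, mul_one, Y]
  have h1w : 0 < 1 + w := by linarith
  rw [hsum, hT.tri_eq, show dd A * ((S.card : ℝ) + Y) / ((1 + w) * ((A.card : ℝ) * dd A) / 3)
      = 3 * ((S.card : ℝ) + Y) / (1 + w) / A.card by field_simp]
  constructor
  · refine div_le_div_of_nonneg_right ?_ hE.le
    rw [le_div_iff₀ h1w]
    have h3 : w * (S.card : ℝ) ≤ uu L A * S.card :=
      mul_le_mul_of_nonneg_right (le_trans (le_abs_self w) htw) (Nat.cast_nonneg _)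
    nlinarith [mul_nonneg u0.le hr, mul_nonneg (mul_nonneg u0.le hr) (show 0 ≤ w + 1 / 2 by linarith),
      mul_nonneg (mul_nonneg u0.le (Nat.cast_nonneg S.card : (0 : ℝ) ≤ S.card))
        (show 0 ≤ w + 1 / 2 by linarith), hY.1, h3]
  · refine div_le_div_of_nonneg_right ?_ hE.le
    rw [div_le_iff₀ h1w]
    have h4 : 25 * r * uu L A ≤ 25 * r := mul_le_of_le_one_right (by positivity) u1
    nlinarith [hY.2, h4, mul_nonneg hr (show 0 ≤ w + 1 / 4 by linarith),
      mul_nonneg (Nat.cast_nonneg S.card : (0 : ℝ) ≤ S.card) (show 0 ≤ w + 1 / 4 by linarith)]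

end Vale.Agent.P046.Const
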