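import Vale.Agent.P046.Const.CycleCount

/-!
P046, leading constant: the union bound over sampled families of witnesses, carried along the
process with a budget for the triangles that meet a family twice.
-/

namespace Vale.Agent.P046.Const

open Finset Vale.Agent.P046.Track Vale.Agent.P046.Gap

variable {V : Type} [Fintype V] [DecidableEq V]

/-- The rate constant of a family of at least `q` edges. -/
noncomputable def cRate (L : ℝ) (q : ℕ) : ℝ := 8 + 200 * Real.sqrt (L / q)

/-- The exponent of the survival of `S` down to the level `Hi`. -/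
noncomputable def surv (L Hi : ℝ) (q : ℕ) (S A : Finset (Finset V)) : ℝ :=
  (S.card : ℝ) * (Real.log (Hi / A.card) + cRate L q * (1 - uu L A))

/-- The coefficient of the logarithm in the budget. -/
noncomputable def budA (L : ℝ) (R m q : ℕ) : ℝ :=
  16 * ((q : ℝ) / m) ^ 2 * ((m * R : ℕ) + 25 * Real.sqrt ((m * R : ℕ) * L))

/-- The budget needed from a state down to `L`. -/
noncomputable def need (L : ℝ) (R m q : ℕ) (A : Finset (Finset V)) : ℝ :=
  budA L R m q / 3 * Real.log ((A.card : ℝ) / L) + 16 * q * (R : ℝ) ^ 2 * (1 - uu L A)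

theorem budA_nonneg (L : ℝ) (R m q : ℕ) : 0 ≤ budA L R m q := by
  unfold budA; positivity

omit [Fintype V] in
theorem card_edgesOf_bounds {F : Finset (Finset (Finset V))} {R : ℕ}
    (hd : ∀ w ∈ F, ∀ w' ∈ F, w ≠ w' → Disjoint w w')
    (hne : ∀ w ∈ F, w.Nonempty) (hR : ∀ w ∈ F, w.card ≤ R) :
    F.card ≤ (edgesOf F).card ∧ (edgesOf F).card ≤ F.card * R := by
  refine ⟨?_, card_biUnion_le.trans ((sum_le_card_nsmul _ _ R hR).trans (le_of_eq (smul_eq_mul ..)))⟩
  rw [edgesOf, card_biUnion (s := F) (t := id) fun w hw w' hw' h => hd w hw w' hw' h]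
  refine le_trans (le_of_eq (mul_one F.card).symm) ?_
  exact (le_of_eq (smul_eq_mul ..).symm).trans
    (card_nsmul_le_sum _ _ 1 fun w hw => card_pos.2 (hne w hw))

/-- One step changes `(L / E) ^ (1 / 4)` by at least `3 / (4 E)` of itself. -/
theorem uu_step {L : ℝ} (hL : 0 < L) {A : Finset (Finset V)} {t : Finset V} (ht : t ∈ tri A)
    (hE : L + 3 < A.card) :
    uu L A * (3 / (4 * A.card)) ≤ uu L (A \ pairs t) - uu L A := by
  have hE0 : (0 : ℝ) < A.card := by linarith
  have h3 : (0 : ℝ) < (A.card : ℝ) - 3 := by linarith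
  have hu : uu L (A \ pairs t) = uu L A * ((A.card : ℝ) / ((A.card : ℝ) - 3)) ^ ((1 : ℝ) / 4) := by
    rw [uu, uu, card_sdiff_cast ht, ← Real.mul_rpow (by positivity) (by positivity)]
    congr 1
    field_simp
  have hl : 3 / (A.card : ℝ) ≤ Real.log ((A.card : ℝ) / ((A.card : ℝ) - 3)) := by
    refine le_trans (le_of_eq ?_) (Real.one_sub_inv_le_log_of_pos (div_pos hE0 h3))
    rw [inv_div]; field_simp; ring
  have h4 : 1 + 3 / (4 * (A.card : ℝ))
      ≤ ((A.card : ℝ) / ((A.card : ℝ) - 3)) ^ ((1 : ℝ) / 4) := by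
    rw [Real.rpow_def_of_pos (div_pos hE0 h3)]
    refine le_trans ?_ (Real.add_one_le_exp _)
    rw [show 3 / (4 * (A.card : ℝ)) = 3 / (A.card : ℝ) * (1 / 4) by ring]
    linarith
  rw [hu]
  have := mul_le_mul_of_nonneg_left h4 (uu_bounds hL (by linarith : L < A.card)).1.le
  linarith

variable {L Hi : ℝ} {R m q : ℕ}

/-- Over one step the exponent grows by at most the kill rate. -/
theorem surv_step (hL : 100 ≤ L) (hq : 1 ≤ q) (hV : 0 < (Fintype.card V : ℝ))
    (hLn : (Fintype.card V : ℝ) ^ 3 ≤ 4 * L ^ 2) (hHi : 0 < Hi)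
    {S A : Finset (Finset V)} (h2 : ∀ e ∈ A, e.card = 2) (hS : S ⊆ A) (hqS : q ≤ S.card)
    (hA : L + 3 < A.card) (hon : ¬ OffTrack L A) {t : Finset V} (ht : t ∈ tri A) :
    surv L Hi q S (A \ pairs t)
      ≤ surv L Hi q S A + (∑ e ∈ S, (codeg A e : ℝ)) / (tri A).card := by
  have hL0 : 0 < L := by linarith
  have hLA : L < A.card := by linarith
  obtain ⟨hr, -⟩ := rate_bounds hL h2 hS hLA hon hV hLn
  obtain ⟨u0, u1⟩ := uu_bounds hL0 hLA
  have hus := uu_step hL0 ht hA
  set E := (A.card : ℝ)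
  set u := uu L A
  have hE0 : 0 < E := by linarith
  have h3 : 0 < E - 3 := by linarith
  have hl : Real.log (Hi / (E - 3)) ≤ Real.log (Hi / E) + 3 / (E - 3) := by
    rw [Real.log_div hHi.ne' h3.ne', Real.log_div hHi.ne' hE0.ne']
    have h := Real.log_le_sub_one_of_pos (div_pos hE0 h3)
    rw [Real.log_div hE0.ne' h3.ne'] at h
    have e : E / (E - 3) - 1 = 3 / (E - 3) := by field_simp; ring
    linarith
  have hsmall : 3 / (E - 3) ≤ u := by
    have h4 : u ^ 4 ≤ u := (pow_le_pow_of_le_one u0.le u1 (by norm_num : 1 ≤ 4)).trans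
      (le_of_eq (pow_one _))
    refine le_trans ?_ ((le_of_eq (track_facts hL h2 hLA hon hV hLn).2.2.2.2.symm).trans h4)
    rw [div_le_div_iff₀ h3 hE0]
    have := mul_le_mul_of_nonneg_right hL h3.le
    linarith
  have hsq : Real.sqrt ((S.card : ℝ) * L) ≤ S.card * Real.sqrt (L / q) := by
    have hq0 : (0 : ℝ) < q := by exact_mod_cast hq
    have hSq : (q : ℝ) ≤ S.card := by exact_mod_cast hqS
    refine Real.sqrt_le_iff.2 ⟨by positivity, ?_⟩
    rw [mul_pow, Real.sq_sqrt (by positivity), sq, mul_assoc]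
    refine mul_le_mul_of_nonneg_left ?_ (Nat.cast_nonneg _)
    rw [mul_div_assoc', le_div_iff₀ hq0]
    linarith [mul_le_mul_of_nonneg_left hSq hL0.le]
  rw [surv, surv, card_sdiff_cast ht]
  refine le_trans ?_ (add_le_add le_rfl hr)
  set s := (S.card : ℝ)
  set r := Real.sqrt (L / q) with hrdef
  have hs : 0 ≤ s := Nat.cast_nonneg _
  have k1 : 3 / (E - 3) ≤ 3 / E + 3 * (u / E) := by
    have e : 3 / (E - 3) = 3 / E + 3 * ((3 / (E - 3)) / E) := by field_simp; ring
    rw [e]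
    have := div_le_div_of_nonneg_right hsmall hE0.le
    linarith
  have k2 : (8 + 200 * r) * (u * (3 / (4 * E))) = 6 * (u / E) + 150 * r * (u / E) := by
    field_simp; ring
  have k3 : u * Real.sqrt (s * L) / E ≤ s * r * (u / E) := by
    rw [mul_comm u, mul_div_assoc]
    exact mul_le_mul_of_nonneg_right hsq (by positivity)
  have k4 : cRate L q * (u * (3 / (4 * E))) ≤ cRate L q * (uu L (A \ pairs t) - u) :=
    mul_le_mul_of_nonneg_left hus (by unfold cRate; positivity)
  rw [cRate, ← hrdef] at k4 ⊢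
  rw [k2] at k4
  have k5 := mul_le_mul_of_nonneg_left (show Real.log (Hi / (E - 3))
    + (8 + 200 * r) * (1 - uu L (A \ pairs t))
      ≤ Real.log (Hi / E) + (8 + 200 * r) * (1 - u) + 3 / E - 3 * (u / E) - 150 * r * (u / E)
    by linarith) hs
  have e2 : (3 * s - u * (3 * s + 150 * Real.sqrt (s * L))) / E
      = s * (3 / E) - s * (3 * (u / E)) - 150 * (u * Real.sqrt (s * L) / E) := by
    field_simp; ring
  rw [e2]
  linarith

/-- Over one step the needed budget drops by the mean of what is charged. -/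
theorem need_step (hL : 100 ≤ L) (hq : 1 ≤ q) (hqm : q ≤ m) (hV : 0 < (Fintype.card V : ℝ))
    (hLn : (Fintype.card V : ℝ) ^ 3 ≤ 4 * L ^ 2) {A : Finset (Finset V)}
    (h2 : ∀ e ∈ A, e.card = 2) (hA : L + 3 < A.card) (hon : ¬ OffTrack L A)
    {U : Finset (Finset (Finset V))} (hU : U.card = m)
    (hd : ∀ w ∈ U, ∀ w' ∈ U, w ≠ w' → Disjoint w w') (hR : ∀ w ∈ U, w.card ≤ R)
    (hUA : edgesOf U ⊆ A) {t : Finset V} (ht : t ∈ tri A) :
    ∑ F ∈ U.powersetCard q, 2 * ((dbl (edgesOf F) A).card : ℝ) / (tri A).card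
      ≤ m.choose q * (need L R m q A - need L R m q (A \ pairs t)) := by
  have hL0 : 0 < L := by linarith
  have hLA : L < A.card := by linarith
  obtain ⟨hT, -, hddu, -, -⟩ := track_facts hL h2 hLA hon hV hLn
  obtain ⟨-, hr⟩ := rate_bounds hL h2 hUA hLA hon hV hLn
  have hus := uu_step hL0 ht hA
  have hX := sum_dbl_le hq (hU ▸ hqm) hd hR hUA
  rw [hU] at hX
  obtain ⟨u0, -⟩ := uu_bounds hL0 hLA
  have hT0 : (0 : ℝ) < (tri A).card := by
    exact_mod_cast card_pos.2 ⟨t, ht⟩
  rw [← sum_div, ← mul_sum]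
  set E := (A.card : ℝ) with hEdef
  set u := uu L A
  set T := ((tri A).card : ℝ) with hTdef
  have hE0 : 0 < E := by linarith
  set C : ℝ := (m.choose q : ℝ)
  set Q : ℝ := ((q : ℝ) / m) ^ 2 with hQ
  set Sc := ∑ e ∈ edgesOf U, (codeg A e : ℝ) with hSc
  refine (div_le_div_of_nonneg_right (mul_le_mul_of_nonneg_left hX (by norm_num)) hT0.le).trans ?_
  have e1 : 2 * (C * ((q : ℝ) * R ^ 2 + 2 * Q * Sc)) / T
      = C * (2 * q * (R : ℝ) ^ 2 * (1 / T) + 4 * Q * (Sc / T)) := by field_simp; ring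
  rw [e1]
  refine mul_le_mul_of_nonneg_left ?_ (Nat.cast_nonneg _)
  have h1 : 1 / T ≤ 4 * (u / E) := by
    rw [div_le_iff₀ hT0]
    have hg : E * dd A / 4 ≤ T := hT.tri_ge
    calc (1 : ℝ) ≤ dd A * u := hddu
      _ = 4 * (u / E) * (E * dd A / 4) := by field_simp
      _ ≤ 4 * (u / E) * T := mul_le_mul_of_nonneg_left hg (by positivity)
  have hn : ((edgesOf U).card : ℝ) ≤ ((m * R : ℕ) : ℝ) := by
    exact_mod_cast card_biUnion_le.trans ((sum_le_card_nsmul _ _ R hR).trans
      (le_of_eq (by rw [smul_eq_mul, hU])))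
  have h2' : Sc / T ≤ 4 * (((m * R : ℕ) : ℝ) + 25 * Real.sqrt ((m * R : ℕ) * L)) / E := by
    refine hr.trans ?_
    gcongr
  have hlog : 3 / E ≤ Real.log (E / L) - Real.log ((E - 3) / L) := by
    have h := Real.one_sub_inv_le_log_of_pos (div_pos hE0 (by linarith : (0 : ℝ) < E - 3))
    rw [inv_div, Real.log_div hE0.ne' (by linarith : E - 3 ≠ 0)] at h
    rw [Real.log_div hE0.ne' hL0.ne', Real.log_div (by linarith : E - 3 ≠ 0) hL0.ne']
    have e : 1 - (E - 3) / E = 3 / E := by field_simp; ring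
    linarith
  rw [need, need, card_sdiff_cast ht, ← hEdef]
  have k1 := mul_le_mul_of_nonneg_left h1 (show 0 ≤ 2 * (q : ℝ) * (R : ℝ) ^ 2 by positivity)
  have k2 := mul_le_mul_of_nonneg_left h2' (show 0 ≤ 4 * Q by positivity)
  have k3 := mul_le_mul_of_nonneg_left hlog (show 0 ≤ budA L R m q / 3 by
    linarith [budA_nonneg L R m q])
  have k4 := mul_le_mul_of_nonneg_left hus (show 0 ≤ 16 * (q : ℝ) * (R : ℝ) ^ 2 by positivity)
  have k0 : 0 ≤ (q : ℝ) * (R : ℝ) ^ 2 * (u / E) := by positivity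
  have e3 : 16 * (q : ℝ) * (R : ℝ) ^ 2 * (u * (3 / (4 * E)))
      = 12 * ((q : ℝ) * (R : ℝ) ^ 2 * (u / E)) := by field_simp; ring
  have e4 : budA L R m q / 3 * (3 / E)
      = 4 * Q * (4 * (((m * R : ℕ) : ℝ) + 25 * Real.sqrt ((m * R : ℕ) * L)) / E) := by
    rw [budA, hQ]; field_simp; ring
  rw [e3] at k4
  rw [e4] at k3
  linarith

/-- A family of `m` disjoint witnesses from `Ω`, all edges in `A`. -/
def IsFam (Ω : Finset (Finset (Finset V))) (m : ℕ) (A : Finset (Finset V))
    (U : Finset (Finset (Finset V))) : Prop :=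
  U ⊆ Ω ∧ U.card = m ∧ (∀ w ∈ U, ∀ w' ∈ U, w ≠ w' → Disjoint w w') ∧ edgesOf U ⊆ A

/-- The disjoint subfamilies of size `q`. -/
def subfams (Ω : Finset (Finset (Finset V))) (q : ℕ) : Finset (Finset (Finset (Finset V))) :=
  (Ω.powersetCard q).filter fun F => ∀ w ∈ F, ∀ w' ∈ F, w ≠ w' → Disjoint w w'

open Classical in
/-- A state with a family is visited rarely, apart from leaving the track. -/
theorem reach_fam_le (hL : 100 ≤ L) (hHi : 0 < Hi) (hq : 1 ≤ q) (hqm : q ≤ m)
    (hV : 0 < (Fintype.card V : ℝ)) (hLn : (Fintype.card V : ℝ) ^ 3 ≤ 4 * L ^ 2)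
    (Ω : Finset (Finset (Finset V))) (hne : ∀ w ∈ Ω, w.Nonempty) (hR : ∀ w ∈ Ω, w.card ≤ R)
    (Bad : Finset (Finset V) → Prop)
    (hbad : ∀ A, Bad A → L + 3 < A.card ∧ (A.card : ℝ) ≤ Hi ∧ ∃ U, IsFam Ω m A U)
    (A : Finset (Finset V)) :
    (∀ e ∈ A, e.card = 2) → ∀ β : Finset (Finset (Finset V)) → ℝ,
      (∀ U, IsFam Ω m A U → (m.choose q : ℝ) * need L R m q A ≤ ∑ F ∈ U.powersetCard q, β F) →
      reach Bad A ≤ reach (OffTrack L) A
        + ∑ F ∈ (subfams Ω q).filter (fun F => edgesOf F ⊆ A),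
            Real.exp (surv L Hi q (edgesOf F) A + β F) := by
  induction A using Finset.strongInduction with
  | H A ih =>
  intro h2 β hβ
  have hL0 : 0 < L := by linarith
  set rhs := ∑ F ∈ (subfams Ω q).filter (fun F => edgesOf F ⊆ A),
      Real.exp (surv L Hi q (edgesOf F) A + β F) with hrhs
  have hrhs0 : 0 ≤ rhs := sum_nonneg fun F _ => (Real.exp_pos _).le
  by_cases hoff : OffTrack L A
  · rw [reach_of_pos hoff]
    have := reach_le_one Bad A
    linarith
  by_cases hB : Bad A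
  · obtain ⟨hA, hAHi, U, hU⟩ := hbad A hB
    obtain ⟨hUΩ, hUm, hUd, hUA⟩ := id hU
    obtain ⟨u0, u1⟩ := uu_bounds hL0 (by linarith : L < A.card)
    have hneed : 0 ≤ need L R m q A := by
      unfold need
      have : 0 ≤ Real.log ((A.card : ℝ) / L) :=
        Real.log_nonneg (by rw [le_div_iff₀ hL0]; linarith)
      have := budA_nonneg L R m q
      have : 0 ≤ 1 - uu L A := by linarith
      positivity
    obtain ⟨F, hF, hFβ⟩ : ∃ F ∈ U.powersetCard q, 0 ≤ β F := by
      by_contra hc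
      push Not at hc
      have h := hβ U hU
      have hne' : (U.powersetCard q).Nonempty := powersetCard_nonempty.2 (hUm ▸ hqm)
      have := sum_neg hc hne'
      have : (0 : ℝ) ≤ (m.choose q : ℝ) * need L R m q A := by positivity
      linarith
    obtain ⟨hFU, hFq⟩ := mem_powersetCard.1 hF
    have hFmem : F ∈ (subfams Ω q).filter (fun F => edgesOf F ⊆ A) :=
      mem_filter.2 ⟨mem_filter.2 ⟨mem_powersetCard.2 ⟨hFU.trans hUΩ, hFq⟩,
        fun w hw w' hw' => hUd w (hFU hw) w' (hFU hw')⟩,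
        (biUnion_subset_biUnion_of_subset_left _ hFU).trans hUA⟩
    have hE0 : (0 : ℝ) < A.card := by linarith
    have hs : 0 ≤ surv L Hi q (edgesOf F) A := by
      unfold surv cRate
      have : 0 ≤ Real.log (Hi / A.card) := Real.log_nonneg (by rw [le_div_iff₀ hE0]; linarith)
      have : 0 ≤ 1 - uu L A := by linarith
      positivity
    have h1 : 1 ≤ rhs := (Real.one_le_exp (add_nonneg hs hFβ)).trans
      (single_le_sum (f := fun F => Real.exp (surv L Hi q (edgesOf F) A + β F))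
        (fun F _ => (Real.exp_pos _).le) hFmem)
    rw [reach_of_pos hB]
    have := reach_nonneg (OffTrack L) A
    linarith
  by_cases hE : (A.card : ℝ) ≤ L + 3 ∨ tri A = ∅
  · have h0 : reach Bad A ≤ 0 := by
      rcases hE with hE | hE
      · refine reach_le Bad (fun _ => 0) A (fun _ _ => le_rfl) (fun B hB' hP => ?_)
          (fun B _ _ _ => by simp)
        have h1 : (B.card : ℝ) ≤ A.card := by exact_mod_cast card_le_card hB'
        linarith [(hbad B hP).1]
      · rw [reach_of_empty hB hE]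
    have := reach_nonneg (OffTrack L) A
    linarith
  push Not at hE
  obtain ⟨hA, hne0⟩ := hE
  have hne' : tri A ≠ ∅ := Finset.nonempty_iff_ne_empty.1 (by simpa using hne0)
  have hT0 : (0 : ℝ) < (tri A).card := by
    exact_mod_cast card_pos.2 (Finset.nonempty_iff_ne_empty.2 hne')
  rw [reach_of_ne hB hne', reach_of_ne hoff hne', div_add' _ _ _ hT0.ne']
  refine div_le_div_of_nonneg_right ?_ hT0.le
  set T := ((tri A).card : ℝ) with hT
  set β' : Finset (Finset (Finset V)) → ℝ :=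
    fun F => β F - 2 * ((dbl (edgesOf F) A).card : ℝ) / T with hβ'
  refine (sum_le_sum fun t ht => ih _ (sdiff_pairs_ssubset ht)
    (fun e he => h2 e (mem_sdiff.1 he).1) β' fun U hU => ?_).trans ?_
  · obtain ⟨hUΩ, hUm, hUd, hUA⟩ := hU
    have hUA' : edgesOf U ⊆ A := hUA.trans sdiff_subset
    have h1 := hβ U ⟨hUΩ, hUm, hUd, hUA'⟩
    have h3 := need_step (L := L) hL hq hqm hV hLn h2 hA hoff hUm hUd
      (fun w hw => hR w (hUΩ hw)) hUA' ht
    simp only [hβ', sum_sub_distrib]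
    linarith
  rw [sum_add_distrib, mul_comm rhs T]
  refine add_le_add le_rfl ?_
  have hsub : ∀ t ∈ tri A, (subfams Ω q).filter (fun F => edgesOf F ⊆ A \ pairs t)
      = ((subfams Ω q).filter fun F => edgesOf F ⊆ A).filter fun F => edgesOf F ⊆ A \ pairs t :=
    fun t _ => by
      rw [filter_filter]
      exact filter_congr fun F _ => ⟨fun h => ⟨h.trans sdiff_subset, h⟩, fun h => h.2⟩
  rw [sum_congr rfl fun t ht => by rw [hsub t ht, sum_filter], sum_comm, hrhs, mul_sum]
  refine sum_le_sum fun F hF => ?_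
  rw [← sum_filter]
  obtain ⟨hF', hFA⟩ := mem_filter.1 hF
  obtain ⟨hF'', hFd⟩ := mem_filter.1 hF'
  obtain ⟨hFΩ, hFq⟩ := mem_powersetCard.1 hF''
  have hqS : q ≤ (edgesOf F).card := hFq ▸ (card_edgesOf_bounds hFd
    (fun w hw => hne w (hFΩ hw)) (fun w hw => hR w (hFΩ hw))).1
  set Sc := ∑ e ∈ edgesOf F, (codeg A e : ℝ)
  set X := ((dbl (edgesOf F) A).card : ℝ) with hX
  refine (sum_le_card_nsmul _ _ (Real.exp (surv L Hi q (edgesOf F) A + Sc / T + β' F))
    fun t ht => Real.exp_le_exp.2 (add_le_add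
      (surv_step hL hq hV hLn hHi h2 hFA hqS hA hoff (mem_filter.1 ht).1) le_rfl)).trans ?_
  rw [nsmul_eq_mul]
  refine (mul_le_mul_of_nonneg_right (card_avoid_le (edgesOf F) A) (Real.exp_pos _).le).trans ?_
  have h4 : T - Sc + 2 * X ≤ T * Real.exp (-(Sc / T) + 2 * X / T) := by
    have h := mul_le_mul_of_nonneg_left (Real.add_one_le_exp (-(Sc / T) + 2 * X / T)) hT0.le
    have e : T * (-(Sc / T) + 2 * X / T + 1) = T - Sc + 2 * X := by field_simp; ring
    linarith
  refine (mul_le_mul_of_nonneg_right h4 (Real.exp_pos _).le).trans (le_of_eq ?_)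
  rw [mul_assoc, ← Real.exp_add]
  congr 2
  simp only [hβ', ← hX]
  ring

end Vale.Agent.P046.Const
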