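import Vale.Agent.P046.Gap.Delta

/-!
P046, the leading constant: definitions and the interfaces of the modules.

Stop at a state `G` with `4E²/n³` large. There the leave of the process from `G` is the sum over
the edges of their survival probabilities on the trees of triangles around them, and these solve
the cavity equation, whose solution is close to that of the regular case.
-/

namespace Vale.Agent.P046.Const

open Finset Vale.Agent.P046.Track Vale.Agent.P046.Gap

variable {V : Type} [Fintype V] [DecidableEq V]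

/-- The rate at which the triangle `s` takes its edge `e`, given for every triangle and edge the
chance `J` that the triangle has taken the edge. -/
noncomputable def rate (A : Finset (Finset V)) (J : Finset V → Finset V → ℝ) (s e : Finset V) :
    ℝ :=
  ∏ f ∈ (pairs s).erase e, ∏ s' ∈ (triEdge A f).erase s, (1 - J s' f)

/-- The chance that the edge `e` is left. -/
noncomputable def live (A : Finset (Finset V)) (J : Finset V → Finset V → ℝ) (e : Finset V) : ℝ :=
  ∏ s ∈ triEdge A e, (1 - J s e)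

/-- A solution of the cavity equation of the triangles of `A` on the time interval `[0, 1]`. -/
def IsCav (A : Finset (Finset V)) (I : Finset V → Finset V → ℝ → ℝ) : Prop :=
  ∀ s ∈ tri A, ∀ e ∈ pairs s, ∀ x ∈ Set.Icc (0 : ℝ) 1,
    0 ≤ I s e x ∧ I s e x ≤ x ∧
      HasDerivWithinAt (I s e) (rate A (fun s' f => I s' f x) s e) (Set.Icc 0 1) x

/-- The sum of the chances at the end that the edges are left. -/
noncomputable def liveSum (A : Finset (Finset V)) (I : Finset V → Finset V → ℝ → ℝ) : ℝ :=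
  ∑ e ∈ A, live A (fun s f => I s f 1) e

/-- The Picard iterates of the cavity equation. -/
noncomputable def picard (A : Finset (Finset V)) : ℕ → Finset V → Finset V → ℝ → ℝ
  | 0, _, _, _ => 0
  | k + 1, s, e, x => ∫ t in (0 : ℝ)..x, rate A (fun s' f => picard A k s' f t) s e

/-- The exponential moment of the codegrees. -/
noncomputable def expCodeg (a : ℝ) (A : Finset (Finset V)) : ℝ :=
  ∑ e ∈ A, Real.exp (a * (codeg A e : ℝ))

/-- A small set of vertices spanning the edges `W` of `A`, one more than a tree of triangles. -/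
def IsWitness (R : ℕ) (A W : Finset (Finset V)) : Prop :=
  W.Nonempty ∧ W ⊆ A ∧
    ∃ U : Finset V, U.card ≤ R ∧ W ⊆ U.powersetCard 2 ∧ 2 * U.card ≤ W.card + 2

/-- There are many edge-disjoint witnesses. -/
def Many (R : ℕ) (δ : ℝ) (A : Finset (Finset V)) : Prop :=
  ∃ F : Finset (Finset (Finset V)), (∀ W ∈ F, IsWitness R A W) ∧
    (F : Set (Finset (Finset V))).Pairwise Disjoint ∧ δ * A.card ≤ F.card

open Classical in
/-- The probability that the process from `A` visits a state with property `P`. -/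
noncomputable def reach (P : Finset (Finset V) → Prop) (A : Finset (Finset V)) : ℝ :=
  if P A then 1
  else if tri A = ∅ then 0
  else (∑ t ∈ (tri A).attach, reach P (A \ pairs t.1)) / (tri A).card
termination_by A.card
decreasing_by exact card_sdiff_pairs_lt t.2

/-- The edge counts at which the process is stopped: `(L, 2L]` with `L = Λ n^(3/2)`. -/
def InWindow (Λ : ℝ) (A : Finset (Finset V)) : Prop :=
  Λ * (Fintype.card V : ℝ) ^ ((3 : ℝ) / 2) < A.card ∧
    (A.card : ℝ) ≤ 2 * (Λ * (Fintype.card V : ℝ) ^ ((3 : ℝ) / 2))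

/-- Small variance of the codegrees and small link defect. -/
def NearRegular (δ : ℝ) (A : Finset (Finset V)) : Prop :=
  (∑ e ∈ A, dev A e ^ 2) / A.card + psiSum (11 / 100) A / (A.card * dd A)
    ≤ δ * dd A ^ (-(999 / 1000) : ℝ)

/-- A state at which the process is stopped. -/
def Good (Λ δ a A₀ : ℝ) (A : Finset (Finset V)) : Prop :=
  InWindow Λ A ∧ NearRegular δ A ∧ expCodeg a A ≤ A₀ * A.card

/-- The contraction of the full Lyapunov function, keeping the defect at margin `11/100`. -/
def GainStep : Prop :=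
  ∃ ε K c θ : ℝ, ∃ n₀ : ℕ, 0 < ε ∧ 0 ≤ K ∧ 0 < c ∧ c ≤ 1 ∧ 0 < θ ∧ θ ≤ 1 / 64 ∧
    ∀ (V : Type) [Fintype V] [DecidableEq V] (A : Finset (Finset V)),
      (∀ e ∈ A, e.card = 2) → n₀ ≤ Fintype.card V → 100 ≤ A.card → 1 ≤ dd A → err A ≤ θ →
        ∑ t ∈ tri A, full ε (A \ pairs t)
          ≤ (tri A).card * (full ε A * (1 - c / A.card)
              + (K - c * (psiSum (11 / 100) A / A.card)) / A.card)

/-- N1: with high probability some state of the window is good. -/
def GoodLevel : Prop :=
  ∀ η δ : ℝ, 0 < η → 0 < δ → ∃ Λ₀ : ℝ, ∀ Λ : ℝ, Λ₀ ≤ Λ →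
    ∃ a A₀ : ℝ, 0 < a ∧ ∃ n₀ : ℕ, ∀ n : ℕ, n₀ ≤ n →
      1 - η ≤ reach (Good Λ δ a A₀) (complete n)

/-- N2: with high probability no state of the window has many short cycles. -/
def NoCycles : Prop :=
  ∀ η : ℝ, 0 < η → ∃ Λ₀ : ℝ, ∀ Λ : ℝ, Λ₀ ≤ Λ → ∀ (R : ℕ) (δ : ℝ), 0 < δ →
    ∃ n₀ : ℕ, ∀ n : ℕ, n₀ ≤ n →
      reach (fun A => InWindow Λ A ∧ Many R δ A) (complete n) ≤ η

/-- N3: the Picard iterates converge to the cavity solution at a rate free of the graph. -/
def PicardGap : Prop :=
  ∀ a A₀ ε : ℝ, 0 < a → 0 < ε → ∃ k₀ : ℕ, ∀ k : ℕ, k₀ ≤ k →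
    ∀ (V : Type) [Fintype V] [DecidableEq V] (A : Finset (Finset V))
      (I : Finset V → Finset V → ℝ → ℝ),
      expCodeg a A ≤ A₀ * A.card → IsCav A I →
        ∑ e ∈ A, ∑ s ∈ triEdge A e, |picard A k s e 1 - I s e 1| ≤ ε * A.card

/-- The cavity equation has a solution. -/
def CavExists : Prop :=
  ∀ (V : Type) [Fintype V] [DecidableEq V] (A : Finset (Finset V)),
    ∃ I : Finset V → Finset V → ℝ → ℝ, IsCav A I

/-- N3 and N4: without many short cycles the leave is the sum of the cavity probabilities. -/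
def LocalLaw : Prop :=
  ∀ a A₀ ε : ℝ, 0 < a → 0 < ε → ∃ (R : ℕ) (δ E₀ : ℝ), 0 < δ ∧
    ∀ (V : Type) [Fintype V] [DecidableEq V] (A : Finset (Finset V))
      (I : Finset V → Finset V → ℝ → ℝ),
      (∀ e ∈ A, e.card = 2) → E₀ ≤ A.card → expCodeg a A ≤ A₀ * A.card → ¬ Many R δ A →
        IsCav A I → procVal (fun B => |(B.card : ℝ) - liveSum A I|) A ≤ ε * A.card

/-- N5: near a regular state the cavity solution is that of the regular case. -/
def OdeTarget : Prop :=
  ∀ ε : ℝ, 0 < ε → ∃ D₀ δ : ℝ, 0 < δ ∧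
    ∀ (V : Type) [Fintype V] [DecidableEq V] (A : Finset (Finset V))
      (I : Finset V → Finset V → ℝ → ℝ),
      (∀ e ∈ A, e.card = 2) → D₀ ≤ dd A → NearRegular δ A → IsCav A I →
        |liveSum A I - A.card / Real.sqrt (1 + 2 * dd A)|
          ≤ ε * (A.card / Real.sqrt (1 + 2 * dd A))

/-- N6: the leading constant, in probability and in mean. -/
def ConstLimit : Prop :=
  (∀ ε : ℝ, 0 < ε → Filter.Tendsto
    (fun n : ℕ => procVal (fun B : Finset (Finset (Fin n)) =>
        if ε * (n : ℝ) ^ ((3 : ℝ) / 2)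
            < |(B.card : ℝ) - (n : ℝ) ^ ((3 : ℝ) / 2) / (2 * Real.sqrt 2)| then 1 else 0)
      (complete n))
    Filter.atTop (nhds 0)) ∧
  Filter.Tendsto (fun n : ℕ => expLeave (complete n) / (n : ℝ) ^ ((3 : ℝ) / 2))
    Filter.atTop (nhds (1 / (2 * Real.sqrt 2)))

end Vale.Agent.P046.Const
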