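import Vale.Agent.P046.Const.Defs
import Vale.Agent.P046.Gap.Pot
import Vale.Agent.P046.Gap.Margin
import Vale.Agent.P046.Gap.Rel
import Vale.Agent.P046.Gap.Assemble

/-!
P046, the leading constant: the Lyapunov function keeps the defect at margin 11/100.
-/

namespace Vale.Agent.P046.Const

open Finset Vale.Agent.P046.Track Vale.Agent.P046.Gap

theorem level_hundred : level 100 ≤ 11 / 100 := by
  have : (39 / 40 : ℝ) ^ 100 ≤ 1 / 10 := by norm_num
  unfold level; linarith

theorem hundred_le_depth {n : ℕ} (hn : 16 ≤ n) : 100 ≤ depth n := by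
  have := Nat.le_log_of_pow_le (b := 2) (x := 4) (by norm_num) (by norm_num; omega : 2 ^ 4 ≤ n)
  unfold depth; omega

theorem psiSum_anti {V : Type} [Fintype V] [DecidableEq V] {τ τ' : ℝ} (h : τ' ≤ τ)
    (A : Finset (Finset V)) : psiSum τ A ≤ psiSum τ' A := by
  refine sum_le_sum fun v _ => ?_
  rw [psiAt_eq, psiAt_eq]
  exact psiL_anti h _

/-- The contraction of the full Lyapunov function with the defect at margin `11/100`. -/
theorem gain_step : GainStep := by
  obtain ⟨C, c₂, hC, hc₂, hpot⟩ := potStep_keep avg_step thin_bound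
  obtain ⟨ε, K, c, θ, hε, hK, hc, hc1, hθ, hθ', h⟩ := order_step_keep lyapMargin gapRel hC hc₂
  set ρ := (19 / 20 : ℝ) ^ 100 with hρ
  have hρ0 : 0 < ρ := by rw [hρ]; positivity
  have hρ1 : ρ ≤ 1 := pow_le_one₀ (by norm_num) (by norm_num)
  refine ⟨ε, K, c * ρ, θ, 16, hε, hK, mul_pos hc hρ0,
    (mul_le_of_le_one_right hc.le hρ1).trans hc1, hθ, hθ', fun V _ _ A h2 hn hE hD herr => ?_⟩
  have hA := onTrack_of_err h2 hE hD ((herr.trans hθ').trans (by norm_num))
  set Ω := ρ * psiSum (level 100) A / A.card with hΩ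
  have hΩ0 : 0 ≤ Ω := div_nonneg (mul_nonneg hρ0.le (psiSum_nonneg _ A)) (Nat.cast_nonneg _)
  refine (h V A h2 hE hD herr Ω hΩ0
    (hpot V A h2 hE hD hA.tw_le 100 (hundred_le_depth hn))).trans ?_
  refine mul_le_mul_of_nonneg_left (add_le_add ?_ ?_) (Nat.cast_nonneg _)
  · refine mul_le_mul_of_nonneg_left ?_
      (add_nonneg (lyap_nonneg A) (mul_nonneg hε.le (pot2_nonneg A)))
    have := mul_le_of_le_one_right hc.le hρ1
    exact sub_le_sub_left (div_le_div_of_nonneg_right this hA.card_pos.le) _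
  · refine div_le_div_of_nonneg_right (sub_le_sub_left ?_ _) hA.card_pos.le
    rw [hΩ, mul_assoc, mul_div_assoc]
    refine mul_le_mul_of_nonneg_left (mul_le_mul_of_nonneg_left ?_ hρ0.le) hc.le
    exact div_le_div_of_nonneg_right (psiSum_anti level_hundred A) hA.card_pos.le

end Vale.Agent.P046.Const
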