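import Vale.Agent.P046.Const.Gain
import Vale.Agent.P046.Const.Reach
import Vale.Agent.P046.Gap.Damped
import Vale.Agent.P046.Track.Recursion
import Vale.Agent.P046.Track.Sparse

/-!
P046, the leading constant: with high probability the process visits a good state of the window.
-/

namespace Vale.Agent.P046.Const

open Finset Vale.Agent.P046.Track Vale.Agent.P046.Gap

variable {V : Type} [Fintype V] [DecidableEq V]

/-- One step lowers the damped function by the gain, as long as it stays above the cutoff. -/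
theorem damp_gain {ε K c L g : ℝ} (hε : 0 ≤ ε) (hK : 0 ≤ K) (hc : 0 < c) (hc1 : c ≤ 1)
    (hL : 0 < L) {A : Finset (Finset V)} (hA : L < (A.card : ℝ) - 3) (hA2 : (A.card : ℝ) ≤ 2 * L)
    (hE : 100 ≤ A.card) (hg : 0 ≤ g)
    (hstep : ∑ t ∈ tri A, full ε (A \ pairs t)
      ≤ (tri A).card * (full ε A * (1 - c / A.card) + (K - g) / A.card)) :
    ∑ t ∈ tri A, damp ε (c / 4) (8 * K / (3 * c)) L (A \ pairs t)
      ≤ (tri A).card * (damp ε (c / 4) (8 * K / (3 * c)) L A - g / (2 * A.card)) := by
  have hE' : (100 : ℝ) ≤ A.card := by exact_mod_cast hE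
  have hK' : 0 ≤ 8 * K / (3 * c) := by positivity
  obtain ⟨w1, w2⟩ := weight_step hc hc1 hL hE'
  obtain ⟨p1, -⟩ := weight_bounds (a := c / 4) (by linarith) hL hA
  set u' := (L / ((A.card : ℝ) - 3)) ^ (c / 4) with hu'
  set u := (L / (A.card : ℝ)) ^ (c / 4) with hu
  have hu2 : 1 / 2 ≤ u' := by
    have h1 : (1 / 2 : ℝ) ≤ L / ((A.card : ℝ) - 3) := by
      rw [le_div_iff₀ (by linarith)]; linarith
    refine h1.trans (Real.self_le_rpow_of_le_one (by linarith) ?_ (by linarith))
    rw [div_le_one (by linarith)]; linarith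
  have e1 : ∀ t ∈ tri A, damp ε (c / 4) (8 * K / (3 * c)) L (A \ pairs t)
      = u' * full ε (A \ pairs t) + 8 * K / (3 * c) * (1 - u') := fun t ht => by
    rw [damp, card_sdiff_cast ht, if_neg (not_le.2 hA)]
  rw [sum_congr rfl e1, sum_add_distrib, ← mul_sum, sum_const, nsmul_eq_mul, damp,
    if_neg (not_le.2 (show L < (A.card : ℝ) by linarith)), ← hu]
  refine (add_le_add_left (mul_le_mul_of_nonneg_left hstep p1.le) _).trans ?_
  rw [mul_left_comm, ← mul_add]
  refine mul_le_mul_of_nonneg_left ?_ (Nat.cast_nonneg _)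
  have k1 := mul_le_mul_of_nonneg_right w1 (full_nonneg hε A)
  have k2 := mul_le_mul_of_nonneg_left w2 hK'
  have k3 := mul_le_mul_of_nonneg_right hu2 (show 0 ≤ g / A.card by positivity)
  have e2 : 8 * K / (3 * c) * (u' * (1 - 3 * c / (8 * (A.card : ℝ))))
      = 8 * K / (3 * c) * u' - u' * (K / A.card) := by
    field_simp
  have e3 : u' * (full ε A * (1 - c / A.card) + (K - g) / A.card)
      = u' * (1 - c / A.card) * full ε A + u' * (K / A.card) - u' * (g / A.card) := by ring
  have e4 : g / (2 * (A.card : ℝ)) = 1 / 2 * (g / A.card) := by ring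
  linarith

/-- The exponential moment of the codegrees with a clock that starts at `4 L` edges. -/
noncomputable def clockMoment (L κ : ℝ) (A : Finset (Finset V)) : ℝ :=
  if 4 * L < A.card then 12 * L else ∑ e ∈ A, Real.exp (κ * (4 * L - A.card) * codeg A e)

theorem clockMoment_nonneg {L κ : ℝ} (hL : 0 ≤ L) (A : Finset (Finset V)) :
    0 ≤ clockMoment L κ A := by
  unfold clockMoment
  split_ifs
  · positivity
  · exact sum_nonneg fun _ _ => (Real.exp_pos _).le

/-- Removing a random triangle kills an edge at the rate of its codegree. -/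
theorem clockMoment_step {L κ : ℝ} (hL : 0 ≤ L) (hκ : 0 ≤ κ) {A : Finset (Finset V)}
    (hT : 0 < (tri A).card) (hκT : 3 * κ * ((tri A).card : ℝ) ≤ 1 ∨ 4 * L + 3 < A.card) :
    ∑ t ∈ tri A, clockMoment L κ (A \ pairs t) ≤ (tri A).card * clockMoment L κ A := by
  have hT' : (0 : ℝ) < ((tri A).card : ℝ) := by exact_mod_cast hT
  have hc : ∀ e, (codeg A e : ℝ) ≤ ((tri A).card : ℝ) := fun e => by
    exact_mod_cast card_filter_le _ _
  rcases le_or_gt ((A.card : ℝ)) (4 * L) with hE | hE
  · -- the clock runs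
    have h3 : 3 * κ * ((tri A).card : ℝ) ≤ 1 := hκT.resolve_right (by linarith)
    set w := fun e => Real.exp (κ * (4 * L - A.card + 3) * codeg A e) with hw
    have h1 : ∀ t ∈ tri A, clockMoment L κ (A \ pairs t) ≤ ∑ e ∈ A \ pairs t, w e := by
      intro t ht
      rw [clockMoment, card_sdiff_cast ht, if_neg (by linarith)]
      refine sum_le_sum fun e _ => Real.exp_le_exp.2 ?_
      rw [show 4 * L - ((A.card : ℝ) - 3) = 4 * L - A.card + 3 by ring]
      refine mul_le_mul_of_nonneg_left ?_ (mul_nonneg hκ (by linarith))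
      exact_mod_cast codeg_mono sdiff_subset e
    refine (sum_le_sum h1).trans ?_
    rw [clockMoment, if_neg (not_lt.2 hE), mul_sum]
    have e1 : ∑ t ∈ tri A, ∑ e ∈ A \ pairs t, w e
        = ∑ e ∈ A, (((tri A).card : ℝ) - codeg A e) * w e := by
      have e2 : ∀ t ∈ tri A, ∑ e ∈ A \ pairs t, w e = ∑ e ∈ A, w e - ∑ e ∈ pairs t, w e :=
        fun t ht => sum_sdiff_eq_sub (tri_sub ht)
      rw [sum_congr rfl e2, sum_sub_distrib, sum_const, nsmul_eq_mul, sum_tri_pairs, mul_sum,
        ← sum_sub_distrib]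
      exact sum_congr rfl fun e _ => by ring
    rw [e1]
    refine sum_le_sum fun e _ => ?_
    set c := (codeg A e : ℝ)
    have hc0 : 0 ≤ c := Nat.cast_nonneg _
    have h2 : ((tri A).card : ℝ) - c ≤ (tri A).card * Real.exp (-(3 * κ * c)) := by
      refine le_trans ?_ (mul_le_mul_of_nonneg_left (Real.add_one_le_exp _) hT'.le)
      nlinarith [mul_le_mul_of_nonneg_right h3 hc0]
    refine (mul_le_mul_of_nonneg_right h2 (Real.exp_pos _).le).trans (le_of_eq ?_)
    rw [mul_assoc, ← Real.exp_add]
    congr 2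
    ring
  · rw [clockMoment, if_pos hE]
    refine (sum_le_card_nsmul _ _ (12 * L) fun t ht => ?_).trans_eq (nsmul_eq_mul _ _)
    rw [clockMoment, card_sdiff_cast ht]
    split_ifs with h
    · rfl
    have h3 : 3 * κ * ((tri A).card : ℝ) ≤ 1 := hκT.resolve_right (by linarith)
    refine (sum_le_card_nsmul _ _ (3 : ℝ) fun e _ => ?_).trans ?_
    · refine le_trans (Real.exp_le_exp.2 (show _ ≤ (1 : ℝ) from ?_)) Real.exp_one_lt_three.le
      have h4 : κ * (4 * L - ((A.card : ℝ) - 3)) ≤ κ * 3 :=
        mul_le_mul_of_nonneg_left (by linarith) hκ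
      have h5 := mul_le_mul_of_nonneg_right h4 (Nat.cast_nonneg (codeg (A \ pairs t) e))
      have h6 : (codeg (A \ pairs t) e : ℝ) ≤ (tri A).card :=
        le_trans (by exact_mod_cast codeg_mono sdiff_subset e) (hc e)
      have h7 := mul_le_mul_of_nonneg_left h6 (show 0 ≤ 3 * κ by positivity)
      linarith
    · rw [nsmul_eq_mul, card_sdiff_cast ht]
      linarith

/-- The failure majorant. -/
noncomputable def fail (ε c K L Λ θ B A₀ κ : ℝ) (A : Finset (Finset V)) : ℝ :=
  damp ε (c / 4) (8 * K / (3 * c)) L A / (4 * Λ ^ 2 * θ)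
    + (damp ε (c / 4) (8 * K / (3 * c)) L A + c * B / (18 * L) * max 0 (2 * L - 3 - A.card))
      / (c * B / 36)
    + clockMoment L κ A / (A₀ * L)

/-- The state is good unless the Lyapunov function, the defect or the moment is large. -/
theorem nearRegular_of {ε δ B Λ : ℝ} (hε : 0 ≤ ε) {A : Finset (Finset V)} (hδ : 0 ≤ δ)
    (hE : (0 : ℝ) < A.card) (hΛ : 0 < Λ) (hD : 4 * Λ ^ 2 ≤ dd A)
    (hB : 40001 * B ≤ δ * (4 * Λ ^ 2) ^ ((1 : ℝ) / 1000))
    (h : full ε A + psiSum (11 / 100) A / A.card ≤ B) : NearRegular δ A := by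
  have hDpos : 0 < dd A := lt_of_lt_of_le (by positivity) hD
  have hΨ : 0 ≤ psiSum (11 / 100) A / A.card := div_nonneg (psiSum_nonneg _ A) hE.le
  have hl : lyap A ≤ B := by
    have := mul_nonneg hε (pot2_nonneg A)
    unfold full at h; linarith
  have h1 : (∑ e ∈ A, dev A e ^ 2) / A.card ≤ 40000 * B / dd A := by
    have h2 : ∑ e ∈ A, dev A e ^ 2 ≤ 40000 * mass A := by
      rw [mass, mul_sum]; exact sum_le_sum fun e _ => sq_le_psi (dev_ge' A e)
    have h3 : mass A / A.card ≤ err A := le_add_of_nonneg_right (by positivity)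
    have h4 : err A ≤ B / dd A := by
      rw [le_div_iff₀ hDpos, mul_comm]; exact hl
    refine (div_le_div_of_nonneg_right h2 hE.le).trans ?_
    rw [mul_div_assoc, mul_div_assoc]
    exact mul_le_mul_of_nonneg_left (h3.trans h4) (by norm_num)
  have h5 : psiSum (11 / 100) A / (A.card * dd A) ≤ B / dd A := by
    rw [← div_div]
    refine div_le_div_of_nonneg_right ?_ hDpos.le
    have := full_nonneg hε A
    linarith
  refine (add_le_add h1 h5).trans ?_
  rw [← add_div, show (-(999 / 1000) : ℝ) = (1 : ℝ) / 1000 + (-1) by norm_num,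
    Real.rpow_add hDpos, Real.rpow_neg_one, ← mul_assoc, ← div_eq_mul_inv]
  refine div_le_div_of_nonneg_right ?_ hDpos.le
  refine le_trans ?_ (mul_le_mul_of_nonneg_left
    (Real.rpow_le_rpow (by positivity) hD (by norm_num : (0 : ℝ) ≤ 1 / 1000)) hδ)
  linarith

/-- N1: the process visits a good state unless the majorant is large. -/
theorem good_of_gain {ε K c θ Λ δ B A₀ L : ℝ} (hε : 0 < ε) (hK : 0 ≤ K) (hc : 0 < c) (hc1 : c ≤ 1)
    (hθ : 0 < θ) (hθ' : θ ≤ 1 / 64) (hΛ : 1 ≤ Λ) (hδ : 0 < δ) (hB : 0 < B)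
    (hBδ : 40001 * B ≤ δ * (4 * Λ ^ 2) ^ ((1 : ℝ) / 1000)) (hA₀ : 0 < A₀)
    (hL : L = Λ * (Fintype.card V : ℝ) ^ ((3 : ℝ) / 2)) (hL100 : 200 ≤ L)
    (hV : 0 < (Fintype.card V : ℝ))
    (hstep : ∀ A : Finset (Finset V), (∀ e ∈ A, e.card = 2) → 100 ≤ A.card → 1 ≤ dd A →
      err A ≤ θ → ∑ t ∈ tri A, full ε (A \ pairs t)
        ≤ (tri A).card * (full ε A * (1 - c / A.card)
          + (K - c * (full ε A + psiSum (11 / 100) A / A.card)) / A.card)) :
    ∀ A : Finset (Finset V), (∀ e ∈ A, e.card = 2) → L < A.card →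
      1 - reach (Good (V := V) Λ δ (1 / (384 * Λ ^ 2)) A₀) A
        ≤ fail ε c K L Λ θ B A₀ (1 / (768 * Λ ^ 2 * L)) A := by
  set κ := 1 / (768 * Λ ^ 2 * L) with hκdef
  set N := (Fintype.card V : ℝ) ^ 3 with hN
  have hN0 : 0 < N := by positivity
  have hL0 : 0 < L := by linarith
  have hκ : 0 ≤ κ := by positivity
  have hK' : 0 ≤ 8 * K / (3 * c) := by positivity
  have hLN : L ^ 2 = Λ ^ 2 * N := by
    rw [hL, mul_pow, hN, ← Real.rpow_natCast ((Fintype.card V : ℝ) ^ ((3 : ℝ) / 2)) 2,
      ← Real.rpow_mul hV.le, ← Real.rpow_natCast (Fintype.card V : ℝ) 3]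
    norm_num
  intro A
  induction A using Finset.strongInduction with
  | H A ih =>
    intro h2 hA
    set P := Good (V := V) Λ δ (1 / (384 * Λ ^ 2)) A₀ with hP
    by_cases hG : P A
    · rw [reach_of_pos hG, sub_self]
      have h1 := damp_nonneg (a := c / 4) hε.le (by linarith) hK' hL0 A
      have h3 := clockMoment_nonneg (κ := κ) hL0.le A
      have h4 : 0 ≤ max 0 (2 * L - 3 - (A.card : ℝ)) := le_max_left _ _
      unfold fail
      positivity
    rcases le_or_gt 1 (fail ε c K L Λ θ B A₀ κ A) with hz | hz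
    · linarith [reach_nonneg P A]
    set dA := damp ε (c / 4) (8 * K / (3 * c)) L A with hdA
    set bA := c * B / (18 * L) * max 0 (2 * L - 3 - (A.card : ℝ)) with hbA
    have hd0 : 0 ≤ dA := damp_nonneg hε.le (by linarith) hK' hL0 A
    have hb0 : 0 ≤ bA := mul_nonneg (by positivity) (le_max_left _ _)
    have hm0 : 0 ≤ clockMoment L κ A := clockMoment_nonneg hL0.le A
    have z1 : 0 ≤ dA / (4 * Λ ^ 2 * θ) := by positivity
    have z2 : 0 ≤ (dA + bA) / (c * B / 36) := by positivity
    have z3 : 0 ≤ clockMoment L κ A / (A₀ * L) := by positivity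
    have hzdef : fail ε c K L Λ θ B A₀ κ A
        = dA / (4 * Λ ^ 2 * θ) + (dA + bA) / (c * B / 36) + clockMoment L κ A / (A₀ * L) := rfl
    have herr : err A ≤ θ := by
      have h := damp_err (K' := 8 * K / (3 * c)) hε.le (show 0 ≤ c / 4 by linarith) (by linarith)
        hK' hL0 hA
      rw [← hN, hLN, ← hdA] at h
      have h' : dA < 4 * Λ ^ 2 * θ := by
        rw [← div_lt_one (by positivity)]; linarith
      rw [show 4 * (Λ ^ 2 * N) / N = 4 * Λ ^ 2 by field_simp] at h
      exact le_of_mul_le_mul_left (h.trans h'.le) (by positivity)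
    have hE3 : L + 3 < A.card := by
      by_contra hle
      have h : 1 ≤ (dA + bA) / (c * B / 36) := by
        rw [one_le_div (by positivity)]
        have h' : c * B / (18 * L) * (L / 2) ≤ bA :=
          mul_le_mul_of_nonneg_left (le_max_of_le_right (by linarith [not_lt.1 hle]))
            (by positivity)
        rw [show c * B / (18 * L) * (L / 2) = c * B / 36 by field_simp; ring] at h'
        linarith
      linarith
    have hE100 : 100 ≤ A.card := by
      have : ((100 : ℕ) : ℝ) ≤ A.card := by push_cast; linarith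
      exact_mod_cast this
    have hE0 : (0 : ℝ) < A.card := by linarith
    have hD4 : 4 * Λ ^ 2 ≤ dd A := by
      rw [dd, ← hN, le_div_iff₀ hN0, mul_assoc, ← hLN]
      exact mul_le_mul_of_nonneg_left (pow_le_pow_left₀ hL0.le hA.le 2) (by norm_num)
    have hD1 : 1 ≤ dd A := le_trans (by nlinarith) hD4
    have hOn := onTrack_of_err h2 hE100 hD1 ((herr.trans hθ').trans (by norm_num))
    have hne : tri A ≠ ∅ := by
      intro he
      have := hOn.tri_ge
      rw [he, card_empty, Nat.cast_zero] at this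
      have := mul_pos hE0 (lt_of_lt_of_le one_pos hD1)
      linarith
    have hT : 0 < (tri A).card := card_pos.2 (nonempty_iff_ne_empty.2 hne)
    have hT' : (0 : ℝ) < ((tri A).card : ℝ) := by exact_mod_cast hT
    have hch : ∀ t ∈ tri A, 1 - reach P (A \ pairs t) ≤ fail ε c K L Λ θ B A₀ κ (A \ pairs t) :=
      fun t ht => ih _ (sdiff_pairs_ssubset ht) (fun e he => h2 e (sdiff_subset he))
        (by rw [card_sdiff_cast ht]; linarith)
    rw [reach_of_ne hG hne, one_sub_div hT'.ne', div_le_iff₀ hT']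
    refine le_trans (le_of_eq ?_) ((sum_le_sum hch).trans ?_)
    · rw [sum_sub_distrib, sum_const, nsmul_eq_mul, mul_one]
    -- the drift of the three parts
    have hd := hstep A h2 hE100 hD1 herr
    set G := full ε A + psiSum (11 / 100) A / A.card with hGdef
    have hG0 : 0 ≤ c * G := mul_nonneg hc.le
      (add_nonneg (full_nonneg hε.le A) (div_nonneg (psiSum_nonneg _ A) hE0.le))
    have hclock : 3 * κ * ((tri A).card : ℝ) ≤ 1 ∨ 4 * L + 3 < (A.card : ℝ) := by
      rcases le_or_gt (A.card : ℝ) (4 * L + 3) with hE | hE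
      · refine Or.inl ?_
        have hT4 : ((tri A).card : ℝ) ≤ (1 + 1 / 4) * ((A.card : ℝ) * dd A) / 3 := by
          rw [hOn.tri_eq]
          refine div_le_div_of_nonneg_right (mul_le_mul_of_nonneg_right ?_ (by positivity))
            (by norm_num)
          linarith [(abs_le.1 hOn.tw_le).2]
        have hD81 : dd A ≤ 81 * Λ ^ 2 := by
          rw [dd, ← hN, div_le_iff₀ hN0, mul_assoc, ← hLN]
          have := pow_le_pow_left₀ hE0.le (show (A.card : ℝ) ≤ 9 / 2 * L by linarith) 2
          linarith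
        have hED := mul_le_mul (show (A.card : ℝ) ≤ 9 / 2 * L by linarith) hD81
          (by linarith) (by linarith)
        rw [hκdef, mul_one_div, div_mul_eq_mul_div, div_le_one (by positivity)]
        have : 0 < Λ ^ 2 * L := by positivity
        linarith
      · exact Or.inr hE
    have hm := clockMoment_step hL0.le hκ hT hclock
    have hdamp := damp_drift (L := L) hε.le hK hc hc1 hL0 hA hE100 (hd.trans (by
      refine mul_le_mul_of_nonneg_left (add_le_add le_rfl
        (div_le_div_of_nonneg_right ?_ hE0.le)) hT'.le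
      linarith))
    have hgain : ∑ t ∈ tri A, (damp ε (c / 4) (8 * K / (3 * c)) L (A \ pairs t)
        + c * B / (18 * L) * max 0 (2 * L - 3 - ((A \ pairs t).card : ℝ)))
        ≤ (tri A).card * (dA + bA) := by
      rw [sum_add_distrib,
        sum_congr rfl fun t ht => show c * B / (18 * L) * max 0 (2 * L - 3 - ((A \ pairs t).card : ℝ))
          = c * B / (18 * L) * max 0 (2 * L - (A.card : ℝ)) by
            rw [card_sdiff_cast ht]; congr 2; ring,
        sum_const, nsmul_eq_mul, mul_add]
      rcases le_or_gt (2 * L) (A.card : ℝ) with hout | hwin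
      · refine add_le_add hdamp (mul_le_mul_of_nonneg_left ?_ hT'.le)
        rw [max_eq_left (by linarith), mul_zero]
        exact hb0
      have hbig : B < G := by
        by_contra hle
        refine hG ⟨⟨by rw [← hL]; exact hA, by rw [← hL]; exact hwin.le⟩,
          nearRegular_of hε.le hδ.le hE0 (by linarith) hD4 hBδ (not_lt.1 hle), ?_⟩
        by_contra hexp
        have h1 : expCodeg (1 / (384 * Λ ^ 2)) A ≤ clockMoment L κ A := by
          rw [clockMoment, if_neg (by linarith)]
          refine sum_le_sum fun e _ => Real.exp_le_exp.2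
            (mul_le_mul_of_nonneg_right ?_ (Nat.cast_nonneg _))
          refine le_trans (le_of_eq ?_)
            (mul_le_mul_of_nonneg_left (show 2 * L ≤ 4 * L - A.card by linarith) hκ)
          rw [hκdef]; field_simp; ring
        have h3 : 1 ≤ clockMoment L κ A / (A₀ * L) := by
          rw [one_le_div (by positivity)]
          have := mul_le_mul_of_nonneg_left hA.le hA₀.le
          linarith [not_le.1 hexp]
        linarith
      have hgd := damp_gain (L := L) hε.le hK hc hc1 hL0 (by linarith) hwin.le hE100 hG0 hd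
      refine (add_le_add hgd le_rfl).trans (le_of_eq_of_le (mul_add _ _ _).symm ?_)
      rw [← mul_add]
      refine mul_le_mul_of_nonneg_left ?_ hT'.le
      have hstep' : max 0 (2 * L - (A.card : ℝ)) ≤ max 0 (2 * L - 3 - (A.card : ℝ)) + 3 :=
        max_le (by linarith [le_max_left 0 (2 * L - 3 - (A.card : ℝ))])
          (by linarith [le_max_right 0 (2 * L - 3 - (A.card : ℝ))])
      have k1 := mul_le_mul_of_nonneg_left hstep' (show 0 ≤ c * B / (18 * L) by positivity)
      have k2 : c * B / (18 * L) * 3 ≤ c * G / (2 * A.card) := by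
        rw [div_mul_eq_mul_div, div_le_div_iff₀ (by positivity) (by positivity)]
        have j1 := mul_le_mul_of_nonneg_left hwin.le (show 0 ≤ c * B by positivity)
        have j2 := mul_le_mul_of_nonneg_left hbig.le (show 0 ≤ c * L by positivity)
        have j3 := mul_nonneg hG0 hL0.le
        linarith
      linarith
    simp only [fail]
    rw [sum_add_distrib, sum_add_distrib, ← sum_div, ← sum_div, ← sum_div, ← hdA, ← hbA, mul_comm _
      ((tri A).card : ℝ), mul_add, mul_add, mul_div_assoc', mul_div_assoc', mul_div_assoc']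
    gcongr

/-- **N1.** With high probability some state of the window is good. -/
theorem good_level : GoodLevel := by
  obtain ⟨ε, K, c, θ, m, hε, hK, hc, hc1, hθ, hθ', hstep⟩ := gain_step
  obtain ⟨P, hP⟩ := pot_init
  intro η δ hη hδ
  set c' := c / 2 with hc'
  set G := 2 + ε * |P| + 8 * K / (3 * c') with hG
  have hc'0 : 0 < c' := by positivity
  have hG0 : 0 ≤ G := by positivity
  set X := 108 * 40001 * G / (c' * η * δ) + 1 with hX
  have hX1 : 1 ≤ X := le_add_of_nonneg_left (by positivity)
  refine ⟨max (X ^ 500) (3 * G / (4 * θ * η) + 1), fun Λ hΛ => ?_⟩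
  obtain ⟨hΛX, hΛG⟩ := max_le_iff.1 hΛ
  have hΛ1 : 1 ≤ Λ := le_trans (le_add_of_nonneg_left (by positivity)) hΛG
  refine ⟨1 / (384 * Λ ^ 2), 36 / η, by positivity,
    max m (max 200 ⌈256 * Λ ^ 2⌉₊), fun n hn => ?_⟩
  simp only [max_le_iff, Nat.ceil_le] at hn
  obtain ⟨hn0, hn1, hn2⟩ := hn
  have hn' : (200 : ℝ) ≤ n := by exact_mod_cast hn1
  set B := δ * (4 * Λ ^ 2) ^ ((1 : ℝ) / 1000) / 40001 with hB
  have hB0 : 0 < B := by rw [hB]; positivity
  have hBX : δ * X / 40001 ≤ B := by
    rw [hB]
    refine div_le_div_of_nonneg_right (mul_le_mul_of_nonneg_left ?_ hδ.le) (by norm_num)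
    refine le_trans (le_of_eq ?_) (Real.rpow_le_rpow (by positivity)
      (show (X : ℝ) ^ 1000 ≤ 4 * Λ ^ 2 from ?_) (by norm_num))
    · rw [one_div, show (1000 : ℝ) = ((1000 : ℕ) : ℝ) by norm_num,
        Real.pow_rpow_inv_natCast (by linarith) (by norm_num)]
    · refine le_trans (le_of_eq_of_le (pow_mul X 500 2) (pow_le_pow_left₀ (by positivity) hΛX 2)) ?_
      exact le_mul_of_one_le_left (sq_nonneg _) (by norm_num)
  clear_value X B
  have hV : (Fintype.card (Fin n) : ℝ) = n := by rw [Fintype.card_fin]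
  set s := (n : ℝ) ^ ((3 : ℝ) / 2) with hs
  have hsn : (n : ℝ) ≤ s := Real.self_le_rpow_of_one_le (by linarith) (by norm_num)
  have hs2 : s ^ 2 = (n : ℝ) ^ 3 := by
    rw [hs, ← Real.rpow_natCast ((n : ℝ) ^ ((3 : ℝ) / 2)) 2, ← Real.rpow_mul (by linarith),
      show (3 : ℝ) / 2 * ((2 : ℕ) : ℝ) = ((3 : ℕ) : ℝ) by norm_num, Real.rpow_natCast]
  have hL200 : 200 ≤ Λ * s :=
    (show 200 ≤ s by linarith).trans (le_mul_of_one_le_left (by linarith) hΛ1)
  have hN : ((complete n).card : ℝ) = (n : ℝ) * ((n : ℝ) - 1) / 2 := by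
    rw [complete, card_powersetCard, card_univ, Fintype.card_fin, Nat.cast_choose_two]
  have hcard : 4 * (Λ * s) < ((complete n).card : ℝ) := by
    have h2 : 16 * Λ * s ≤ (n : ℝ) ^ 2 := by
      refine (pow_le_pow_iff_left₀ (by positivity) (by positivity) two_ne_zero).1 ?_
      rw [mul_pow, hs2]
      have := mul_le_mul_of_nonneg_right hn2 (show 0 ≤ (n : ℝ) ^ 3 by positivity)
      linarith
    rw [hN]
    have := mul_le_mul_of_nonneg_right hn' (show (0 : ℝ) ≤ n by linarith)
    linarith
  clear_value G s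
  have h := good_of_gain (V := Fin n) (A₀ := 36 / η) (L := Λ * s) hε hK hc'0 (by linarith) hθ hθ'
    hΛ1 hδ hB0 (by rw [hB]; linarith) (by positivity) (by rw [hV, hs]) hL200 (by rw [hV]; linarith)
    (fun A h2 hE hD herr => ?_) (complete n) (fun e he => (mem_powersetCard.1 he).2) (by linarith)
  · suffices fail ε c' K (Λ * s) Λ θ B (36 / η) (1 / (768 * Λ ^ 2 * (Λ * s))) (complete n) ≤ η by
      linarith
    have hd : damp ε (c' / 4) (8 * K / (3 * c')) (Λ * s) (complete n) ≤ G := by
      refine (damp_le hε.le (by positivity) (by positivity) (by linarith) _).trans ?_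
      have h1 := lyap_complete (fun _ h => psi_small h) (n := n) (by omega)
      have h2 := mul_le_mul_of_nonneg_left ((hP n (by omega)).trans (le_abs_self P)) hε.le
      rw [hG]; unfold full; linarith
    unfold fail
    rw [max_eq_left (by linarith), mul_zero, add_zero, clockMoment, if_pos hcard]
    have p1 : damp ε (c' / 4) (8 * K / (3 * c')) (Λ * s) (complete n) / (4 * Λ ^ 2 * θ)
        ≤ η / 3 := by
      rw [div_le_iff₀ (by positivity)]
      have h1 : 3 * G / (4 * θ * η) ≤ Λ ^ 2 :=
        le_trans (by linarith) (le_self_pow₀ hΛ1 two_ne_zero)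
      rw [div_le_iff₀ (by positivity)] at h1
      linarith
    have p2 : damp ε (c' / 4) (8 * K / (3 * c')) (Λ * s) (complete n) / (c' * B / 36)
        ≤ η / 3 := by
      rw [div_le_iff₀ (by positivity)]
      have h1 := mul_le_mul_of_nonneg_left hBX (show 0 ≤ η * c' / 108 by positivity)
      have h2 : η * c' / 108 * (δ * X / 40001) = G + η * c' * δ / (108 * 40001) := by
        have hne : c' * η * δ ≠ 0 := by positivity
        have hX' : X * (c' * η * δ) = 108 * 40001 * G + c' * η * δ := by
          rw [hX, add_mul, one_mul, div_mul_cancel₀ _ hne]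
        linear_combination (1 / (108 * 40001 : ℝ)) * hX'
      have h3 : 0 ≤ η * c' * δ / (108 * 40001) := by positivity
      linarith
    have p3 : 12 * (Λ * s) / (36 / η * (Λ * s)) = η / 3 := by
      have hLs : Λ * s ≠ 0 := by linarith
      rw [mul_div_mul_right _ _ hLs, div_div_eq_mul_div]
      ring
    linarith
  · refine (hstep (Fin n) A h2 (by rw [Fintype.card_fin]; exact hn0) hE hD herr).trans
      (le_of_eq_of_le rfl (mul_le_mul_of_nonneg_left (le_of_eq_of_le rfl ?_) (Nat.cast_nonneg _)))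
    have hf := full_nonneg hε.le A
    have hΨ : 0 ≤ psiSum (11 / 100) A / A.card :=
      div_nonneg (psiSum_nonneg _ A) (Nat.cast_nonneg _)
    have hE0 : (0 : ℝ) < A.card := by
      have : ((100 : ℕ) : ℝ) ≤ A.card := by exact_mod_cast hE
      push_cast at this; linarith
    have k : 0 ≤ c' * (psiSum (11 / 100) A / A.card) / A.card := by positivity
    have e : full ε A * (1 - c / A.card)
        + (K - c * (psiSum (11 / 100) A / A.card)) / A.card
        = full ε A * (1 - c' / A.card)
          + (K - c' * (full ε A + psiSum (11 / 100) A / A.card)) / A.card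
          - c' * (psiSum (11 / 100) A / A.card) / A.card := by
      rw [hc']; ring
    linarith

end Vale.Agent.P046.Const
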