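import Vale.Agent.P046.Const.Count

/-!
P046 N4: without many short cycles the leave is the sum of the cavity survival chances.
-/

namespace Vale.Agent.P046.Const.Law

open Finset MeasureTheory Filter Vale.Agent.P046.Gap
open scoped Topology

variable {V : Type} [Fintype V] [DecidableEq V]

/-- The survival chance at time one after `k` iterations. -/
noncomputable def liveK (A : Finset (Finset V)) (k : ℕ) (e : Finset V) : ℝ :=
  live A (fun s f => iter A k s f 1) e

/-- The value at time one of the depth `k` rule. -/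
noncomputable def locK (A : Finset (Finset V)) (k : ℕ) (e : Finset V) (T : Finset V → ℝ) : ℝ :=
  ind (loc A T k e 1)

theorem live_mem {A : Finset (Finset V)} {e : Finset V} {J : Finset V → Finset V → ℝ}
    (h : ∀ s ∈ triEdge A e, J s e ∈ Set.Icc (0 : ℝ) 1) : live A J e ∈ Set.Icc (0 : ℝ) 1 :=
  prod_one_sub_mem _ h

theorem live_sub_le {A : Finset (Finset V)} {e : Finset V} {J J' : Finset V → Finset V → ℝ}
    (h : ∀ s ∈ triEdge A e, J s e ∈ Set.Icc (0 : ℝ) 1)
    (h' : ∀ s ∈ triEdge A e, J' s e ∈ Set.Icc (0 : ℝ) 1) :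
    |live A J e - live A J' e| ≤ ∑ s ∈ triEdge A e, |J s e - J' s e| := by
  refine (abs_prod_sub _ (fun s hs => ?_) fun s hs => ?_).trans (le_of_eq (sum_congr rfl
    fun s _ => by rw [show 1 - J s e - (1 - J' s e) = -(J s e - J' s e) by ring, abs_neg]))
  · rw [abs_le]; constructor <;> linarith [(h s hs).1, (h s hs).2]
  · rw [abs_le]; constructor <;> linarith [(h' s hs).1, (h' s hs).2]

theorem liveK_sub_le (A : Finset (Finset V)) (k : ℕ) (e : Finset V)
    {I : Finset V → Finset V → ℝ → ℝ} (hI : IsCav A I) :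
    |liveK A k e - live A (fun s f => I s f 1) e| ≤
      ∑ s ∈ triEdge A e, |picard A k s e 1 - I s e 1| := by
  have h1 : (1 : ℝ) ∈ Set.Icc (0 : ℝ) 1 := ⟨zero_le_one, le_rfl⟩
  refine (live_sub_le (fun s _ => iter_mem_unit A k s e h1) fun s hs => ?_).trans (le_of_eq
    (sum_congr rfl fun s _ => by rw [iter_eq_picard A k s e h1]))
  exact ⟨(hI s (mem_filter.1 hs).1 e (mem_filter.1 hs).2 1 h1).1,
    (hI s (mem_filter.1 hs).1 e (mem_filter.1 hs).2 1 h1).2.1⟩

theorem measurable_locK (A : Finset (Finset V)) (k : ℕ) (e : Finset V) :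
    Measurable (locK A k e) :=
  measurable_ind (measurableSet_loc A k e measurable_const)

theorem integral_locK {A : Finset (Finset V)} {k : ℕ} {e : Finset V} (h : Apart A k ∅ e) :
    ∫ T, locK A k e T ∂times V = liveK A k e :=
  integral_loc A k e h ⟨zero_le_one, le_rfl⟩

theorem locK_congr (A : Finset (Finset V)) (k : ℕ) (e : Finset V) {T T' : Finset V → ℝ}
    (h : ∀ r ∈ branch A k ∅ e, T r = T' r) : locK A k e T = locK A k e T' := by
  rw [locK, locK, propext (loc_eq_locx A T k e 1), propext (loc_eq_locx A T' k e 1),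
    propext (locx_congr A k ∅ e 1 T T' h)]

omit [DecidableEq V] in
theorem integrable_bdd {F : (Finset V → ℝ) → ℝ} {C : ℝ} (hF : Measurable F)
    (h : ∀ T, |F T| ≤ C) : Integrable F (times V) :=
  Integrable.of_bound hF.aestronglyMeasurable C
    (Eventually.of_forall fun T => by rw [Real.norm_eq_abs]; exact h T)

theorem loc_parity (A : Finset (Finset V)) (k : ℕ) :
    (∀ T e x, loc A T (k + 1) e x → loc A T k e x) ∨
      ∀ T e x, loc A T k e x → loc A T (k + 1) e x := by
  induction k with
  | zero => exact Or.inl fun _ _ _ _ => trivial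
  | succ k ih =>
    rcases ih with h | h
    · refine Or.inr fun T e x h1 s hs he hlt => ?_
      obtain ⟨f, hf, hne, hn⟩ := h1 s hs he hlt
      exact ⟨f, hf, hne, fun h2 => hn (h T f _ h2)⟩
    · refine Or.inl fun T e x h1 s hs he hlt => ?_
      obtain ⟨f, hf, hne, hn⟩ := h1 s hs he hlt
      exact ⟨f, hf, hne, fun h2 => hn (h T f _ h2)⟩

theorem integral_disagree {A : Finset (Finset V)} {k : ℕ} {e : Finset V}
    (h : Apart A (k + 1) ∅ e) :
    ∫ T, |locK A k e T - locK A (k + 1) e T| ∂times V ≤ |liveK A k e - liveK A (k + 1) e| := by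
  classical
  have hint : ∀ j, Integrable (locK A j e) (times V) := fun j =>
    integrable_unit (measurable_locK A j e) fun T => ind_mem _
  have heq : ∫ T, (locK A k e T - locK A (k + 1) e T) ∂times V =
      liveK A k e - liveK A (k + 1) e := by
    rw [integral_sub (hint k) (hint (k + 1)), integral_locK h.of_succ, integral_locK h]
  have hmono : ∀ {P Q : Prop}, (P → Q) → ind P ≤ ind Q := fun {P Q} hPQ => by
    by_cases hP : P
    · rw [ind_true hP, ind_true (hPQ hP)]
    · rw [ind_false hP]; exact (ind_mem Q).1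
  have key : (∀ T, locK A (k + 1) e T ≤ locK A k e T) ∨
      ∀ T, locK A k e T ≤ locK A (k + 1) e T := by
    rcases loc_parity A k with h1 | h1
    · exact Or.inl fun T => hmono (h1 T e 1)
    · exact Or.inr fun T => hmono (h1 T e 1)
  rcases key with h1 | h1
  · rw [integral_congr_ae (g := fun T => locK A k e T - locK A (k + 1) e T)
      (Eventually.of_forall fun T => abs_of_nonneg (sub_nonneg.2 (h1 T))), heq]
    exact le_abs_self _
  · rw [integral_congr_ae (g := fun T => -(locK A k e T - locK A (k + 1) e T))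
      (Eventually.of_forall fun T => abs_of_nonpos (sub_nonpos.2 (h1 T))), integral_neg, heq]
    exact neg_le_abs _

theorem aliveSet_card (A : Finset (Finset V)) (T : Finset V → ℝ) :
    ((aliveSet A T).card : ℝ) = ∑ e ∈ A, ind (alive A T e 1) := by
  classical
  rw [aliveSet, ← sum_boole]
  refine sum_congr rfl fun e _ => ?_
  by_cases h : alive A T e 1 <;> simp [ind, h]

theorem abs_alive_sub_le (A : Finset (Finset V)) (T : Finset V → ℝ) (k : ℕ) (e : Finset V) :
    |ind (alive A T e 1) - locK A k e T| ≤ |locK A k e T - locK A (k + 1) e T| := by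
  by_cases h : loc A T k e 1 ↔ loc A T (k + 1) e 1
  · have := propext (alive_of_agree A T k e 1 h)
    simp [locK, this]
  · have h2 : |locK A k e T - locK A (k + 1) e T| = 1 := by
      by_cases h0 : loc A T k e 1
      · simp [locK, ind_true h0, ind_false (fun h1 => h ⟨fun _ => h1, fun _ => h0⟩)]
      · have h1 : loc A T (k + 1) e 1 := by
          by_contra h1
          exact h ⟨fun x => absurd x h0, fun x => absurd x h1⟩
        simp [locK, ind_false h0, ind_true h1]
    rw [h2, abs_le]
    have a := ind_mem (alive A T e 1)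
    have b := ind_mem (loc A T k e 1)
    simp only [locK]
    constructor <;> linarith [a.1, a.2, b.1, b.2]

open Classical in
/-- The roots that are light with branches apart, down to depth `k + 1`. -/
noncomputable def roots (A : Finset (Finset V)) (K k : ℕ) : Finset (Finset V) :=
  A.filter fun e => Light A K e (k + 2) ∧ Apart A (k + 1) ∅ e

/-- The mean deviation of the local count is small. -/
theorem concentration {A : Finset (Finset V)} (K k : ℕ) {c : ℝ} (hc : 0 < c) :
    ∫ T, |∑ e ∈ roots A K k, (locK A k e T - liveK A k e)| ∂times V ≤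
      ((roots A K k).card * (K * (3 * K + 2) ^ k * (3 * (3 * K + 2) ^ (k + 1)) : ℕ)) / (2 * c)
        + c / 2 := by
  classical
  set G := roots A K k with hG
  set Y : Finset V → (Finset V → ℝ) → ℝ := fun e T => locK A k e T - liveK A k e with hY
  have hYm : ∀ e, Measurable (Y e) := fun e => (measurable_locK A k e).sub measurable_const
  have hY1 : ∀ e T, |Y e T| ≤ 1 := fun e T => by
    have h1 : (1 : ℝ) ∈ Set.Icc (0 : ℝ) 1 := ⟨zero_le_one, le_rfl⟩
    have a : locK A k e T ∈ Set.Icc (0 : ℝ) 1 := ind_mem _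
    have b : liveK A k e ∈ Set.Icc (0 : ℝ) 1 := live_mem fun s _ => iter_mem_unit A k s e h1
    simp only [hY, abs_le]
    constructor <;> linarith [a.1, a.2, b.1, b.2]
  set Z : (Finset V → ℝ) → ℝ := fun T => ∑ e ∈ G, Y e T with hZ
  have hpt : ∀ T, |Z T| ≤ (∑ e ∈ G, ∑ e' ∈ G, Y e T * Y e' T) / (2 * c) + c / 2 := fun T => by
    rw [show (∑ e ∈ G, ∑ e' ∈ G, Y e T * Y e' T) = Z T ^ 2 by rw [hZ, sq, sum_mul_sum],
      ← sq_abs, div_add_div _ _ (by positivity) two_ne_zero, le_div_iff₀ (by positivity)]
    nlinarith [sq_nonneg (|Z T| - c)]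
  have hmul : ∀ e e' : Finset V, Integrable (fun T => Y e T * Y e' T) (times V) := fun e e' =>
    integrable_bdd ((hYm e).mul (hYm e')) (C := 1) fun T => by
      rw [abs_mul]; exact mul_le_one₀ (hY1 e T) (abs_nonneg _) (hY1 e' T)
  refine (integral_mono_of_nonneg (Eventually.of_forall fun T => abs_nonneg _)
    (((integrable_finsetSum _ fun e _ => integrable_finsetSum _ fun e' _ => hmul e e').div_const
      _).add (integrable_const _)) (Eventually.of_forall hpt)).trans ?_
  rw [integral_add' ((integrable_finsetSum _ fun e _ =>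
      integrable_finsetSum _ fun e' _ => hmul e e').div_const _) (integrable_const _),
    integral_div, integral_const, probReal_univ, one_smul,
    integral_finsetSum _ fun e _ => integrable_finsetSum _ fun e' _ => hmul e e']
  refine add_le_add (div_le_div_of_nonneg_right ?_ (by positivity)) le_rfl
  refine (sum_le_card_nsmul _ _ ((K * (3 * K + 2) ^ k * (3 * (3 * K + 2) ^ (k + 1)) : ℕ) : ℝ)
    fun e he => ?_).trans_eq (by rw [nsmul_eq_mul])
  obtain ⟨-, hl, hap⟩ := mem_filter.1 he
  rw [integral_finsetSum _ fun e' _ => hmul e e']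
  have hz : ∀ e' ∈ G, Disjoint (branch A k ∅ e) (branch A k ∅ e') →
      ∫ T, Y e T * Y e' T ∂times V = 0 := fun e' he' hd => by
    rw [integral_mul_of_disjoint (branch A k ∅ e) (hYm e) (hYm e')
      (fun T T' h => by simp only [hY, locK_congr A k e h])
      fun T T' h => by
        simp only [hY, locK_congr A k e' fun r hr => h r (Finset.disjoint_right.1 hd hr)]]
    have : ∫ T, Y e T ∂times V = 0 := by
      simp only [hY]
      rw [integral_sub (integrable_unit (measurable_locK A k e) fun T => ind_mem _)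
        (integrable_const _), integral_locK hap.of_succ, integral_const, probReal_univ, one_smul,
        sub_self]
    rw [this, zero_mul]
  rw [← sum_filter_of_ne (p := fun e' => ¬ Disjoint (branch A k ∅ e) (branch A k ∅ e'))
    fun e' he' hne hd => hne (hz e' he' hd)]
  refine (sum_le_card_nsmul _ _ 1 fun e' _ => ?_).trans ?_
  · have := norm_integral_le_of_norm_le_const (μ := times V)
      (f := fun T => Y e T * Y e' T) (C := 1) (Eventually.of_forall fun T => by
        rw [Real.norm_eq_abs, abs_mul]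
        exact mul_le_one₀ (hY1 e T) (abs_nonneg _) (hY1 e' T))
    rw [Real.norm_eq_abs, probReal_univ, mul_one] at this
    exact (le_abs_self _).trans this
  · rw [nsmul_eq_mul, mul_one, Nat.cast_le]
    refine (card_le_card fun e' he' => ?_).trans
      (meet_count K k (light_mono (Nat.le_succ _) hl))
    obtain ⟨heG, hnd⟩ := mem_filter.1 he'
    obtain ⟨heA, hl', -⟩ := mem_filter.1 heG
    exact mem_filter.2 ⟨heA, light_mono (Nat.le_succ _) hl', hnd⟩

/-- The pieces of the local law. -/
theorem leave_deviation {A : Finset (Finset V)} (K k : ℕ) {c : ℝ} (hc : 0 < c)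
    {I : Finset V → Finset V → ℝ → ℝ} (hI : IsCav A I) :
    procVal (fun B => |(B.card : ℝ) - liveSum A I|) A ≤
      ((roots A K k).card * (K * (3 * K + 2) ^ k * (3 * (3 * K + 2) ^ (k + 1)) : ℕ)) / (2 * c)
        + c / 2
        + 2 * ∑ e ∈ A, ∑ s ∈ triEdge A e, |picard A k s e 1 - I s e 1|
        + ∑ e ∈ A, ∑ s ∈ triEdge A e, |picard A (k + 1) s e 1 - I s e 1|
        + ((A \ roots A K k).card : ℝ) := by
  classical
  rw [← integral_aliveSet]
  set G := roots A K k with hG
  set v : Finset V → ℝ := fun e => live A (fun s f => I s f 1) e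
  have h1 : (1 : ℝ) ∈ Set.Icc (0 : ℝ) 1 := ⟨zero_le_one, le_rfl⟩
  have hv : ∀ e, v e ∈ Set.Icc (0 : ℝ) 1 := fun e => live_mem fun s hs =>
    ⟨(hI s (mem_filter.1 hs).1 e (mem_filter.1 hs).2 1 h1).1,
      (hI s (mem_filter.1 hs).1 e (mem_filter.1 hs).2 1 h1).2.1⟩
  have hGA : G ⊆ A := filter_subset _ _
  have hd : ∀ e, Measurable fun T => |locK A k e T - locK A (k + 1) e T| := fun e =>
    ((measurable_locK A k e).sub (measurable_locK A (k + 1) e)).norm
  have hpt : ∀ T, |((aliveSet A T).card : ℝ) - liveSum A I| ≤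
      |∑ e ∈ G, (locK A k e T - liveK A k e)| + ∑ e ∈ G, |locK A k e T - locK A (k + 1) e T|
        + (∑ e ∈ G, |liveK A k e - v e| + ((A \ G).card : ℝ)) := fun T => by
    rw [aliveSet_card, liveSum, ← sum_sub_distrib, ← sum_sdiff hGA]
    refine (abs_add_le _ _).trans ?_
    have e1 : |∑ e ∈ A \ G, (ind (alive A T e 1) - v e)| ≤ ((A \ G).card : ℝ) := by
      refine (abs_sum_le_sum_abs _ _).trans ((sum_le_card_nsmul _ _ 1 fun e _ => ?_).trans_eq
        (by simp))
      rw [abs_le]
      constructor <;> linarith [(ind_mem (alive A T e 1)).1, (ind_mem (alive A T e 1)).2,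
        (hv e).1, (hv e).2]
    have e2 : |∑ e ∈ G, (ind (alive A T e 1) - v e)| ≤
        |∑ e ∈ G, (locK A k e T - liveK A k e)| + ∑ e ∈ G, |locK A k e T - locK A (k + 1) e T|
          + ∑ e ∈ G, |liveK A k e - v e| := by
      rw [show ∑ e ∈ G, (ind (alive A T e 1) - v e) = ∑ e ∈ G, (locK A k e T - liveK A k e) +
          ∑ e ∈ G, (ind (alive A T e 1) - locK A k e T) + ∑ e ∈ G, (liveK A k e - v e) by
        simp only [sum_sub_distrib]; ring]
      exact (abs_add_le _ _).trans (add_le_add ((abs_add_le _ _).trans (add_le_add le_rfl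
        ((abs_sum_le_sum_abs _ _).trans (sum_le_sum fun e _ => abs_alive_sub_le A T k e))))
        (abs_sum_le_sum_abs _ _))
    linarith
  have hZ : Integrable (fun T => |∑ e ∈ G, (locK A k e T - liveK A k e)|) (times V) :=
    (integrable_finsetSum _ fun e _ => (integrable_unit (measurable_locK A k e)
      fun T => ind_mem _).sub (integrable_const _)).abs
  have hdI : ∀ e, Integrable (fun T => |locK A k e T - locK A (k + 1) e T|) (times V) := fun e =>
    ((integrable_unit (measurable_locK A k e) fun T => ind_mem _).sub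
      (integrable_unit (measurable_locK A (k + 1) e) fun T => ind_mem _)).abs
  refine (integral_mono_of_nonneg (Eventually.of_forall fun T => abs_nonneg _)
    ((hZ.add (integrable_finsetSum _ fun e _ => hdI e)).add (integrable_const _))
    (Eventually.of_forall hpt)).trans ?_
  rw [integral_add' (hZ.add (integrable_finsetSum _ fun e _ => hdI e)) (integrable_const _),
    integral_add' hZ (integrable_finsetSum _ fun e _ => hdI e), integral_finsetSum _ fun e _ => hdI e,
    integral_const, probReal_univ, one_smul]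
  have hconc := concentration (A := A) K k hc
  have hdis : ∑ e ∈ G, ∫ T, |locK A k e T - locK A (k + 1) e T| ∂times V ≤
      ∑ e ∈ G, |liveK A k e - v e| + ∑ e ∈ G, |liveK A (k + 1) e - v e| := by
    rw [← sum_add_distrib]
    refine sum_le_sum fun e he => (integral_disagree (mem_filter.1 he).2.2).trans ?_
    calc |liveK A k e - liveK A (k + 1) e|
        = |(liveK A k e - v e) - (liveK A (k + 1) e - v e)| := by ring_nf
      _ ≤ |liveK A k e - v e| + |liveK A (k + 1) e - v e| := abs_sub _ _
  have hk : ∀ j, ∑ e ∈ G, |liveK A j e - v e| ≤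
      ∑ e ∈ A, ∑ s ∈ triEdge A e, |picard A j s e 1 - I s e 1| := fun j =>
    (sum_le_sum fun e _ => liveK_sub_le A j e hI).trans
      (sum_le_sum_of_subset_of_nonneg hGA fun e _ _ => sum_nonneg fun s _ => abs_nonneg _)
  linarith [hk k, hk (k + 1)]

theorem exists_cutoff (m : ℕ) {η a : ℝ} (hη : 0 < η) (ha : 0 < a) :
    ∃ K : ℕ, (3 * (K : ℝ) + 2) ^ m * Real.exp (-(a * K / 2)) ≤ η := by
  have h := (Real.tendsto_pow_mul_exp_neg_atTop_nhds_zero m).comp
    ((tendsto_natCast_atTop_atTop (R := ℝ)).const_mul_atTop (half_pos ha))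
  have h' : Tendsto (fun K : ℕ => (10 / a) ^ m * ((a / 2 * (K : ℝ)) ^ m *
      Real.exp (-(a / 2 * K)))) atTop (𝓝 0) := by
    simpa [Function.comp] using h.const_mul ((10 / a) ^ m)
  obtain ⟨K, hK, hK1⟩ := ((h'.eventually_le_const hη).and (eventually_ge_atTop 1)).exists
  refine ⟨K, le_trans ?_ hK⟩
  rw [← mul_assoc, ← mul_pow, show a * (K : ℝ) / 2 = a / 2 * K by ring]
  refine mul_le_mul_of_nonneg_right (pow_le_pow_left₀ (by positivity) ?_ m) (Real.exp_nonneg _)
  rw [show 10 / a * (a / 2 * (K : ℝ)) = 5 * K by field_simp; ring]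
  have : (1 : ℝ) ≤ K := by exact_mod_cast hK1
  linarith

theorem heavy_mass (A : Finset (Finset V)) (K : ℕ) {a : ℝ} (ha : 0 < a) :
    ∑ g ∈ A.filter (fun g => K < codeg A g), (3 * (codeg A g : ℝ) + 1) ≤
      8 / a * Real.exp (-(a * K / 2)) * expCodeg a A := by
  rw [expCodeg, mul_sum]
  refine (sum_le_sum fun g hg => ?_).trans
    (sum_le_sum_of_subset_of_nonneg (filter_subset _ _) fun g _ _ => by positivity)
  have hK : (K : ℝ) + 1 ≤ codeg A g := by exact_mod_cast (mem_filter.1 hg).2
  have h1 := Real.add_one_le_exp (a * codeg A g / 2)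
  have h2 : Real.exp (a * codeg A g / 2) ≤
      Real.exp (-(a * K / 2)) * Real.exp (a * codeg A g) := by
    rw [← Real.exp_add, Real.exp_le_exp]
    nlinarith
  have h3 : (codeg A g : ℝ) ≤ 2 / a * (Real.exp (-(a * K / 2)) * Real.exp (a * codeg A g)) := by
    rw [div_mul_eq_mul_div, le_div_iff₀ ha]
    nlinarith
  calc 3 * (codeg A g : ℝ) + 1 ≤ 4 * codeg A g := by
        have : (0 : ℝ) ≤ K := Nat.cast_nonneg K
        linarith
    _ ≤ 4 * (2 / a * (Real.exp (-(a * K / 2)) * Real.exp (a * codeg A g))) := by linarith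
    _ = 8 / a * Real.exp (-(a * K / 2)) * Real.exp (a * codeg A g) := by ring

/-- N4: the locality of the cavity equation gives the law of the leave. -/
theorem local_law_of (hgap : PicardGap) : LocalLaw := by
  intro a A₀ ε ha hε
  obtain ⟨k, hk⟩ := hgap a A₀ (ε / 16) ha (by positivity)
  set A1 := max A₀ 1 with hA1
  have hA1pos : 0 < A1 := lt_of_lt_of_le one_pos (le_max_right _ _)
  obtain ⟨K, hK⟩ := exists_cutoff (k + 2) (η := ε / 8 / (8 / a * A1)) (by positivity) ha
  set N : ℕ := (3 * K + 2) ^ (k + 2) with hN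
  set C : ℕ := K * (3 * K + 2) ^ k * (3 * (3 * K + 2) ^ (k + 1))
  have hNpos : (0 : ℝ) < ((N * N : ℕ) : ℝ) := by
    exact_mod_cast Nat.mul_pos (Nat.pow_pos (by omega)) (Nat.pow_pos (by omega))
  refine ⟨2 * N, ε / 8 / ((N * N : ℕ) : ℝ), 4 * (C : ℝ) / (ε / 4) / ε + 1, by positivity,
    fun V _ _ A I hA hE hexp hmany hI => ?_⟩
  classical
  have hE0 : (0 : ℝ) < A.card := lt_of_lt_of_le (by positivity) hE
  have h1 := leave_deviation (A := A) K k (c := ε / 4 * A.card) (by positivity) hI
  have hs := hk k le_rfl V A I hexp hI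
  have hs' := hk (k + 1) (Nat.le_succ k) V A I hexp hI
  have hvar : ((roots A K k).card : ℝ) * (C : ℝ) / (2 * (ε / 4 * A.card)) ≤ ε / 8 * A.card := by
    rw [div_le_iff₀ (by positivity)]
    have hr : ((roots A K k).card : ℝ) ≤ A.card := by
      exact_mod_cast card_le_card (filter_subset _ _)
    have hC : 4 * (C : ℝ) / (ε / 4) / ε ≤ A.card := by linarith
    rw [div_le_iff₀ hε, div_le_iff₀ (by positivity)] at hC
    nlinarith [mul_le_mul_of_nonneg_right hr (Nat.cast_nonneg C)]
  have hbad : ((A \ roots A K k).card : ℝ) ≤ ε / 4 * A.card := by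
    have hsplit : A \ roots A K k ⊆ (A.filter fun e => ¬ Light A K e (k + 2)) ∪
        A.filter fun e => Light A K e (k + 2) ∧ ¬ Apart A (k + 1) ∅ e := fun e he => by
      obtain ⟨heA, hn⟩ := mem_sdiff.1 he
      by_cases hl : Light A K e (k + 2)
      · exact mem_union_right _ (mem_filter.2
          ⟨heA, hl, fun hap => hn (mem_filter.2 ⟨heA, hl, hap⟩)⟩)
      · exact mem_union_left _ (mem_filter.2 ⟨heA, hl⟩)
    have hh : ((A.filter fun e => ¬ Light A K e (k + 2)).card : ℝ) ≤ ε / 8 * A.card := by
      calc ((A.filter fun e => ¬ Light A K e (k + 2)).card : ℝ)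
          ≤ ((∑ g ∈ A.filter (fun g => K < codeg A g),
              (3 * codeg A g + 1) * (3 * K + 2) ^ (k + 2) : ℕ) : ℝ) := by
            exact_mod_cast heavy_count A K (k + 2)
        _ = (∑ g ∈ A.filter (fun g => K < codeg A g), (3 * (codeg A g : ℝ) + 1)) *
              (3 * (K : ℝ) + 2) ^ (k + 2) := by push_cast; rw [sum_mul]
        _ ≤ 8 / a * Real.exp (-(a * K / 2)) * expCodeg a A * (3 * (K : ℝ) + 2) ^ (k + 2) :=
            mul_le_mul_of_nonneg_right (heavy_mass A K ha) (by positivity)
        _ ≤ 8 / a * Real.exp (-(a * K / 2)) * (A1 * A.card) * (3 * (K : ℝ) + 2) ^ (k + 2) := by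
            gcongr
            exact hexp.trans (mul_le_mul_of_nonneg_right (le_max_left _ _) hE0.le)
        _ = (3 * (K : ℝ) + 2) ^ (k + 2) * Real.exp (-(a * K / 2)) * (8 / a * A1) * A.card := by
            ring
        _ ≤ ε / 8 * A.card := by
            refine mul_le_mul_of_nonneg_right ?_ hE0.le
            rwa [← le_div_iff₀ (by positivity)]
    obtain ⟨F, hF, hFd, hcount⟩ := overlap_count hA K (k + 1)
    have hFsmall : (F.card : ℝ) ≤ ε / 8 / ((N * N : ℕ) : ℝ) * A.card := by
      by_contra hc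
      exact hmany ⟨F, hF, hFd, (not_le.1 hc).le⟩
    have ho : ((A.filter fun e => Light A K e (k + 2) ∧ ¬ Apart A (k + 1) ∅ e).card : ℝ) ≤
        ε / 8 * A.card := by
      calc ((A.filter fun e => Light A K e (k + 2) ∧ ¬ Apart A (k + 1) ∅ e).card : ℝ)
          ≤ ((F.card * (N * N) : ℕ) : ℝ) := by exact_mod_cast hcount
        _ = (F.card : ℝ) * ((N * N : ℕ) : ℝ) := by push_cast; ring
        _ ≤ ε / 8 / ((N * N : ℕ) : ℝ) * A.card * ((N * N : ℕ) : ℝ) :=
            mul_le_mul_of_nonneg_right hFsmall hNpos.le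
        _ = ε / 8 * A.card := by field_simp
    have := (Nat.cast_le (α := ℝ)).2 ((card_le_card hsplit).trans (card_union_le _ _))
    push_cast at this
    linarith
  linarith

end Vale.Agent.P046.Const.Law
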