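import Vale.Agent.P046.Const.CycleUnion
import Vale.Agent.P046.Gap.Main

/-!
P046, leading constant, N2: with high probability no state of the window has many short cycles.
-/

namespace Vale.Agent.P046.Const

open Finset Vale.Agent.P046.Track Vale.Agent.P046.Gap

variable {V : Type} [Fintype V] [DecidableEq V]

open Classical in
/-- All witnesses on the vertex set. -/
noncomputable def witnesses (R : ℕ) : Finset (Finset (Finset V)) :=
  univ.filter fun W => IsWitness R univ W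

omit [DecidableEq V] in
theorem mem_witnesses {R : ℕ} {W : Finset (Finset V)} :
    W ∈ witnesses R ↔ IsWitness R univ W := by
  classical
  simp [witnesses]

omit [Fintype V] [DecidableEq V] in
theorem sum_biUnion_le {α β : Type} [DecidableEq β] (s : Finset α) (t : α → Finset β) (f : β → ℝ)
    (hf : ∀ b, 0 ≤ f b) : ∑ b ∈ s.biUnion t, f b ≤ ∑ a ∈ s, ∑ b ∈ t a, f b := by
  classical
  induction s using Finset.induction_on with
  | empty => simp
  | @insert a s ha ih =>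
    rw [biUnion_insert, sum_insert ha]
    refine le_trans ?_ (add_le_add le_rfl ih)
    rw [← sum_union_inter]
    exact le_add_of_nonneg_right (sum_nonneg fun b _ => hf b)

omit [Fintype V] [DecidableEq V] in
theorem witness_card_le {R : ℕ} {A W : Finset (Finset V)} (h : IsWitness R A W) :
    W.card ≤ R * R := by
  obtain ⟨-, -, U, hU, hW, -⟩ := h
  refine (card_le_card hW).trans ?_
  rw [card_powersetCard]
  refine (Nat.choose_le_pow _ _).trans ?_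
  rw [sq]
  exact Nat.mul_le_mul hU hU

/-- The witnesses weigh at most `n`, up to a constant. -/
theorem witness_weight_le (R : ℕ) {x Z : ℝ} (hx : 0 ≤ x) (hx1 : x ≤ 1)
    (hZ : (Fintype.card V : ℝ) * x ^ 2 ≤ Z) :
    ∑ W ∈ witnesses (V := V) R, x ^ W.card
      ≤ (R + 1 : ℕ) * (2 : ℝ) ^ (R * R) * (1 + Z) ^ R * Fintype.card V := by
  classical
  set n := (Fintype.card V : ℝ) with hn
  have hn0 : 0 ≤ n := Nat.cast_nonneg _
  have hZ0 : 0 ≤ Z := le_trans (by positivity) hZ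
  let I : ℕ → Finset (Finset (Finset V)) := fun v =>
    (univ.powersetCard v).biUnion fun U =>
      (U.powersetCard 2).powerset.filter fun W => 2 * v ≤ W.card + 2
  have hsub : witnesses (V := V) R ⊆ (Icc 2 R).biUnion I := by
    intro W hW
    obtain ⟨⟨e, he⟩, -, U, hU, hWU, hcard⟩ := mem_witnesses.1 hW
    refine mem_biUnion.2 ⟨U.card, mem_Icc.2 ⟨?_, hU⟩, mem_biUnion.2 ⟨U,
      mem_powersetCard.2 ⟨subset_univ _, rfl⟩, mem_filter.2 ⟨mem_powerset.2 hWU, hcard⟩⟩⟩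
    obtain ⟨h1, h2⟩ := mem_powersetCard.1 (hWU he)
    exact h2 ▸ card_le_card h1
  refine (sum_le_sum_of_subset_of_nonneg hsub fun W _ _ => pow_nonneg hx _).trans ?_
  refine (sum_biUnion_le _ _ _ (fun W => pow_nonneg hx _)).trans ?_
  refine (sum_le_card_nsmul _ _ ((2 : ℝ) ^ (R * R) * (1 + Z) ^ R * n) fun v hv => ?_).trans ?_
  · obtain ⟨hv2, hvR⟩ := mem_Icc.1 hv
    refine (sum_biUnion_le _ _ _ (fun W => pow_nonneg hx _)).trans ?_
    refine (sum_le_card_nsmul _ _ ((2 : ℝ) ^ (R * R) * x ^ (2 * v - 2)) fun U hU => ?_).trans ?_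
    · refine (sum_le_card_nsmul _ _ (x ^ (2 * v - 2)) fun W hW => ?_).trans ?_
      · exact pow_le_pow_of_le_one hx hx1 (by have := (mem_filter.1 hW).2; omega)
      · rw [nsmul_eq_mul]
        refine mul_le_mul_of_nonneg_right ?_ (pow_nonneg hx _)
        refine (Nat.cast_le.2 (card_filter_le _ _)).trans ?_
        rw [card_powerset, card_powersetCard, (mem_powersetCard.1 hU).2, Nat.cast_pow,
          Nat.cast_ofNat]
        refine pow_le_pow_right₀ one_le_two ((Nat.choose_le_pow _ _).trans ?_)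
        rw [sq]
        exact Nat.mul_le_mul hvR hvR
    · rw [nsmul_eq_mul, card_powersetCard, card_univ]
      have h1 : ((Fintype.card V).choose v : ℝ) ≤ n ^ v := by
        rw [hn, ← Nat.cast_pow]; exact_mod_cast Nat.choose_le_pow _ _
      refine (mul_le_mul_of_nonneg_right h1 (by positivity)).trans ?_
      obtain ⟨j, rfl⟩ : ∃ j, v = j + 1 := ⟨v - 1, by omega⟩
      rw [show 2 * (j + 1) - 2 = 2 * j by omega, pow_mul x, pow_succ,
        show n ^ j * n * ((2 : ℝ) ^ (R * R) * (x ^ 2) ^ j)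
          = (2 : ℝ) ^ (R * R) * (n * x ^ 2) ^ j * n by rw [mul_pow]; ring]
      refine mul_le_mul_of_nonneg_right (mul_le_mul_of_nonneg_left ?_ (by positivity)) hn0
      exact (pow_le_pow_left₀ (by positivity) (hZ.trans (by linarith)) j).trans
        (pow_le_pow_right₀ (by linarith) (by omega))
  · rw [nsmul_eq_mul, Nat.card_Icc, mul_assoc (((R + 1 : ℕ) : ℝ)),
      mul_assoc (((R + 1 : ℕ) : ℝ))]
    exact mul_le_mul_of_nonneg_right (Nat.cast_le.2 (by omega)) (by positivity)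

/-- The initial budget is a small multiple of `q log n`. -/
theorem need_le {n R' : ℕ} {Λ δ γ : ℝ} (hΛ1 : 1 ≤ Λ) (hδ : 0 < δ)
    (hγZ : 64 / 3 * γ * ((R' : ℝ) + 25 * Real.sqrt (R' / δ)) ≤ 1 / 4) (hn : 200 ≤ n) {s L : ℝ}
    (hs : (n : ℝ) ≤ s) (hLdef : L = Λ * s / 2) {m q : ℕ} (hm : δ * (Λ * s) ≤ m)
    (hq2 : (q : ℝ) ≤ 2 * (γ * m)) :
    need L R' m q (complete n) ≤ (q : ℝ) * (1 / 4 * Real.log n + 16 * (R' : ℝ) ^ 2) := by
  set Z₀ : ℝ := (R' : ℝ) + 25 * Real.sqrt (R' / δ) with hZ₀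
  have hZ₀0 : 0 ≤ Z₀ := by positivity
  have hn' : (200 : ℝ) ≤ n := by exact_mod_cast hn
  have hn0 : (0 : ℝ) < n := by linarith
  have hs0 : 0 < s := by linarith
  have hΛs : s ≤ Λ * s := le_mul_of_one_le_left hs0.le hΛ1
  have hL0 : 0 < L := by linarith
  have hm0 : (0 : ℝ) < m := lt_of_lt_of_le (by positivity) hm
  set A₀ := complete n with hA₀
  set E₀ := (A₀.card : ℝ) with hE₀
  have hE₀eq : E₀ = (n : ℝ) * ((n : ℝ) - 1) / 2 := complete_card n
  have hE₀hi : E₀ ≤ (n : ℝ) ^ 2 := by rw [hE₀eq]; nlinarith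
  have hE₀0 : 0 < E₀ := by rw [hE₀eq]; nlinarith
  have hlog : Real.log (E₀ / L) ≤ 2 * Real.log n := by
    rw [← Nat.cast_ofNat, ← Real.log_pow]
    refine Real.log_le_log (by positivity) ?_
    rw [div_le_iff₀ hL0]
    exact hE₀hi.trans (le_mul_of_one_le_right (sq_nonneg _) (by linarith))
  have hbud : budA L R' m q ≤ 32 * γ * Z₀ * q := by
    have h1 : Real.sqrt (((m * R' : ℕ) : ℝ) * L) ≤ m * Real.sqrt (R' / δ) := by
      refine Real.sqrt_le_iff.2 ⟨by positivity, ?_⟩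
      rw [mul_pow, Real.sq_sqrt (by positivity), Nat.cast_mul, ← mul_div_assoc,
        le_div_iff₀ hδ]
      have hLm : L * δ ≤ m := by
        have h3 : 0 ≤ δ * (Λ * s) := by positivity
        rw [hLdef]; linarith
      have := mul_le_mul_of_nonneg_left hLm (show 0 ≤ (m : ℝ) * R' by positivity)
      linarith
    have hr2 : ((q : ℝ) / m) ^ 2 * m ≤ 2 * γ * q := by
      rw [div_pow, div_mul_eq_mul_div, div_le_iff₀ (by positivity)]
      have := mul_le_mul_of_nonneg_left hq2 (show 0 ≤ (q : ℝ) * m by positivity)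
      linarith
    calc budA L R' m q ≤ 16 * ((q : ℝ) / m) ^ 2 * ((m : ℝ) * R'
          + 25 * (m * Real.sqrt (R' / δ))) := by
          unfold budA
          rw [Nat.cast_mul] at h1 ⊢
          gcongr
      _ = 16 * (((q : ℝ) / m) ^ 2 * m) * Z₀ := by rw [hZ₀]; ring
      _ ≤ 16 * (2 * γ * q) * Z₀ := by gcongr
      _ = _ := by ring
  have hu : 0 ≤ uu L A₀ := by unfold uu; positivity
  have hlog0 : 0 ≤ Real.log n := Real.log_nonneg (by linarith)
  have hbudn := budA_nonneg L R' m q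
  rw [need]
  have k1 : budA L R' m q / 3 * Real.log (E₀ / L) ≤ budA L R' m q / 3 * (2 * Real.log n) :=
    mul_le_mul_of_nonneg_left hlog (by linarith)
  have k2 := mul_le_mul_of_nonneg_right hbud (show 0 ≤ 2 / 3 * Real.log n by linarith)
  have k3 := mul_le_mul_of_nonneg_right hγZ (show 0 ≤ (q : ℝ) * Real.log n by positivity)
  have k4 : 16 * (q : ℝ) * (R' : ℝ) ^ 2 * (1 - uu L A₀) ≤ 16 * (q : ℝ) * (R' : ℝ) ^ 2 :=
    mul_le_of_le_one_right (by positivity) (by linarith)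
  linarith

/-- The final arithmetic of the union bound. -/
theorem final_le {n q : ℕ} {K₁ P M mn s : ℝ} (hK₁ : 0 ≤ K₁) (hP : 0 < P) (hmn : 0 < mn)
    (hmn1 : mn ≤ 1) (hn : 0 < n) (hq : 1 ≤ q) {r : ℝ}
    (hM : M = Real.exp r * Real.exp 1 * K₁ / P / mn) (hn4 : M ^ 4 ≤ n)
    (hsdef : s = (n : ℝ) ^ ((3 : ℝ) / 2)) (hlow : P * s ≤ q) :
    Real.exp ((q : ℝ) * (1 / 4 * Real.log n + r)) * ((K₁ * n) ^ q / q.factorial) ≤ mn := by
  have hn0 : (0 : ℝ) < n := Nat.cast_pos.2 hn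
  have hq0 : (0 : ℝ) < q := Nat.cast_pos.2 hq
  have hfac : (q : ℝ) ^ q / q.factorial ≤ Real.exp 1 ^ q := by
    rw [← Real.exp_nat_mul, mul_one]
    exact Real.pow_div_factorial_le_exp (x := (q : ℝ)) hq0.le q
  have e1 : Real.exp (1 / 4 * Real.log n + r)
      = (n : ℝ) ^ ((1 : ℝ) / 4) * Real.exp (r) := by
    rw [Real.exp_add, Real.rpow_def_of_pos hn0, mul_comm (Real.log n)]
  rw [Real.exp_nat_mul, e1, mul_div_assoc', ← mul_pow]
  set Y := (n : ℝ) ^ ((1 : ℝ) / 4) * Real.exp (r) * (K₁ * n) with hY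
  have hY0 : 0 ≤ Y := by positivity
  have h5 : ∀ y : ℝ, 0 ≤ y → y ^ q / q.factorial ≤ (y * Real.exp 1 / q) ^ q := fun y hy => by
    refine le_trans (le_of_eq ?_) ((mul_le_mul_of_nonneg_left hfac (show 0 ≤ (y / q) ^ q by
      positivity)).trans (le_of_eq ?_))
    · rw [div_pow]; field_simp
    · rw [← mul_pow]; ring
  refine (h5 Y hY0).trans ?_
  have hM0 : 0 ≤ M := by rw [hM]; positivity
  have hq4 : (n : ℝ) ^ ((1 : ℝ) / 4) ≥ M := by
    calc M = (M ^ 4) ^ ((1 : ℝ) / 4) := by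
          rw [← Real.rpow_natCast M 4, ← Real.rpow_mul hM0]; norm_num
      _ ≤ _ := Real.rpow_le_rpow (by positivity) hn4 (by norm_num)
  have hsn4 : (n : ℝ) ^ ((1 : ℝ) / 4) * ((n : ℝ) ^ ((1 : ℝ) / 4) * n) = s := by
    rw [hsdef, ← mul_assoc, ← Real.rpow_add hn0]
    nth_rewrite 2 [← Real.rpow_one (n : ℝ)]
    rw [← Real.rpow_add hn0]
    norm_num
  have hbase : Y * Real.exp 1 / q ≤ mn := by
    rw [div_le_iff₀ hq0]
    have hp := (div_le_iff₀ hmn).1 (le_of_eq_of_le hM.symm hq4)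
    have hp' : Real.exp r * Real.exp 1 * K₁ ≤ (n : ℝ) ^ ((1 : ℝ) / 4) * mn * P :=
      (div_le_iff₀ hP).1 hp
    calc Y * Real.exp 1 = (n : ℝ) ^ ((1 : ℝ) / 4) * n * (Real.exp r * Real.exp 1 * K₁) := by
          rw [hY]; ring
      _ ≤ (n : ℝ) ^ ((1 : ℝ) / 4) * n * ((n : ℝ) ^ ((1 : ℝ) / 4) * mn * P) :=
          mul_le_mul_of_nonneg_left hp' (by positivity)
      _ = mn * (P * ((n : ℝ) ^ ((1 : ℝ) / 4) * ((n : ℝ) ^ ((1 : ℝ) / 4) * n))) := by ring
      _ = mn * (P * s) := by rw [hsn4]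
      _ ≤ mn * q := mul_le_mul_of_nonneg_left hlow hmn.le
  exact (pow_le_pow_left₀ (by positivity) hbase q).trans
    (pow_le_of_le_one hmn.le hmn1 (by omega))

/-- The union bound over sampled families, at the complete graph. -/
theorem union_le {n R : ℕ} {Λ δ γ η : ℝ} (hΛ1 : 1 ≤ Λ) (hδ : 0 < δ) (hγ0 : 0 < γ) (hη : 0 < η)
    (hγZ : 64 / 3 * γ * (((R * R : ℕ) : ℝ) + 25 * Real.sqrt ((R * R : ℕ) / δ)) ≤ 1 / 4)
    {X₀ K₁ M : ℝ} (hX₀ : X₀ = 8 * Λ * Real.exp (8 + 200 * Real.sqrt (1 / (γ * δ))))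
    (hK₁ : K₁ = ((R + 1 : ℕ) : ℝ) * (2 : ℝ) ^ (R * R) * (1 + X₀ ^ 2) ^ R)
    (hM : M = Real.exp (16 * ((R * R : ℕ) : ℝ) ^ 2) * Real.exp 1 * K₁ / (γ * δ * Λ) / min (η / 2) 1)
    (hn : 200 ≤ n) (hn2 : X₀ ^ 2 ≤ n) (hn4 : M ^ 4 ≤ n) {L : ℝ}
    (hLdef : L = Λ * (n : ℝ) ^ ((3 : ℝ) / 2) / 2) {m q : ℕ}
    (hm : δ * (Λ * (n : ℝ) ^ ((3 : ℝ) / 2)) ≤ m) (hqge : γ * m ≤ q)
    (hq2 : (q : ℝ) ≤ 2 * (γ * m)) (hq : 1 ≤ q) :
    ∑ F ∈ (subfams (witnesses (V := Fin n) R) q).filter (fun F => edgesOf F ⊆ complete n),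
      Real.exp (surv L (2 * (Λ * (n : ℝ) ^ ((3 : ℝ) / 2))) q (edgesOf F) (complete n)
        + need L (R * R) m q (complete n)) ≤ η / 2 := by
  set R' := R * R with hR'
  set Z₀ : ℝ := (R' : ℝ) + 25 * Real.sqrt (R' / δ) with hZ₀
  have hZ₀0 : 0 ≤ Z₀ := by positivity
  set C₁ : ℝ := 8 + 200 * Real.sqrt (1 / (γ * δ)) with hC₁
  have hn' : (200 : ℝ) ≤ n := by exact_mod_cast hn
  have hn0 : (0 : ℝ) < n := by linarith
  have hΛ0 : 0 < Λ := by linarith
  set s := (n : ℝ) ^ ((3 : ℝ) / 2) with hsdef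
  have hsn : (n : ℝ) ≤ s := Real.self_le_rpow_of_one_le (by linarith) (by norm_num)
  have hs0 : 0 < s := by linarith
  have hs2 : s ^ 2 = (n : ℝ) ^ 3 := by
    rw [hsdef, ← Real.rpow_natCast ((n : ℝ) ^ ((3 : ℝ) / 2)) 2, ← Real.rpow_mul hn0.le,
      show (3 : ℝ) / 2 * ((2 : ℕ) : ℝ) = ((3 : ℕ) : ℝ) by norm_num, Real.rpow_natCast]
  have hV : (Fintype.card (Fin n) : ℝ) = n := by rw [Fintype.card_fin]
  have hΛs : (n : ℝ) ≤ Λ * s := hsn.trans (le_mul_of_one_le_left hs0.le hΛ1)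
  have hL0 : 0 < L := by linarith
  have hm0 : (0 : ℝ) < m := lt_of_lt_of_le (by positivity) hm
  have hq0 : (0 : ℝ) < q := lt_of_lt_of_le (by positivity) hqge
  set A₀ := complete n with hA₀
  set E₀ := (A₀.card : ℝ) with hE₀
  have hE₀eq : E₀ = (n : ℝ) * ((n : ℝ) - 1) / 2 := complete_card n
  have hE₀lo : (n : ℝ) ^ 2 / 4 ≤ E₀ := by rw [hE₀eq]; nlinarith
  have hE₀hi : E₀ ≤ (n : ℝ) ^ 2 := by rw [hE₀eq]; nlinarith
  have hE₀0 : 0 < E₀ := lt_of_lt_of_le (by positivity) hE₀lo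
  set Hi := 2 * (Λ * s) with hHi
  set B := need L R' m q A₀ with hB
  have hK₁0 : 0 ≤ K₁ := by rw [hK₁]; positivity
  -- the weights
  have hX₀' : 0 ≤ X₀ := by rw [hX₀]; positivity
  set x := Hi / E₀ * Real.exp C₁ with hx
  have hx0 : 0 ≤ x := by positivity
  have hxle : x ≤ X₀ * s / (n : ℝ) ^ 2 := by
    rw [hx, hX₀, hHi, div_mul_eq_mul_div, div_le_div_iff₀ hE₀0 (by positivity)]
    have := mul_le_mul_of_nonneg_left hE₀lo (show 0 ≤ 8 * Λ * Real.exp C₁ * s by positivity)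
    linarith
  have hxx : x ^ 2 * n ≤ X₀ ^ 2 := by
    refine (mul_le_mul_of_nonneg_right (pow_le_pow_left₀ hx0 hxle 2) hn0.le).trans (le_of_eq ?_)
    rw [div_pow, mul_pow, hs2]
    field_simp
  have hx1 : x ≤ 1 := by
    refine (pow_le_pow_iff_left₀ hx0 zero_le_one two_ne_zero).1 ?_
    rw [one_pow]
    by_contra hc'
    have := mul_lt_mul_of_pos_right (not_le.1 hc') hn0
    linarith
  have hW : ∑ W ∈ witnesses (V := Fin n) R, x ^ W.card ≤ K₁ * n := by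
    refine (witness_weight_le R hx0 hx1 (Z := X₀ ^ 2) (by rw [hV]; linarith)).trans ?_
    rw [hV, hK₁]
  have hrate : cRate L q ≤ C₁ := by
    unfold cRate
    rw [hC₁]
    refine add_le_add le_rfl (mul_le_mul_of_nonneg_left (Real.sqrt_le_sqrt ?_) (by norm_num))
    rw [div_le_div_iff₀ hq0 (by positivity)]
    have h1 := mul_le_mul_of_nonneg_left hm hγ0.le
    have h2 : 0 ≤ Λ * s * (γ * δ) := by positivity
    rw [hLdef]; linarith
  have hterm : ∀ F ∈ (subfams (witnesses (V := Fin n) R) q).filter (fun F => edgesOf F ⊆ A₀),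
      Real.exp (surv L Hi q (edgesOf F) A₀ + B) ≤ Real.exp B * ∏ W ∈ F, x ^ W.card := by
    intro F hF
    obtain ⟨hF', -⟩ := mem_filter.1 hF
    obtain ⟨-, hFd⟩ := mem_filter.1 hF'
    have hc : (edgesOf F).card = ∑ W ∈ F, W.card :=
      card_biUnion (s := F) (t := id) fun w hw w' hw' hne => hFd w hw w' hw' hne
    rw [prod_pow_eq_pow_sum, ← hc, Real.exp_add, mul_comm]
    refine mul_le_mul_of_nonneg_left ?_ (Real.exp_pos _).le
    rw [surv, Real.exp_nat_mul]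
    refine pow_le_pow_left₀ (Real.exp_pos _).le ?_ _
    rw [Real.exp_add, Real.exp_log (by positivity), hx]
    refine mul_le_mul_of_nonneg_left (Real.exp_le_exp.2 ?_) (by positivity)
    refine le_trans (mul_le_of_le_one_right (by unfold cRate; positivity) ?_) hrate
    have : 0 ≤ uu L A₀ := by unfold uu; positivity
    linarith
  refine (sum_le_sum hterm).trans ?_
  rw [← mul_sum]
  have hes : ∑ F ∈ (subfams (witnesses (V := Fin n) R) q).filter (fun F => edgesOf F ⊆ A₀),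
      ∏ W ∈ F, x ^ W.card ≤ (K₁ * n) ^ q / q.factorial := by
    rw [le_div_iff₀ (Nat.cast_pos.2 q.factorial_pos), mul_comm]
    refine le_trans ?_ ((esymm_le (witnesses (V := Fin n) R) (fun W => x ^ W.card)
      (fun W _ => pow_nonneg hx0 _) q).trans
      (pow_le_pow_left₀ (sum_nonneg fun W _ => pow_nonneg hx0 _) hW q))
    refine mul_le_mul_of_nonneg_left ?_ (Nat.cast_nonneg _)
    refine sum_le_sum_of_subset_of_nonneg ((filter_subset _ _).trans (filter_subset _ _))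
      fun F _ _ => prod_nonneg fun W _ => pow_nonneg hx0 _
  have hBle := need_le (R' := R') hΛ1 hδ hγZ hn hsn hLdef hm hq2
  refine (mul_le_mul (Real.exp_le_exp.2 hBle) hes
    (sum_nonneg fun F _ => prod_nonneg fun W _ => pow_nonneg hx0 _) (Real.exp_pos _).le).trans ?_
  have hlow : γ * δ * Λ * s ≤ q := by
    refine le_trans ?_ hqge
    have := mul_le_mul_of_nonneg_left hm hγ0.le
    linarith
  exact (final_le hK₁0 (by positivity) (lt_min (by linarith) one_pos) (min_le_right _ _) (by omega)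
    hq hM hn4 hsdef hlow).trans (min_le_left _ _)

theorem full_init {ε K c C₀ : ℝ} (hε : 0 ≤ ε)
    (hC₀ : ∀ n : ℕ, 4 ≤ n → pot2 (complete n) ≤ C₀) {n : ℕ} (hn : 4 ≤ n) :
    full ε (complete n) + 8 * K / (3 * c) ≤ max 0 (2 + ε * C₀ + 8 * K / (3 * c)) := by
  have h1 := lyap_complete (fun y h => psi_small h) (n := n) hn
  have h2 := mul_le_mul_of_nonneg_left (hC₀ n hn) hε
  refine le_trans ?_ (le_max_right _ _)
  unfold full
  linarith

/-- The process rarely leaves the track above a high level. -/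
theorem offTrack_small {η G ε K c θ Λ : ℝ} {n : ℕ} (hε : 0 ≤ ε) (hK : 0 ≤ K) (hc : 0 < c)
    (hc1 : c ≤ 1) (hθ : 0 < θ) (hθ' : θ ≤ 1 / 64) (hη : 0 < η)
    (hs : ∀ A : Finset (Finset (Fin n)), (∀ e ∈ A, e.card = 2) → 100 ≤ A.card → 1 ≤ dd A →
      err A ≤ θ → ∑ t ∈ tri A, full ε (A \ pairs t)
        ≤ (tri A).card * (full ε A * (1 - c / A.card) + K / A.card))
    (hfull : full ε (complete n) + 8 * K / (3 * c) ≤ G) (hn : 200 ≤ n) (hΛ1 : 1 ≤ Λ)
    (hΛG : 2 * G / (η * θ) ≤ Λ) :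
    reach (OffTrack (Λ * (n : ℝ) ^ ((3 : ℝ) / 2) / 2)) (complete n) ≤ η / 2 ∧
      (Fintype.card (Fin n) : ℝ) ^ 3 ≤ 4 * (Λ * (n : ℝ) ^ ((3 : ℝ) / 2) / 2) ^ 2 := by
  have hn' : (200 : ℝ) ≤ n := by exact_mod_cast hn
  have hn0 : (0 : ℝ) < n := by linarith
  have hΛ0 : 0 < Λ := by linarith
  set s := (n : ℝ) ^ ((3 : ℝ) / 2) with hsdef
  have hsn : (n : ℝ) ≤ s := Real.self_le_rpow_of_one_le (by linarith) (by norm_num)
  have hs0 : 0 < s := by linarith
  have hs2 : s ^ 2 = (n : ℝ) ^ 3 := by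
    rw [hsdef, ← Real.rpow_natCast ((n : ℝ) ^ ((3 : ℝ) / 2)) 2, ← Real.rpow_mul hn0.le,
      show (3 : ℝ) / 2 * ((2 : ℕ) : ℝ) = ((3 : ℕ) : ℝ) by norm_num, Real.rpow_natCast]
  have hV : (Fintype.card (Fin n) : ℝ) = n := by rw [Fintype.card_fin]
  have hΛs : s ≤ Λ * s := le_mul_of_one_le_left hs0.le hΛ1
  have hLn : (Fintype.card (Fin n) : ℝ) ^ 3 ≤ 4 * (Λ * s / 2) ^ 2 := by
    rw [hV, ← hs2]
    calc s ^ 2 ≤ (Λ * s) ^ 2 := pow_le_pow_left₀ hs0.le hΛs 2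
      _ = _ := by ring
  refine ⟨?_, hLn⟩
  refine (reach_offTrack_le hε hK hc hc1 hθ hθ' (complete n)
    (fun A hA => hs A fun e he => (mem_powersetCard.1 (hA he)).2) (by rw [hV]; positivity)
    (by linarith) hLn).trans ?_
  rw [hV, ← hs2, div_le_iff₀ (by positivity)]
  refine (mul_le_mul_of_nonneg_left hfull (sq_nonneg s)).trans ?_
  rw [div_le_iff₀ (by positivity)] at hΛG
  have h4 : Λ ≤ Λ ^ 2 := le_self_pow₀ hΛ1 two_ne_zero
  have h5 := mul_le_mul_of_nonneg_left h4 (show 0 ≤ η * θ * s ^ 2 by positivity)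
  have h6 := mul_le_mul_of_nonneg_right hΛG (sq_nonneg s)
  linarith

/-- A bad state has a family of witnesses. -/
theorem exists_fam {n R m : ℕ} {Λ δ : ℝ} (hδ : 0 < δ) (hn : 200 ≤ n) (hΛ1 : 1 ≤ Λ)
    (hm : m = ⌈δ * (Λ * (n : ℝ) ^ ((3 : ℝ) / 2))⌉₊) (A : Finset (Finset (Fin n))) :
    InWindow Λ A ∧ Many R δ A → Λ * (n : ℝ) ^ ((3 : ℝ) / 2) / 2 + 3 < A.card ∧
      (A.card : ℝ) ≤ 2 * (Λ * (n : ℝ) ^ ((3 : ℝ) / 2)) ∧ ∃ U, IsFam (witnesses R) m A U := by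
  have hn' : (200 : ℝ) ≤ n := by exact_mod_cast hn
  set s := (n : ℝ) ^ ((3 : ℝ) / 2) with hsdef
  have hsn : (n : ℝ) ≤ s := Real.self_le_rpow_of_one_le (by linarith) (by norm_num)
  have hV : (Fintype.card (Fin n) : ℝ) = n := by rw [Fintype.card_fin]
  have hΛs : s ≤ Λ * s := le_mul_of_one_le_left (by linarith) hΛ1
  rintro ⟨⟨hlo, hhi⟩, F, hF, hFd, hcard⟩
  rw [hV] at hlo hhi
  refine ⟨by linarith, hhi, ?_⟩
  rw [hm]
  have hmF : ⌈δ * (Λ * s)⌉₊ ≤ F.card := Nat.ceil_le.2 (le_trans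
    (mul_le_mul_of_nonneg_left hlo.le hδ.le) hcard)
  obtain ⟨U, hUF, hUm⟩ := exists_subset_card_eq hmF
  refine ⟨U, fun W hW => ?_, hUm, fun w hw w' hw' h => hFd (hUF hw) (hUF hw') h,
    biUnion_subset.2 fun W hW => (hF W (hUF hW)).2.1⟩
  obtain ⟨hne, -, hU'⟩ := hF W (hUF hW)
  exact mem_witnesses.2 ⟨hne, subset_univ _, hU'⟩

/-- **N2.** With high probability no state of the window has many short cycles. -/
theorem no_cycles : NoCycles := by
  intro η hη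
  obtain ⟨ε, K, c, θ, hε, hK, hc, hc1, hθ, hθ', hs⟩ := order_step
  obtain ⟨C₀, hC₀⟩ := pot_init
  set G := max 0 (2 + ε * C₀ + 8 * K / (3 * c)) with hG
  refine ⟨max 1 (2 * G / (η * θ)), fun Λ hΛ R δ hδ => ?_⟩
  obtain ⟨hΛ1, hΛG⟩ := max_le_iff.1 hΛ
  have hG0 : 0 ≤ G := le_max_left _ _
  have hΛ0 : 0 < Λ := by linarith
  set R' := R * R with hR'
  set Z₀ : ℝ := (R' : ℝ) + 25 * Real.sqrt (R' / δ) with hZ₀
  have hZ₀0 : 0 ≤ Z₀ := by positivity
  set γ : ℝ := 1 / (100 * (Z₀ + 1)) with hγdef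
  have hγ0 : 0 < γ := by positivity
  have hγ1 : γ ≤ 1 := by
    rw [hγdef, div_le_one (by positivity)]; linarith
  have hγZ : 64 / 3 * γ * Z₀ ≤ 1 / 4 := by
    rw [hγdef, mul_one_div, div_mul_eq_mul_div, div_le_iff₀ (by positivity)]; linarith
  set C₁ : ℝ := 8 + 200 * Real.sqrt (1 / (γ * δ)) with hC₁
  set X₀ : ℝ := 8 * Λ * Real.exp C₁ with hX₀
  set K₁ : ℝ := ((R + 1 : ℕ) : ℝ) * (2 : ℝ) ^ (R * R) * (1 + X₀ ^ 2) ^ R with hK₁
  set K₂ : ℝ := Real.exp (16 * (R' : ℝ) ^ 2) * Real.exp 1 * K₁ / (γ * δ * Λ) with hK₂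
  have hK₂0 : 0 ≤ K₂ := by positivity
  set M : ℝ := K₂ / min (η / 2) 1 with hM
  refine ⟨max 200 (max ⌈X₀ ^ 2⌉₊ (max ⌈1 / (δ * Λ * γ)⌉₊ ⌈M ^ 4⌉₊)), fun n hn => ?_⟩
  simp only [max_le_iff, Nat.ceil_le] at hn
  obtain ⟨hn1, hn2, hn3, hn4⟩ := hn
  have hn' : (200 : ℝ) ≤ n := by exact_mod_cast hn1
  have hn0 : (0 : ℝ) < n := by linarith
  set s := (n : ℝ) ^ ((3 : ℝ) / 2) with hsdef
  have hsn : (n : ℝ) ≤ s := Real.self_le_rpow_of_one_le (by linarith) (by norm_num)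
  have hs0 : 0 < s := by linarith
  have hs2 : s ^ 2 = (n : ℝ) ^ 3 := by
    rw [hsdef, ← Real.rpow_natCast ((n : ℝ) ^ ((3 : ℝ) / 2)) 2, ← Real.rpow_mul hn0.le,
      show (3 : ℝ) / 2 * ((2 : ℕ) : ℝ) = ((3 : ℕ) : ℝ) by norm_num, Real.rpow_natCast]
  have hV : (Fintype.card (Fin n) : ℝ) = n := by rw [Fintype.card_fin]
  by_cases hR0 : R ≤ 1
  · -- no witness is that small
    refine le_trans (reach_le _ (fun _ => 0) _ (fun _ _ => le_rfl) (fun B _ hB => ?_)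
      (fun B _ _ _ => by simp)) hη.le
    obtain ⟨⟨hw, -⟩, F, hF, -, hcard⟩ := hB
    have hpos : (0 : ℝ) < F.card := by
      refine lt_of_lt_of_le ?_ hcard
      have : 0 ≤ Λ * (Fintype.card (Fin n) : ℝ) ^ ((3 : ℝ) / 2) := by positivity
      exact mul_pos hδ (by linarith)
    obtain ⟨W, hW⟩ := card_pos.1 (Nat.cast_pos.1 hpos)
    obtain ⟨⟨e, he⟩, -, U, hU, hWU, -⟩ := hF W hW
    obtain ⟨h1, h2⟩ := mem_powersetCard.1 (hWU he)
    have := card_le_card h1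
    omega
  set L := Λ * s / 2 with hLdef
  have hΛs : n ≤ Λ * s := hsn.trans (le_mul_of_one_le_left hs0.le hΛ1)
  have hL : 100 ≤ L := by linarith
  have hL0 : 0 < L := by linarith
  set Hi := 2 * (Λ * s) with hHi
  set m := ⌈δ * (Λ * s)⌉₊ with hmdef
  set q := ⌈γ * m⌉₊ with hqdef
  have hm : δ * (Λ * s) ≤ m := Nat.le_ceil _
  have hm0 : (0 : ℝ) < m := lt_of_lt_of_le (by positivity) hm
  have hqge : γ * m ≤ q := Nat.le_ceil _
  have hq0 : (0 : ℝ) < q := lt_of_lt_of_le (by positivity) hqge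
  have hq : 1 ≤ q := Nat.cast_pos.1 hq0
  have hqm : q ≤ m := Nat.ceil_le.2 (mul_le_of_le_one_left hm0.le hγ1)
  have hγm : 1 ≤ γ * m := by
    rw [div_le_iff₀ (by positivity)] at hn3
    refine hn3.trans ?_
    calc (n : ℝ) * (δ * Λ * γ) ≤ s * (δ * Λ * γ) := mul_le_mul_of_nonneg_right hsn (by positivity)
      _ = γ * (δ * (Λ * s)) := by ring
      _ ≤ γ * m := mul_le_mul_of_nonneg_left hm hγ0.le
  have hq2 : (q : ℝ) ≤ 2 * (γ * m) := by
    have := Nat.ceil_lt_add_one (show 0 ≤ γ * (m : ℝ) by positivity)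
    rw [← hqdef] at this
    linarith
  set A₀ := complete n with hA₀
  have h2 : ∀ e ∈ A₀, e.card = 2 := fun e he => (mem_powersetCard.1 he).2
  obtain ⟨hoff, hLn⟩ := offTrack_small hε.le hK hc hc1 hθ hθ' hη (hs (Fin n))
    (full_init hε.le hC₀ (by omega : 4 ≤ n) (K := K) (c := c)) hn1 hΛ1 hΛG
  rw [← hsdef, ← hLdef] at hoff hLn
  set B := need L R' m q A₀ with hB
  have hbad : ∀ A : Finset (Finset (Fin n)), InWindow Λ A ∧ Many R δ A →
      L + 3 < A.card ∧ (A.card : ℝ) ≤ Hi ∧ ∃ U, IsFam (witnesses R) m A U :=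
    exists_fam hδ hn1 hΛ1 hmdef
  have hΩne : ∀ w ∈ witnesses (V := Fin n) R, w.Nonempty := fun w hw => (mem_witnesses.1 hw).1
  have hΩR : ∀ w ∈ witnesses (V := Fin n) R, w.card ≤ R' := fun w hw =>
    witness_card_le (mem_witnesses.1 hw)
  have h := reach_fam_le (L := L) (Hi := Hi) (R := R') hL (by positivity) hq hqm (by rw [hV]; positivity) hLn
    (witnesses R) hΩne hΩR (fun A => InWindow Λ A ∧ Many R δ A) hbad A₀ h2 (fun _ => B)
    (fun U hU => by rw [sum_const, card_powersetCard, hU.2.1, nsmul_eq_mul])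
  refine h.trans ?_
  have hsum := union_le (R := R) hΛ1 hδ hγ0 hη hγZ hX₀ hK₁ (M := M) (by rw [hM, hK₂]) hn1 hn2 hn4
    hLdef hm hqge hq2 hq
  linarith

end Vale.Agent.P046.Const
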