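import Vale.Agent.P046.Const.Pointwise

/-!
P046, leading constant, N5: the tree recursion ends at `E (1 + 2 D) ^ (-1/2)`.
-/

namespace Vale.Agent.P046.Const

/-- **N5.** The deviation equation contracts. -/
theorem ode_target : OdeTarget :=
  Ode.ode_target_of Pointwise.pointwise (by norm_num) (by norm_num)

end Vale.Agent.P046.Const
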