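import Vale.Agent.P046.Const.Defs

/-!
P046, N3: the Picard iterates of the cavity equation converge at a rate free of the graph.

The total gap of the `k + 1` iterate grows on a time interval by at most the length times `2 K`
times that of the `k` iterate, plus the edges of codegree above `K`. On intervals with
`2 K (x' - x) ≤ 1/2` this at most doubles the bound for large `k`, and the heavy part decays
exponentially in `K`, faster than the doublings grow.
-/

namespace Vale.Agent.P046.Const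

open Finset Vale.Agent.P046.Track Vale.Agent.P046.Gap
open scoped Interval

/-- One short step: the bound at most doubles, plus the heavy part. -/
theorem decay_short {Φ : ℕ → ℝ → ℝ} {E C x η B H K : ℝ} {k : ℕ} (hE : 0 ≤ E)
    (hb : ∀ j, ∀ t ∈ Set.Icc (0 : ℝ) 1, 0 ≤ Φ j t ∧ Φ j t ≤ C * E)
    (hs : ∀ (j : ℕ) (u u' B' : ℝ), 0 ≤ u → u ≤ u' → u' ≤ 1 →
      (∀ t ∈ Set.Icc u u', Φ j t ≤ B') → Φ (j + 1) u' ≤ Φ (j + 1) u + (u' - u) * (2 * K * B' + H))
    (hH : 0 ≤ H) (hx : 0 ≤ x) (hη : 0 ≤ η) (hx1 : x + η ≤ 1) (hηK : 2 * η * K ≤ 1 / 2)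
    (hB0 : 0 ≤ B) (hB : ∀ j, k ≤ j → ∀ t ∈ Set.Icc 0 x, Φ j t ≤ B) (l : ℕ) :
    ∀ j, k + l ≤ j → ∀ t ∈ Set.Icc 0 (x + η),
      Φ j t ≤ 2 * (B + η * H) + |C| * E * (1 / 2) ^ l := by
  have h3 : 0 ≤ η * H := by positivity
  induction l with
  | zero =>
    intro j _ t ht
    have h1 := (hb j t ⟨ht.1, ht.2.trans hx1⟩).2
    have h2 : C * E ≤ |C| * E := mul_le_mul_of_nonneg_right (le_abs_self C) hE
    simp only [pow_zero, mul_one]
    linarith
  | succ l ih =>
    intro j hj t ht
    have h4 : 0 ≤ |C| * E * (1 / 2 : ℝ) ^ (l + 1) := by positivity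
    rcases le_or_gt t x with htx | htx
    · have := hB j (by omega) t ⟨ht.1, htx⟩
      linarith
    obtain ⟨p, rfl⟩ : ∃ p, j = p + 1 := ⟨j - 1, by omega⟩
    set B' := 2 * (B + η * H) + |C| * E * (1 / 2) ^ l with hB'
    have h6 := hs p x t B' hx htx.le (ht.2.trans hx1) fun s hs' =>
      ih p (by omega) s ⟨hx.trans hs'.1, hs'.2.trans ht.2⟩
    have h7 := hB (p + 1) (by omega) x ⟨hx, le_rfl⟩
    have h8 : 0 ≤ B' := by positivity
    have h10 : 2 * η * K * B' ≤ 1 / 2 * B' := mul_le_mul_of_nonneg_right hηK h8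
    have h11 : (t - x) * (2 * K * B' + H) ≤ 1 / 2 * B' + η * H := by
      rcases le_or_gt 0 (2 * K * B' + H) with hn | hn
      · have := mul_le_mul_of_nonneg_right (show t - x ≤ η by linarith [ht.2]) hn
        linarith
      · have := mul_nonpos_of_nonneg_of_nonpos (show 0 ≤ t - x by linarith) hn.le
        linarith
    rw [pow_succ]
    linarith

/-- Iterates obeying the recursion with a cutoff `K` decay, uniformly, as `k` grows. -/
theorem decay_of_step {a : ℝ} (ha : 0 < a) (A C : ℝ) {δ : ℝ} (hδ : 0 < δ) :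
    ∃ k₀ : ℕ, ∀ (Φ : ℕ → ℝ → ℝ) (E : ℝ) (H : ℕ → ℝ), 0 ≤ E →
      (∀ k, Φ k 0 = 0) → (∀ k, ∀ x ∈ Set.Icc (0 : ℝ) 1, 0 ≤ Φ k x ∧ Φ k x ≤ C * E) →
      (∀ K : ℕ, 0 ≤ H K ∧ H K ≤ A * Real.exp (-a * K) * E) →
      (∀ (K k : ℕ) (x x' B : ℝ), 0 ≤ x → x ≤ x' → x' ≤ 1 → (∀ t ∈ Set.Icc x x', Φ k t ≤ B) →
        Φ (k + 1) x' ≤ Φ (k + 1) x + (x' - x) * (2 * K * B + H K)) →
      ∀ k, k₀ ≤ k → Φ k 1 ≤ δ * E := by
  obtain ⟨N, hN⟩ := exists_nat_gt (8 / a)
  have hNpos : (0 : ℝ) < N := lt_trans (by positivity) hN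
  have hNa : 8 / (N : ℝ) ≤ a := by
    rw [div_le_iff₀ hNpos]
    rw [div_lt_iff₀ ha] at hN
    linarith
  suffices key : ∀ i : ℕ, i ≤ N → ∀ δ : ℝ, 0 < δ → ∃ k₀ : ℕ, ∀ (Φ : ℕ → ℝ → ℝ) (E : ℝ)
      (H : ℕ → ℝ), 0 ≤ E →
      (∀ k, Φ k 0 = 0) → (∀ k, ∀ x ∈ Set.Icc (0 : ℝ) 1, 0 ≤ Φ k x ∧ Φ k x ≤ C * E) →
      (∀ K : ℕ, 0 ≤ H K ∧ H K ≤ A * Real.exp (-a * K) * E) →
      (∀ (K k : ℕ) (x x' B : ℝ), 0 ≤ x → x ≤ x' → x' ≤ 1 → (∀ t ∈ Set.Icc x x', Φ k t ≤ B) →
        Φ (k + 1) x' ≤ Φ (k + 1) x + (x' - x) * (2 * K * B + H K)) →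
      ∀ k, k₀ ≤ k → ∀ t ∈ Set.Icc (0 : ℝ) ((i : ℝ) / N), Φ k t ≤ δ * E by
    obtain ⟨k₀, hk⟩ := key N le_rfl δ hδ
    exact ⟨k₀, fun Φ E H hE h0 hb hH hs k hkk => hk Φ E H hE h0 hb hH hs k hkk 1
      ⟨zero_le_one, le_of_eq (div_self hNpos.ne').symm⟩⟩
  intro i
  induction i with
  | zero =>
    intro _ δ hδ
    refine ⟨0, fun Φ E H hE h0 _ _ _ k _ t ht => ?_⟩
    have ht0 : t = 0 := le_antisymm (le_of_le_of_eq ht.2 (by simp)) ht.1
    rw [ht0, h0]
    positivity
  | succ i ih =>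
    intro hi δ hδ
    -- choose the cutoff
    obtain ⟨K, hK⟩ : ∃ K : ℕ,
        8 * Real.exp 2 * |A| * Real.exp (-(a / 2) * K) ≤ δ / 4 := by
      have hexp : Filter.Tendsto
          (fun K : ℕ => 8 * Real.exp 2 * |A| * Real.exp (-(a / 2) * K))
          Filter.atTop (nhds (8 * Real.exp 2 * |A| * 0)) := by
        refine Filter.Tendsto.const_mul _ (Real.tendsto_exp_atBot.comp ?_)
        exact Filter.Tendsto.const_mul_atTop_of_neg (by linarith) tendsto_natCast_atTop_atTop
      rw [mul_zero] at hexp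
      obtain ⟨K₀, hK₀⟩ := Filter.eventually_atTop.1
        (hexp.eventually (ge_mem_nhds (by positivity : (0 : ℝ) < δ / 4)))
      exact ⟨K₀, hK₀ _ le_rfl⟩
    set m : ℕ := ⌈4 * (K : ℝ) / N⌉₊ + 1 with hm
    have hmpos : (0 : ℝ) < m := by positivity
    set η : ℝ := 1 / (N * m) with hη
    have hη0 : 0 < η := by positivity
    have hηK : 2 * η * K ≤ 1 / 2 := by
      have : 4 * (K : ℝ) / N ≤ m := (Nat.le_ceil _).trans (by simp [hm])
      rw [div_le_iff₀ hNpos] at this
      rw [hη, mul_one_div, div_mul_eq_mul_div, div_le_iff₀ (by positivity)]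
      linarith
    have hmη : (m : ℝ) * η = 1 / N := by rw [hη]; field_simp
    -- the growth factor
    have hpow : (2 : ℝ) ^ m ≤ Real.exp 2 * Real.exp (a / 2 * K) := by
      have h1 : (m : ℝ) ≤ 4 * (K : ℝ) / N + 2 := by
        have := Nat.ceil_lt_add_one (show 0 ≤ 4 * (K : ℝ) / N by positivity)
        rw [hm]; push_cast; linarith
      have h2 : 4 * (K : ℝ) / N ≤ a / 2 * K := by
        have e8 : 4 / (N : ℝ) ≤ a / 2 := by
          have : 8 / (N : ℝ) = 2 * (4 / N) := by ring
          linarith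
        calc 4 * (K : ℝ) / N = 4 / N * K := by ring
          _ ≤ _ := mul_le_mul_of_nonneg_right e8 (Nat.cast_nonneg K)
      calc (2 : ℝ) ^ m ≤ (Real.exp 1) ^ m := by
            gcongr
            have := Real.add_one_le_exp (1 : ℝ)
            linarith
        _ = Real.exp m := by rw [← Real.exp_nat_mul, mul_one]
        _ ≤ _ := by rw [← Real.exp_add]; exact Real.exp_le_exp.2 (by linarith)
    have hδ1 : 0 < δ / (8 * 2 ^ m) := by positivity
    obtain ⟨l, hl⟩ := exists_pow_lt_of_lt_one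
      (show 0 < δ / (8 * 2 ^ m) / (|C| + 1) by positivity) (by norm_num : (1 / 2 : ℝ) < 1)
    obtain ⟨k₀, hk₀⟩ := ih (Nat.le_of_succ_le hi) _ hδ1
    refine ⟨k₀ + m * l, fun Φ E H hE h0 hb hH hs k hk => ?_⟩
    set c : ℝ := δ / (8 * 2 ^ m) * E + 2 * η * H K with hc
    have hH0 := (hH K).1
    have hc0 : 0 ≤ c := by positivity
    have hiN : (i : ℝ) / N + m * η = ((i + 1 : ℕ) : ℝ) / N := by
      rw [hmη]; push_cast; ring
    have hiN1 : ((i + 1 : ℕ) : ℝ) / N ≤ 1 := by
      rw [div_le_one hNpos]; exact_mod_cast hi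
    -- the short steps
    have hstep : ∀ j : ℕ, j ≤ m → ∀ k', k₀ + j * l ≤ k' →
        ∀ t ∈ Set.Icc 0 ((i : ℝ) / N + j * η),
          Φ k' t ≤ 2 ^ j * (δ / (8 * 2 ^ m) * E + c) - c := by
      intro j
      induction j with
      | zero =>
        intro _ k' hk' t ht
        simp only [Nat.cast_zero, zero_mul, add_zero] at ht
        simpa using hk₀ Φ E H hE h0 hb hH hs k' (by omega) t ht
      | succ j ihj =>
        intro hj
        set x := (i : ℝ) / N + j * η with hx
        set B := 2 ^ j * (δ / (8 * 2 ^ m) * E + c) - c with hB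
        have hjm : ((j + 1 : ℕ) : ℝ) * η ≤ m * η :=
          mul_le_mul_of_nonneg_right (by exact_mod_cast hj) hη0.le
        have hxx : (i : ℝ) / N + (j + 1 : ℕ) * η = x + η := by rw [hx]; push_cast; ring
        have hx1 : x + η ≤ 1 := by linarith
        have hx0 : 0 ≤ x := by positivity
        have hB0 : 0 ≤ B := (hb (k₀ + j * l) 0 ⟨le_rfl, zero_le_one⟩).1.trans
          (ihj (Nat.le_of_succ_le hj) _ le_rfl 0 ⟨le_rfl, hx0⟩)
        intro k' hk' t ht
        rw [hxx] at ht
        have h5 := decay_short hE hb (fun p u u' B' => hs K p u u' B') hH0 hx0 hη0.le hx1 hηK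
          hB0 (ihj (Nat.le_of_succ_le hj)) l k' (by rw [Nat.succ_mul] at hk'; omega) t ht
        have h6 : |C| * E * (1 / 2) ^ l ≤ δ / (8 * 2 ^ m) * E := by
          have h7 := hl.le
          rw [le_div_iff₀ (by positivity)] at h7
          have h8 : (0 : ℝ) ≤ (1 / 2) ^ l := by positivity
          nlinarith [abs_nonneg C]
        rw [pow_succ]
        have h9 : c = δ / (8 * 2 ^ m) * E + 2 * η * H K := hc
        linarith only [h5, h6, hB, h9]
    intro t ht
    rw [← hiN] at ht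
    refine (hstep m le_rfl k (by linarith) t ht).trans ?_
    have hA' : H K ≤ |A| * Real.exp (-a * K) * E := (hH K).2.trans (by
      gcongr; exact le_abs_self A)
    have hη1 : η ≤ 1 := by
      rw [hη, div_le_one (by positivity)]
      have : (1 : ℝ) ≤ N := by
        exact_mod_cast Nat.one_le_iff_ne_zero.2 fun h0 => by simp [h0] at hNpos
      have : (1 : ℝ) ≤ m := by exact_mod_cast (show 1 ≤ m by omega)
      nlinarith
    have h4 : 2 * η * H K * 2 ^ m ≤ δ / 8 * E := by
      calc 2 * η * H K * 2 ^ m ≤ 2 * 1 * (|A| * Real.exp (-a * K) * E)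
            * (Real.exp 2 * Real.exp (a / 2 * K)) := by gcongr
        _ = 2 * Real.exp 2 * |A| * (Real.exp (-a * K) * Real.exp (a / 2 * K)) * E := by ring
        _ ≤ _ := by
          rw [← Real.exp_add, show -a * (K : ℝ) + a / 2 * K = -(a / 2) * K by ring]
          refine mul_le_mul_of_nonneg_right ?_ hE
          linarith
    have h7 : (2 : ℝ) ^ m * (δ / (8 * 2 ^ m) * E) = δ / 8 * E := by
      field_simp
    have : 0 ≤ δ * E := by positivity
    calc (2 : ℝ) ^ m * (δ / (8 * 2 ^ m) * E + c) - c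
        ≤ 2 ^ m * (δ / (8 * 2 ^ m) * E + c) := sub_le_self _ hc0
      _ = 2 * (2 ^ m * (δ / (8 * 2 ^ m) * E)) + 2 * η * H K * 2 ^ m := by rw [hc]; ring
      _ ≤ δ * E := by rw [h7]; linarith only [h4, this]

theorem abs_prod_sub_prod_le {α : Type} (S : Finset α) {a b : α → ℝ}
    (ha : ∀ i ∈ S, 0 ≤ a i ∧ a i ≤ 1) (hb : ∀ i ∈ S, 0 ≤ b i ∧ b i ≤ 1) :
    |∏ i ∈ S, a i - ∏ i ∈ S, b i| ≤ ∑ i ∈ S, |a i - b i| := by
  induction S using Finset.cons_induction with
  | empty => simp
  | cons i S hi ih =>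
    rw [prod_cons, prod_cons, sum_cons]
    obtain ⟨hb0, hb1⟩ := hb i (mem_cons_self i S)
    have ha' : ∀ j ∈ S, 0 ≤ a j ∧ a j ≤ 1 := fun j hj => ha j (mem_cons_of_mem hj)
    have hp0 : 0 ≤ ∏ j ∈ S, a j := prod_nonneg fun j hj => (ha' j hj).1
    have hp1 : ∏ j ∈ S, a j ≤ 1 :=
      prod_le_one (fun j hj => (ha' j hj).1) fun j hj => (ha' j hj).2
    rw [show a i * ∏ j ∈ S, a j - b i * ∏ j ∈ S, b j
      = (a i - b i) * ∏ j ∈ S, a j + b i * (∏ j ∈ S, a j - ∏ j ∈ S, b j) by ring]
    refine (abs_add_le _ _).trans (add_le_add ?_ ?_)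
    · rw [abs_mul, abs_of_nonneg hp0]
      exact mul_le_of_le_one_right (abs_nonneg _) hp1
    · rw [abs_mul, abs_of_nonneg hb0]
      exact (mul_le_of_le_one_left (abs_nonneg _) hb1).trans
        (ih ha' fun j hj => hb j (mem_cons_of_mem hj))

variable {V : Type} [Fintype V] [DecidableEq V]

theorem rate_mem (A : Finset (Finset V)) {J : Finset V → Finset V → ℝ} {s e : Finset V}
    (h : ∀ f ∈ pairs s, ∀ s' ∈ triEdge A f, 0 ≤ J s' f ∧ J s' f ≤ 1) :
    0 ≤ rate A J s e ∧ rate A J s e ≤ 1 := by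
  have h1 : ∀ f ∈ (pairs s).erase e,
      0 ≤ ∏ s' ∈ (triEdge A f).erase s, (1 - J s' f) ∧
        ∏ s' ∈ (triEdge A f).erase s, (1 - J s' f) ≤ 1 := fun f hf => by
    have h2 : ∀ s' ∈ (triEdge A f).erase s, 0 ≤ 1 - J s' f ∧ 1 - J s' f ≤ 1 := fun s' hs' => by
      obtain ⟨a, b⟩ := h f (mem_of_mem_erase hf) s' (mem_of_mem_erase hs')
      constructor <;> linarith
    exact ⟨prod_nonneg fun s' hs' => (h2 s' hs').1,
      prod_le_one (fun s' hs' => (h2 s' hs').1) fun s' hs' => (h2 s' hs').2⟩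
  exact ⟨prod_nonneg fun f hf => (h1 f hf).1,
    prod_le_one (fun f hf => (h1 f hf).1) fun f hf => (h1 f hf).2⟩

theorem abs_rate_sub_le (A : Finset (Finset V)) {J J' : Finset V → Finset V → ℝ} {s e : Finset V}
    (h : ∀ f ∈ pairs s, ∀ s' ∈ triEdge A f, 0 ≤ J s' f ∧ J s' f ≤ 1)
    (h' : ∀ f ∈ pairs s, ∀ s' ∈ triEdge A f, 0 ≤ J' s' f ∧ J' s' f ≤ 1) :
    |rate A J s e - rate A J' s e|
      ≤ ∑ f ∈ (pairs s).erase e, ∑ s' ∈ triEdge A f, |J s' f - J' s' f| := by
  have hin : ∀ {G : Finset V → Finset V → ℝ},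
      (∀ f ∈ pairs s, ∀ s' ∈ triEdge A f, 0 ≤ G s' f ∧ G s' f ≤ 1) →
      ∀ f ∈ (pairs s).erase e, ∀ s' ∈ (triEdge A f).erase s, 0 ≤ 1 - G s' f ∧ 1 - G s' f ≤ 1 :=
    fun hG f hf s' hs' => by
      obtain ⟨a, b⟩ := hG f (mem_of_mem_erase hf) s' (mem_of_mem_erase hs')
      constructor <;> linarith
  have hout : ∀ {G : Finset V → Finset V → ℝ},
      (∀ f ∈ pairs s, ∀ s' ∈ triEdge A f, 0 ≤ G s' f ∧ G s' f ≤ 1) →
      ∀ f ∈ (pairs s).erase e, 0 ≤ ∏ s' ∈ (triEdge A f).erase s, (1 - G s' f) ∧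
        ∏ s' ∈ (triEdge A f).erase s, (1 - G s' f) ≤ 1 := fun hG f hf =>
    ⟨prod_nonneg fun s' hs' => (hin hG f hf s' hs').1,
      prod_le_one (fun s' hs' => (hin hG f hf s' hs').1) fun s' hs' => (hin hG f hf s' hs').2⟩
  refine (abs_prod_sub_prod_le _ (hout h) (hout h')).trans (sum_le_sum fun f hf => ?_)
  refine (abs_prod_sub_prod_le _ (hin h f hf) (hin h' f hf)).trans ?_
  refine le_trans (le_of_eq (sum_congr rfl fun s' _ => ?_))
    (sum_le_sum_of_subset_of_nonneg (erase_subset s _) fun s' _ _ => abs_nonneg _)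
  rw [show 1 - J s' f - (1 - J' s' f) = J' s' f - J s' f by ring, abs_sub_comm]

theorem picard_continuous (A : Finset (Finset V)) :
    ∀ (k : ℕ) (s e : Finset V), Continuous (picard A k s e) := by
  intro k
  induction k with
  | zero => intro s e; exact continuous_const
  | succ k ih =>
    intro s e
    have hc : Continuous fun t => rate A (fun s' f => picard A k s' f t) s e := by
      unfold rate
      exact continuous_finsetProd _ fun f _ => continuous_finsetProd _ fun s' _ =>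
        continuous_const.sub (ih s' f)
    exact intervalIntegral.continuous_primitive (fun a b => hc.intervalIntegrable a b) 0

theorem picard_mem (A : Finset (Finset V)) :
    ∀ (k : ℕ) (s e : Finset V), ∀ x ∈ Set.Icc (0 : ℝ) 1,
      0 ≤ picard A k s e x ∧ picard A k s e x ≤ x := by
  intro k
  induction k with
  | zero => intro s e x hx; exact ⟨le_rfl, hx.1⟩
  | succ k ih =>
    intro s e x hx
    have hc : Continuous fun t => rate A (fun s' f => picard A k s' f t) s e := by
      unfold rate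
      exact continuous_finsetProd _ fun f _ => continuous_finsetProd _ fun s' _ =>
        continuous_const.sub (picard_continuous A k s' f)
    have hm : ∀ t ∈ Set.Icc 0 x, 0 ≤ rate A (fun s' f => picard A k s' f t) s e ∧
        rate A (fun s' f => picard A k s' f t) s e ≤ 1 := fun t ht =>
      rate_mem A fun f _ s' _ => ⟨(ih s' f t ⟨ht.1, ht.2.trans hx.2⟩).1,
        (ih s' f t ⟨ht.1, ht.2.trans hx.2⟩).2.trans (ht.2.trans hx.2)⟩
    refine ⟨intervalIntegral.integral_nonneg hx.1 fun t ht => (hm t ht).1, ?_⟩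
    refine (intervalIntegral.integral_mono_on hx.1 (hc.intervalIntegrable _ _)
      intervalIntegrable_const fun t ht => (hm t ht).2).trans ?_
    simp

/-- The total gap between the iterate and the solution. -/
noncomputable def gap (A : Finset (Finset V)) (I : Finset V → Finset V → ℝ → ℝ) (k : ℕ) (x : ℝ) :
    ℝ :=
  ∑ e ∈ A, ∑ s ∈ triEdge A e, |picard A k s e x - I s e x|

/-- The part of the edges of codegree above `K`. -/
noncomputable def heavyPart (A : Finset (Finset V)) (K : ℕ) : ℝ :=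
  2 * ∑ e ∈ A.filter (fun e => K < codeg A e), (codeg A e : ℝ) ^ 2

variable {A : Finset (Finset V)} {I : Finset V → Finset V → ℝ → ℝ}

theorem IsCav.mem_one (hI : IsCav A I) {f s' : Finset V} (hs : s' ∈ triEdge A f) {t : ℝ}
    (ht : t ∈ Set.Icc (0 : ℝ) 1) : 0 ≤ I s' f t ∧ I s' f t ≤ 1 := by
  obtain ⟨h1, h2⟩ := mem_filter.1 hs
  obtain ⟨a, b, -⟩ := hI s' h1 f h2 t ht
  exact ⟨a, b.trans ht.2⟩

theorem IsCav.rate_continuousOn (hI : IsCav A I) (s e : Finset V) :
    ContinuousOn (fun t => rate A (fun s' f => I s' f t) s e) (Set.Icc 0 1) := by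
  unfold rate
  refine continuousOn_finsetProd _ fun f _ => continuousOn_finsetProd _ fun s' hs' => ?_
  obtain ⟨h1, h2⟩ := mem_filter.1 (mem_of_mem_erase hs')
  exact continuousOn_const.sub fun t ht => (hI s' h1 f h2 t ht).2.2.continuousWithinAt

theorem IsCav.sub_eq (hI : IsCav A I) {s e : Finset V} (hs : s ∈ tri A) (he : e ∈ pairs s)
    {x x' : ℝ} (h0 : 0 ≤ x) (h : x ≤ x') (h1 : x' ≤ 1) :
    I s e x' - I s e x = ∫ t in x..x', rate A (fun s' f => I s' f t) s e := by
  have hsub : Set.Icc x x' ⊆ Set.Icc (0 : ℝ) 1 := Set.Icc_subset_Icc h0 h1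
  refine (intervalIntegral.integral_eq_sub_of_hasDerivAt_of_le h
    (fun t ht => ((hI s hs e he t (hsub ht)).2.2.continuousWithinAt).mono hsub)
    (fun t ht => (hI s hs e he t (hsub ⟨ht.1.le, ht.2.le⟩)).2.2.hasDerivAt
      (Icc_mem_nhds (h0.trans_lt ht.1) (ht.2.trans_le h1))) ?_).symm
  exact ((hI.rate_continuousOn s e).mono hsub).intervalIntegrable_of_Icc h

/-- The gap of one triangle and edge over a time interval. -/
theorem gap_term (hI : IsCav A I) (k : ℕ) {s e : Finset V} (hs : s ∈ tri A) (he : e ∈ pairs s)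
    {x x' : ℝ} (h0 : 0 ≤ x) (h : x ≤ x') (h1 : x' ≤ 1) :
    |picard A (k + 1) s e x' - I s e x'| ≤ |picard A (k + 1) s e x - I s e x|
      + ∫ t in x..x', ∑ f ∈ (pairs s).erase e, ∑ s' ∈ triEdge A f,
          |picard A k s' f t - I s' f t| := by
  have hsub : Set.Icc x x' ⊆ Set.Icc (0 : ℝ) 1 := Set.Icc_subset_Icc h0 h1
  have hc : Continuous fun t => rate A (fun s' f => picard A k s' f t) s e := by
    unfold rate
    exact continuous_finsetProd _ fun f _ => continuous_finsetProd _ fun s' _ =>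
      continuous_const.sub (picard_continuous A k s' f)
  have hP : picard A (k + 1) s e x' - picard A (k + 1) s e x
      = ∫ t in x..x', rate A (fun s' f => picard A k s' f t) s e :=
    intervalIntegral.integral_interval_sub_left (hc.intervalIntegrable _ _)
      (hc.intervalIntegrable _ _)
  have hci := ((hI.rate_continuousOn s e).mono hsub).intervalIntegrable_of_Icc h
    (μ := MeasureTheory.volume)
  have hd : picard A (k + 1) s e x' - I s e x' = (picard A (k + 1) s e x - I s e x)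
      + ∫ t in x..x', (rate A (fun s' f => picard A k s' f t) s e
        - rate A (fun s' f => I s' f t) s e) := by
    rw [intervalIntegral.integral_sub (hc.intervalIntegrable _ _) hci, ← hP,
      ← hI.sub_eq hs he h0 h h1]
    ring
  rw [hd]
  refine (abs_add_le _ _).trans (add_le_add le_rfl ?_)
  refine (intervalIntegral.abs_integral_le_integral_abs h).trans ?_
  refine intervalIntegral.integral_mono_on h ((hc.intervalIntegrable _ _).sub hci).abs ?_
    fun t ht => ?_
  · refine ContinuousOn.intervalIntegrable_of_Icc h (continuousOn_finsetSum _ fun f _ =>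
      continuousOn_finsetSum _ fun s' hs' => ?_)
    obtain ⟨a, b⟩ := mem_filter.1 hs'
    exact ((picard_continuous A k s' f).continuousOn.sub fun t ht =>
      ((hI s' a f b t (hsub ht)).2.2.continuousWithinAt).mono hsub).abs
  · exact abs_rate_sub_le A (fun f _ s' _ => ⟨(picard_mem A k s' f t (hsub ht)).1,
      (picard_mem A k s' f t (hsub ht)).2.trans (hsub ht).2⟩)
      fun f _ s' hs' => hI.mem_one hs' (hsub ht)

theorem sum_pairs_erase_le (D : Finset V → ℝ) :
    ∑ e ∈ A, ∑ s ∈ triEdge A e, ∑ f ∈ (pairs s).erase e, D f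
      = 2 * ∑ f ∈ A, (codeg A f : ℝ) * D f := by
  have hswap : ∀ g : Finset V → Finset V → ℝ,
      ∑ e ∈ A, ∑ s ∈ triEdge A e, g e s = ∑ s ∈ tri A, ∑ e ∈ pairs s, g e s := fun g => by
    refine sum_comm' fun e s => ?_
    simp only [triEdge, mem_filter]
    exact ⟨fun ⟨_, hs, he⟩ => ⟨he, hs⟩, fun ⟨he, hs⟩ => ⟨tri_sub hs he, hs, he⟩⟩
  rw [hswap]
  calc ∑ s ∈ tri A, ∑ e ∈ pairs s, ∑ f ∈ (pairs s).erase e, D f
      = ∑ s ∈ tri A, 2 * ∑ f ∈ pairs s, D f := sum_congr rfl fun s hs => by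
        have hc : (pairs s).card = 3 := by simp [pairs, tri_card hs]
        have e1 : ∀ e ∈ pairs s, ∑ f ∈ (pairs s).erase e, D f
            = (∑ f ∈ pairs s, D f) - D e := fun e he => by
          rw [← sum_erase_add _ _ he]; ring
        rw [sum_congr rfl e1, sum_sub_distrib, sum_const, nsmul_eq_mul, hc]
        push_cast
        ring
    _ = _ := by
        rw [← mul_sum, ← hswap fun e _ => D e]
        simp [triEdge, codeg]

theorem gap_step (hI : IsCav A I) (K k : ℕ) {x x' B : ℝ} (h0 : 0 ≤ x) (h : x ≤ x') (h1 : x' ≤ 1)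
    (hB : ∀ t ∈ Set.Icc x x', gap A I k t ≤ B) :
    gap A I (k + 1) x' ≤ gap A I (k + 1) x + (x' - x) * (2 * K * B + heavyPart A K) := by
  have hsub : Set.Icc x x' ⊆ Set.Icc (0 : ℝ) 1 := Set.Icc_subset_Icc h0 h1
  have hmem : ∀ {e s : Finset V}, s ∈ triEdge A e → s ∈ tri A ∧ e ∈ pairs s := fun hs =>
    mem_filter.1 hs
  refine (sum_le_sum fun e _ => sum_le_sum fun s hs =>
    gap_term hI k (hmem hs).1 (hmem hs).2 h0 h h1).trans ?_
  simp only [sum_add_distrib]
  refine add_le_add le_rfl ?_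
  have hcD : ∀ f : Finset V, ContinuousOn
      (fun t => ∑ s' ∈ triEdge A f, |picard A k s' f t - I s' f t|) (Set.Icc x x') := fun f =>
    continuousOn_finsetSum _ fun s' hs' => ((picard_continuous A k s' f).continuousOn.sub
      fun t ht => ((hI s' (hmem hs').1 f (hmem hs').2 t (hsub ht)).2.2.continuousWithinAt).mono
        hsub).abs
  have hci : ∀ e s : Finset V, IntervalIntegrable
      (fun t => ∑ f ∈ (pairs s).erase e, ∑ s' ∈ triEdge A f, |picard A k s' f t - I s' f t|)
      MeasureTheory.volume x x' := fun e s =>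
    (continuousOn_finsetSum _ fun f _ => hcD f).intervalIntegrable_of_Icc h
  rw [sum_congr rfl fun e _ => (intervalIntegral.integral_finsetSum fun s _ => hci e s).symm,
    ← intervalIntegral.integral_finsetSum fun e _ => (ContinuousOn.intervalIntegrable_of_Icc h
      (continuousOn_finsetSum _ fun s _ => continuousOn_finsetSum _ fun f _ => hcD f))]
  refine (intervalIntegral.integral_mono_on (g := fun _ => 2 * K * B + heavyPart A K) h
    (ContinuousOn.intervalIntegrable_of_Icc h (continuousOn_finsetSum _ fun e _ => continuousOn_finsetSum _ fun s _ =>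
      continuousOn_finsetSum _ fun f _ => hcD f)) intervalIntegrable_const
    fun t ht => ?_).trans (le_of_eq (by simp; ring))
  rw [sum_pairs_erase_le, heavyPart, sum_filter]
  have hB' := hB t ht
  rw [gap] at hB'
  calc 2 * ∑ f ∈ A, (codeg A f : ℝ) * ∑ s' ∈ triEdge A f, |picard A k s' f t - I s' f t|
      ≤ 2 * ∑ f ∈ A, (K * (∑ s' ∈ triEdge A f, |picard A k s' f t - I s' f t|)
          + if K < codeg A f then (codeg A f : ℝ) ^ 2 else 0) := by
        refine mul_le_mul_of_nonneg_left (sum_le_sum fun f _ => ?_) zero_le_two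
        set D := ∑ s' ∈ triEdge A f, |picard A k s' f t - I s' f t| with hD
        have hD0 : 0 ≤ D := sum_nonneg fun _ _ => abs_nonneg _
        have hD1 : D ≤ (codeg A f : ℝ) := by
          refine (sum_le_sum (g := fun _ => (1 : ℝ)) fun s' hs' => ?_).trans
            (le_of_eq (by simp [triEdge, codeg]))
          have a := picard_mem A k s' f t (hsub ht)
          have b := hI.mem_one hs' (hsub ht)
          have := (hsub ht).2
          rw [abs_le]
          constructor <;> linarith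
        split_ifs with hK
        · have : (0 : ℝ) ≤ K * D := by positivity
          nlinarith [mul_le_mul_of_nonneg_left hD1 (Nat.cast_nonneg (α := ℝ) (codeg A f))]
        · rw [add_zero]
          exact mul_le_mul_of_nonneg_right (by exact_mod_cast not_lt.1 hK) hD0
    _ ≤ _ := by
        rw [sum_add_distrib, ← mul_sum]
        nlinarith [mul_le_mul_of_nonneg_left hB' (Nat.cast_nonneg (α := ℝ) K)]

/-- **N3.** The Picard iterates converge to the cavity solution at a rate free of the graph. -/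
theorem picard_gap : PicardGap := by
  intro a A₀ ε ha hε
  obtain ⟨k₀, hk⟩ := decay_of_step (show 0 < a / 2 by linarith) (16 / a ^ 2 * A₀) (A₀ / a) hε
  refine ⟨k₀, fun k hkk V _ _ A I hexp hI => ?_⟩
  refine hk (gap A I) A.card (heavyPart A) (Nat.cast_nonneg _) (fun j => ?_) (fun j x hx => ?_)
    (fun K => ⟨by rw [heavyPart]; positivity, ?_⟩)
    (fun K j x x' B h0 h h1 hB => gap_step hI K j h0 h h1 hB) k hkk
  · refine sum_eq_zero fun e _ => sum_eq_zero fun s hs => ?_
    obtain ⟨h1, h2⟩ := mem_filter.1 hs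
    obtain ⟨a1, b1, -⟩ := hI s h1 e h2 0 ⟨le_rfl, zero_le_one⟩
    obtain ⟨a2, b2⟩ := picard_mem A j s e 0 ⟨le_rfl, zero_le_one⟩
    rw [show I s e 0 = 0 by linarith, show picard A j s e 0 = 0 by linarith, sub_zero, abs_zero]
  · refine ⟨sum_nonneg fun _ _ => sum_nonneg fun _ _ => abs_nonneg _, ?_⟩
    have h1 : gap A I j x ≤ ∑ e ∈ A, Real.exp (a * (codeg A e : ℝ)) / a := by
      refine sum_le_sum fun e _ => ?_
      refine (sum_le_sum (g := fun _ => (1 : ℝ)) fun s hs => ?_).trans ?_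
      · obtain ⟨h1, h2⟩ := picard_mem A j s e x hx
        obtain ⟨h3, h4⟩ := hI.mem_one hs hx
        rw [abs_le]
        constructor <;> linarith [hx.2]
      · rw [sum_const, nsmul_eq_mul, mul_one, le_div_iff₀ ha,
          show ((triEdge A e).card : ℝ) = codeg A e from rfl]
        linarith [Real.add_one_le_exp (a * (codeg A e : ℝ))]
    rw [← sum_div] at h1
    refine h1.trans ?_
    rw [div_mul_eq_mul_div]
    exact div_le_div_of_nonneg_right hexp ha.le
  · calc heavyPart A K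
        ≤ 2 * ∑ e ∈ A, 8 / a ^ 2 * Real.exp (-(a / 2) * K) * Real.exp (a * (codeg A e : ℝ)) := by
          refine mul_le_mul_of_nonneg_left ?_ zero_le_two
          rw [sum_filter]
          refine sum_le_sum fun e _ => ?_
          split_ifs with hKe
          · have hc : (K : ℝ) ≤ codeg A e := by exact_mod_cast hKe.le
            have h1 := Real.quadratic_le_exp_of_nonneg
              (show 0 ≤ a / 2 * (codeg A e : ℝ) by positivity)
            have h2 : (0 : ℝ) ≤ a / 2 * (codeg A e : ℝ) := by positivity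
            have h3 : Real.exp (a / 2 * (codeg A e : ℝ))
                ≤ Real.exp (-(a / 2) * K) * Real.exp (a * (codeg A e : ℝ)) := by
              rw [← Real.exp_add]
              exact Real.exp_le_exp.2 (by nlinarith)
            rw [mul_assoc, div_mul_eq_mul_div, le_div_iff₀ (by positivity)]
            nlinarith
          · positivity
      _ = 16 / a ^ 2 * Real.exp (-(a / 2) * K) * expCodeg a A := by
          rw [expCodeg, ← mul_sum]; ring
      _ ≤ 16 / a ^ 2 * Real.exp (-(a / 2) * K) * (A₀ * A.card) :=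
          mul_le_mul_of_nonneg_left hexp (by positivity)
      _ = _ := by ring

end Vale.Agent.P046.Const
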