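import Vale.Agent.P046.Gap.Main
import Vale.Agent.P046.Const.Assemble
import Vale.Agent.P046.Const.Level
import Vale.Agent.P046.Const.LocalLaw
import Vale.Agent.P046.Const.CavSol
import Vale.Agent.P046.Const.Picard
import Vale.Agent.P046.Const.NoCycles
import Vale.Agent.P046.Const.OdeMain

/-!
P046: the leave of random triangle removal is asymptotic to n^(3/2) / (2 sqrt 2).
-/

namespace Vale.Agent.P046.Const

/-- The leading constant of the leave. -/
theorem const_limit : ConstLimit :=
  const_limit_of good_level no_cycles (Law.local_law_of picard_gap) ode_target Law.cav_exists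
    Gap.leave_order.1

end Vale.Agent.P046.Const
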