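import Vale.Agent.P046.Const.OdeBasic
import Vale.Agent.P046.Gap.Rel
import Vale.Agent.P046.Const.Defs

/-!
P046, leading constant, N5: the deviation equation of the tree recursion.

`I s e x` is the probability that the triangle `s` has killed the edge `e` by time `x` in the tree
recursion. If the deviations of the codegrees and the defect of the link forms are at most
`D ^ (-999/1000)`, then the final survival probabilities sum to `E (1 + 2 D) ^ (-1/2)`.
-/

namespace Vale.Agent.P046.Const.Ode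

open Finset Real Vale.Agent.P046.Track Vale.Agent.P046.Gap

variable {V : Type} [Fintype V] [DecidableEq V]

/-- The probability that `e` survives the triangles other than `t`. -/
noncomputable def mval (A : Finset (Finset V)) (I : Finset V → Finset V → ℝ → ℝ) (t e : Finset V)
    (x : ℝ) : ℝ :=
  ∏ s ∈ (triEdge A e).erase t, (1 - I s e x)

/-- The probability that `e` survives. -/
noncomputable def uval (A : Finset (Finset V)) (I : Finset V → Finset V → ℝ → ℝ) (e : Finset V)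
    (x : ℝ) : ℝ :=
  live A (fun s f => I s f x) e

/-- The rate of a triangle in the three edges. -/
noncomputable def tot (A : Finset (Finset V)) (I : Finset V → Finset V → ℝ → ℝ) (s : Finset V)
    (x : ℝ) : ℝ :=
  ∏ e ∈ pairs s, mval A I s e x

/-- The pointwise inequality behind the contraction. -/
def Pointwise (τ γ : ℝ) (g : ℝ → ℝ) : Prop :=
  (∀ r : ℝ, 0 < r → -4 ≤ g r ∧ g r ≤ 4) ∧
    ∀ a b c : ℝ, 0 < a → 0 < b → 0 < c →
      -log (a * b * c) * (a * b * c) + (a - 1 + (b - 1) + (c - 1)) + (ent a + ent b + ent c)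
        ≤ -2 * (2 * τ * (g a ^ 2 + g b ^ 2 + g c ^ 2) + (g a * g b + g a * g c + g b * g c))
          + γ * (ent a + ent b + ent c)

variable {A : Finset (Finset V)} {I : Finset V → Finset V → ℝ → ℝ}

theorem mem_triEdge {s e : Finset V} : s ∈ triEdge A e ↔ s ∈ tri A ∧ e ∈ pairs s := mem_filter

theorem sum_edges_triEdge (f : Finset V → Finset V → ℝ) :
    ∑ e ∈ A, ∑ s ∈ triEdge A e, f s e = ∑ s ∈ tri A, ∑ e ∈ pairs s, f s e :=
  sum_comm' fun e s => by
    rw [mem_triEdge]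
    exact ⟨fun h => ⟨h.2.2, h.2.1⟩, fun h => ⟨tri_sub h.2 h.1, h.2, h.1⟩⟩

section

variable (hI : IsCav A I) {x : ℝ}

include hI

theorem factor_bounds {s e : Finset V} (hs : s ∈ triEdge A e) (hx : x ∈ Set.Icc (0 : ℝ) 1) :
    0 ≤ 1 - I s e x ∧ 1 - I s e x ≤ 1 := by
  obtain ⟨h1, h2⟩ := mem_triEdge.1 hs
  have := (hI s h1 e h2 x hx).1
  have := (hI s h1 e h2 x hx).2.1
  exact ⟨by linarith [hx.2], by linarith⟩

theorem mval_bounds (t e : Finset V) (hx : x ∈ Set.Icc (0 : ℝ) 1) :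
    0 ≤ mval A I t e x ∧ mval A I t e x ≤ 1 :=
  ⟨prod_nonneg fun _ hs => (factor_bounds hI (mem_of_mem_erase hs) hx).1,
    Finset.prod_le_one (fun _ hs => (factor_bounds hI (mem_of_mem_erase hs) hx).1)
      fun _ hs => (factor_bounds hI (mem_of_mem_erase hs) hx).2⟩

theorem uval_bounds (e : Finset V) (hx : x ∈ Set.Icc (0 : ℝ) 1) :
    0 ≤ uval A I e x ∧ uval A I e x ≤ 1 :=
  ⟨prod_nonneg fun _ hs => (factor_bounds hI hs hx).1,
    Finset.prod_le_one (fun _ hs => (factor_bounds hI hs hx).1) fun _ hs => (factor_bounds hI hs hx).2⟩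

theorem uval_pos (e : Finset V) (hx0 : 0 ≤ x) (hx1 : x < 1) : 0 < uval A I e x :=
  prod_pos fun s hs => by
    obtain ⟨h1, h2⟩ := mem_triEdge.1 hs
    linarith [(hI s h1 e h2 x ⟨hx0, hx1.le⟩).2.1]

theorem uval_eq {s e : Finset V} (hs : s ∈ tri A) (he : e ∈ pairs s) (x : ℝ) :
    uval A I e x = (1 - I s e x) * mval A I s e x :=
  (mul_prod_erase (triEdge A e) (fun t => 1 - I t e x) (mem_triEdge.2 ⟨hs, he⟩)).symm

omit hI in
theorem tot_eq {s e : Finset V} (he : e ∈ pairs s) (x : ℝ) :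
    tot A I s x = mval A I s e x * ∏ f ∈ (pairs s).erase e, mval A I s f x :=
  (mul_prod_erase (pairs s) (fun f => mval A I s f x) he).symm

theorem tot_nonneg (s : Finset V) (hx : x ∈ Set.Icc (0 : ℝ) 1) : 0 ≤ tot A I s x :=
  prod_nonneg fun _ _ => (mval_bounds hI _ _ hx).1

theorem hasDeriv_uval (e : Finset V) (hx : x ∈ Set.Icc (0 : ℝ) 1) :
    HasDerivWithinAt (uval A I e) (-∑ s ∈ triEdge A e, tot A I s x) (Set.Icc 0 1) x := by
  refine (HasDerivWithinAt.fun_finset_prod (u := triEdge A e)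
    (f' := fun s => -∏ f ∈ (pairs s).erase e, mval A I s f x) fun s hs =>
      ((hI s (mem_triEdge.1 hs).1 e (mem_triEdge.1 hs).2 x hx).2.2).const_sub 1).congr_deriv ?_
  rw [← sum_neg_distrib]
  refine sum_congr rfl fun s hs => ?_
  rw [smul_eq_mul, mul_neg, tot_eq (mem_triEdge.1 hs).2]
  rfl

theorem monotone_I {s e : Finset V} (hs : s ∈ tri A) (he : e ∈ pairs s) :
    MonotoneOn (I s e) (Set.Icc 0 1) :=
  monotoneOn_of_hasDerivWithinAt_nonneg (convex_Icc 0 1)
    (fun _ ht => ((hI s hs e he _ ht).2.2).continuousWithinAt)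
    (fun _ ht => ((hI s hs e he _ (interior_subset ht)).2.2).mono interior_subset)
    fun _ ht => prod_nonneg fun _ _ => (mval_bounds hI _ _ (interior_subset ht)).1

theorem tot_antitone (s : Finset V) : AntitoneOn (tot A I s) (Set.Icc 0 1) := by
  intro a ha b hb hab
  refine Finset.prod_le_prod (fun f _ => (mval_bounds hI _ _ hb).1) fun f _ => ?_
  refine Finset.prod_le_prod (fun t ht => (factor_bounds hI (mem_of_mem_erase ht) hb).1) fun t ht => ?_
  obtain ⟨h1, h2⟩ := mem_triEdge.1 (mem_of_mem_erase ht)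
  linarith [monotone_I hI h1 h2 ha hb hab]

/-- The kills after time `x0` are few, as the rates decrease. -/
theorem late_kills {x0 : ℝ} (h0 : 0 < x0) (h1 : x0 ≤ 1) (e : Finset V) :
    uval A I e 1 ≤ uval A I e x0 ∧
      uval A I e x0 - uval A I e 1 ≤ 2 * (1 - x0) / x0 * uval A I e (x0 / 2) := by
  let P := fun t => ∑ s ∈ triEdge A e, tot A I s t
  let G := fun t => uval A I e t + t * P x0
  have hP : AntitoneOn P (Set.Icc 0 1) := fun a ha b hb hab =>
    sum_le_sum fun s _ => tot_antitone hI s ha hb hab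
  have hP0 : 0 ≤ P x0 := sum_nonneg fun s _ => tot_nonneg hI s ⟨h0.le, h1⟩
  have hG : ∀ t ∈ Set.Icc (0 : ℝ) 1, HasDerivWithinAt G (-P t + P x0) (Set.Icc 0 1) t :=
    fun t ht =>
      ((hasDeriv_uval hI e ht).add
        (((hasDerivAt_id t).mul_const (P x0)).hasDerivWithinAt)).congr_deriv (by simp [P])
  have hu : uval A I e 1 ≤ uval A I e x0 := by
    refine antitoneOn_of_hasDerivWithinAt_nonpos (convex_Icc 0 1)
      (fun t ht => (hasDeriv_uval hI e ht).continuousWithinAt)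
      (f' := fun t => -P t)
      (fun t ht => (hasDeriv_uval hI e (interior_subset ht)).mono interior_subset)
      (fun t ht => neg_nonpos.2 (sum_nonneg fun s _ => tot_nonneg hI s (interior_subset ht)))
      ⟨h0.le, h1⟩ ⟨zero_le_one, le_rfl⟩ h1
  have hup : G x0 ≤ G 1 := by
    have hsub : Set.Icc x0 1 ⊆ Set.Icc (0 : ℝ) 1 := Set.Icc_subset_Icc h0.le le_rfl
    refine monotoneOn_of_hasDerivWithinAt_nonneg (convex_Icc x0 1)
      (fun t ht => ((hG t (hsub ht)).mono hsub).continuousWithinAt)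
      (fun t ht => (hG t (hsub (interior_subset ht))).mono (interior_subset.trans hsub))
      (fun t ht => ?_) ⟨le_rfl, h1⟩ ⟨h1, le_rfl⟩ h1
    linarith [hP ⟨h0.le, h1⟩ (hsub (interior_subset ht)) (interior_subset ht).1]
  have hdown : G x0 ≤ G (x0 / 2) := by
    have hsub : Set.Icc (x0 / 2) x0 ⊆ Set.Icc (0 : ℝ) 1 :=
      Set.Icc_subset_Icc (by linarith) h1
    refine antitoneOn_of_hasDerivWithinAt_nonpos (convex_Icc (x0 / 2) x0)
      (fun t ht => ((hG t (hsub ht)).mono hsub).continuousWithinAt)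
      (fun t ht => (hG t (hsub (interior_subset ht))).mono (interior_subset.trans hsub))
      (fun t ht => ?_) ⟨le_rfl, by linarith⟩ ⟨by linarith, le_rfl⟩ (by linarith)
    linarith [hP (hsub (interior_subset ht)) ⟨h0.le, h1⟩ (interior_subset ht).2]
  refine ⟨hu, ?_⟩
  simp only [G] at hup hdown
  have k1 : P x0 ≤ 2 / x0 * uval A I e (x0 / 2) := by
    rw [div_mul_eq_mul_div, le_div_iff₀ h0]
    linarith [(uval_bounds hI e ⟨h0.le, h1⟩).1]
  calc uval A I e x0 - uval A I e 1 ≤ (1 - x0) * P x0 := by linarith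
    _ ≤ (1 - x0) * (2 / x0 * uval A I e (x0 / 2)) :=
        mul_le_mul_of_nonneg_left k1 (by linarith)
    _ = _ := by ring

end

/-- The ratio to the regular solution. -/
noncomputable def ratio (A : Finset (Finset V)) (I : Finset V → Finset V → ℝ → ℝ) (e : Finset V)
    (x : ℝ) : ℝ :=
  uval A I e x / ubar (dd A) x

/-- The total entropy. -/
noncomputable def entSum (A : Finset (Finset V)) (I : Finset V → Finset V → ℝ → ℝ) (x : ℝ) : ℝ :=
  ∑ e ∈ A, ent (ratio A I e x)

/-- The total of the killing probabilities. -/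
noncomputable def killSum (A : Finset (Finset V)) (I : Finset V → Finset V → ℝ → ℝ) (x : ℝ) : ℝ :=
  ∑ s ∈ tri A, ∑ e ∈ pairs s, I s e x

/-- The squared deviations of the codegrees. -/
noncomputable def devSq (A : Finset (Finset V)) : ℝ := ∑ e ∈ A, dev A e ^ 2

/-- The link forms tested on a function of the edges. -/
theorem link_bound (τ : ℝ) (f : Finset V → ℝ) (hf : ∀ e, -4 ≤ f e ∧ f e ≤ 4) :
    -∑ s ∈ tri A, (2 * τ * ∑ e ∈ pairs s, f e ^ 2
      + ((∑ e ∈ pairs s, f e) ^ 2 - ∑ e ∈ pairs s, f e ^ 2) / 2) ≤ psiSum τ A := by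
  rw [← sum_congr rfl fun s hs => phi_sum τ f (tri_card hs)]
  exact le_psiSum τ A fun v => ⟨fun u => (hf _).1, fun u => (hf _).2⟩

section

variable (hI : IsCav A I) {x x0 : ℝ} (hx : x ∈ Set.Icc (0 : ℝ) x0) (hx0 : x0 < 1) (hD : 0 < dd A)

include hI hx hx0 hD

theorem ratio_pos (e : Finset V) : 0 < ratio A I e x :=
  div_pos (uval_pos hI e hx.1 (lt_of_le_of_lt hx.2 hx0)) (ubar_pos hD.le hx.1)

theorem entSum_nonneg : 0 ≤ entSum A I x :=
  sum_nonneg fun e _ => ent_nonneg (ratio_pos hI hx hx0 hD e)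

/-- The correction of one triangle and its rate. -/
theorem tri_term {s : Finset V} (hs : s ∈ tri A) :
    tot A I s x / ubar (dd A) x * -(∑ e ∈ pairs s, log (ratio A I e x))
      ≤ ubar (dd A) x ^ 2 * ((-∑ e ∈ pairs s, log (ratio A I e x))
          * exp (-(-∑ e ∈ pairs s, log (ratio A I e x)))
        + 1 / (1 - x0) ^ 3 * ∑ e ∈ pairs s, I s e x) := by
  have hb := ubar_pos hD.le hx.1
  have hx1 : x ∈ Set.Icc (0 : ℝ) 1 := ⟨hx.1, hx.2.trans hx0.le⟩
  obtain ⟨a, b, c, hab, hac, hbc, he⟩ := card_eq_three.1 (pairs_card hs)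
  have hA : ∀ e ∈ pairs s, 0 ≤ I s e x ∧ I s e x ≤ x0 := fun e h =>
    ⟨(hI s hs e h x hx1).1, ((hI s hs e h x hx1).2.1).trans hx.2⟩
  obtain ⟨a0, a1⟩ := hA a (by simp [he])
  obtain ⟨b0, b1⟩ := hA b (by simp [he])
  obtain ⟨c0, c1⟩ := hA c (by simp [he])
  let ρ := 1 / ((1 - I s a x) * (1 - I s b x) * (1 - I s c x))
  have hpos : 0 < (1 - I s a x) * (1 - I s b x) * (1 - I s c x) :=
    mul_pos (mul_pos (by linarith) (by linarith)) (by linarith)
  have hρ : 1 ≤ ρ := (one_le_div hpos).2 (mul_le_one₀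
    (mul_le_one₀ (by linarith) (by linarith) (by linarith)) (by linarith) (by linarith))
  have hρ' : ρ - 1 ≤ 1 / (1 - x0) ^ 3 * (I s a x + I s b x + I s c x) :=
    inv_three_le (by linarith) a0 b0 c0 (by linarith) (by linarith) (by linarith)
  have hexp : exp (∑ e ∈ pairs s, log (ratio A I e x)) = ∏ e ∈ pairs s, ratio A I e x := by
    rw [exp_sum]
    exact prod_congr rfl fun e _ => exp_log (ratio_pos hI hx hx0 hD e)
  have hrate : tot A I s x / ubar (dd A) x
      = ubar (dd A) x ^ 2 * (ρ * ∏ e ∈ pairs s, ratio A I e x) := by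
    have e1 := uval_eq hI hs (e := a) (by simp [he]) x
    have e2 := uval_eq hI hs (e := b) (by simp [he]) x
    have e3 := uval_eq hI hs (e := c) (by simp [he]) x
    simp only [tot, ratio, he, ρ]
    simp [hab, hac, hbc, e1, e2, e3]
    have : 1 - I s a x ≠ 0 := by linarith
    have : 1 - I s b x ≠ 0 := by linarith
    have : 1 - I s c x ≠ 0 := by linarith
    field_simp
  have hsum : ∑ e ∈ pairs s, I s e x = I s a x + I s b x + I s c x := by
    simp [he, hab, hac, hbc]; ring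
  rw [hrate, neg_neg, hexp, hsum, mul_assoc]
  refine mul_le_mul_of_nonneg_left ?_ (sq_nonneg _)
  have h := term_le (S := -∑ e ∈ pairs s, log (ratio A I e x)) hρ
  rw [neg_neg, hexp] at h
  linarith

/-- The derivative of the entropy along the recursion. -/
theorem hasDeriv_entSum :
    HasDerivWithinAt (entSum A I)
      (dd A * ubar (dd A) x ^ 2 * (∑ e ∈ A, log (ratio A I e x) * ratio A I e x)
        + ∑ s ∈ tri A, tot A I s x / ubar (dd A) x * -(∑ e ∈ pairs s, log (ratio A I e x)))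
      (Set.Icc 0 x0) x := by
  have h : ∀ e ∈ A, HasDerivWithinAt (fun t => ent (ratio A I e t))
      (dd A * ubar (dd A) x ^ 2 * (log (ratio A I e x) * ratio A I e x)
        + log (ratio A I e x) * ((-∑ s ∈ triEdge A e, tot A I s x) / ubar (dd A) x))
      (Set.Icc 0 x0) x := fun e _ =>
    hasDerivWithinAt_ent hD.le hx.1 (uval_pos hI e hx.1 (lt_of_le_of_lt hx.2 hx0))
      ((hasDeriv_uval hI e ⟨hx.1, hx.2.trans hx0.le⟩).mono
        (Set.Icc_subset_Icc le_rfl hx0.le))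
  refine (HasDerivWithinAt.fun_sum h).congr_deriv ?_
  rw [sum_add_distrib, mul_sum]
  congr 1
  simp only [neg_div, sum_div, mul_neg, mul_sum]
  rw [sum_neg_distrib, sum_edges_triEdge (fun s e => log (ratio A I e x)
    * (tot A I s x / ubar (dd A) x)), ← sum_neg_distrib]
  exact sum_congr rfl fun s _ => neg_inj.2 (sum_congr rfl fun e _ => mul_comm _ _)

/-- The derivative of the killing probabilities. -/
theorem hasDeriv_killSum :
    ∃ H' : ℝ, HasDerivWithinAt (killSum A I) H' (Set.Icc 0 x0) x ∧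
      H' ≤ 3 / (1 - x0) ^ 2 * dd A * (24 * A.card * ubar (dd A) x ^ 2
        + 9 / 2 * ubar (dd A) x * entSum A I x + 1 / 2 * devSq A) := by
  have hb := ubar_pos hD.le hx.1
  have hx1 : x ∈ Set.Icc (0 : ℝ) 1 := ⟨hx.1, hx.2.trans hx0.le⟩
  refine ⟨∑ s ∈ tri A, ∑ e ∈ pairs s, ∏ f ∈ (pairs s).erase e, mval A I s f x,
    HasDerivWithinAt.fun_sum fun s hs => HasDerivWithinAt.fun_sum fun e he =>
      ((hI s hs e he x hx1).2.2).mono (Set.Icc_subset_Icc le_rfl hx0.le), ?_⟩
  have h1 : ∀ s ∈ tri A, ∑ e ∈ pairs s, ∏ f ∈ (pairs s).erase e, mval A I s f x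
      ≤ 3 / (1 - x0) ^ 2 * ∑ f ∈ pairs s, uval A I f x ^ 2 := by
    intro s hs
    have hm : ∀ f ∈ pairs s, (1 - x0) ^ 2 * mval A I s f x ^ 2 ≤ uval A I f x ^ 2 := by
      intro f hf
      rw [uval_eq hI hs hf, mul_pow]
      have h := ((hI s hs f hf x hx1).2.1).trans hx.2
      have h' : 0 ≤ 1 - x0 := by linarith
      gcongr
    have hE : ∀ e ∈ pairs s, ∏ f ∈ (pairs s).erase e, mval A I s f x
        ≤ ∑ f ∈ pairs s, mval A I s f x ^ 2 := by
      intro e he
      have hc : ((pairs s).erase e).card = 2 := by rw [card_erase_of_mem he, pairs_card hs]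
      obtain ⟨b, c, hbc, hec⟩ := card_eq_two.1 hc
      have h2 : ∑ f ∈ (pairs s).erase e, mval A I s f x ^ 2
          ≤ ∑ f ∈ pairs s, mval A I s f x ^ 2 :=
        sum_le_sum_of_subset_of_nonneg (erase_subset _ _) fun _ _ _ => sq_nonneg _
      rw [hec, sum_pair hbc] at h2
      rw [hec, prod_pair hbc]
      nlinarith [two_mul_le_add_sq (mval A I s b x) (mval A I s c x),
        mul_nonneg (mval_bounds hI s b hx1).1 (mval_bounds hI s c hx1).1]
    calc _ ≤ ∑ _e ∈ pairs s, ∑ f ∈ pairs s, mval A I s f x ^ 2 := sum_le_sum hE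
      _ = 3 * ∑ f ∈ pairs s, mval A I s f x ^ 2 := by
          rw [sum_const, pairs_card hs]; norm_num
      _ ≤ _ := by
          rw [div_mul_eq_mul_div, le_div_iff₀ (by nlinarith : (0 : ℝ) < (1 - x0) ^ 2),
            mul_assoc, sum_mul]
          gcongr with f hf
          linarith [hm f hf]
  refine (sum_le_sum h1).trans ?_
  rw [← mul_sum, sum_tri_pairs, mul_assoc]
  refine mul_le_mul_of_nonneg_left ?_ (div_nonneg (by norm_num) (sq_nonneg _))
  have h2 : ∀ e ∈ A, (codeg A e : ℝ) * uval A I e x ^ 2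
      ≤ dd A * (24 * ubar (dd A) x ^ 2 + 9 / 2 * ubar (dd A) x * ent (ratio A I e x)
        + 1 / 2 * dev A e ^ 2) := by
    intro e _
    have hu : ubar (dd A) x * ratio A I e x = uval A I e x := by
      simp only [ratio]; field_simp
    obtain ⟨u0, u1⟩ := uval_bounds hI e hx1
    have h := sq_le_regular hb (ratio_pos hI hx hx0 hD e) (hu.le.trans u1)
    rw [hu] at h
    have hc : (codeg A e : ℝ) = dd A * (1 + dev A e) := by
      simp only [dev]; field_simp; ring
    rw [hc, mul_assoc]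
    refine mul_le_mul_of_nonneg_left ?_ hD.le
    have h4 : dev A e * uval A I e x ^ 2 ≤ (dev A e ^ 2 + uval A I e x ^ 2) / 2 := by
      nlinarith [sq_nonneg (dev A e - uval A I e x ^ 2), mul_le_mul u1 u1 u0 zero_le_one,
        mul_nonneg (sq_nonneg (uval A I e x)) (by nlinarith : (0 : ℝ) ≤ 1 - uval A I e x ^ 2)]
    nlinarith [h4, h]
  refine (sum_le_sum h2).trans (le_of_eq ?_)
  rw [← mul_sum, sum_add_distrib, sum_add_distrib, sum_const, nsmul_eq_mul, ← mul_sum, ← mul_sum]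
  simp only [entSum, devSq]
  ring

/-- The drift of the entropy, up to the killing probabilities and the sources. -/
theorem entSum_deriv_le {τ γ ε Cy L : ℝ} {g : ℝ → ℝ} (hp : Pointwise τ γ g) (hγ : 1 ≤ γ)
    (hγ' : γ ≤ 2) (hCy0 : 0 ≤ Cy)
    (hCy : ∀ y r R c : ℝ, -1 ≤ y → 0 < r → r ≤ R → 1 ≤ R → 0 ≤ c → c ≤ 1 →
      c * (y * ent r) + y * (1 - r) ≤ 2 * ε * ent r + Cy * y ^ 2 * (R * (1 + log R)))
    (hL : ∀ R : ℝ, R = (ubar (dd A) x)⁻¹ → log R ≤ L) :
    dd A * ubar (dd A) x ^ 2 * (∑ e ∈ A, log (ratio A I e x) * ratio A I e x)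
        + ∑ s ∈ tri A, tot A I s x / ubar (dd A) x * -(∑ e ∈ pairs s, log (ratio A I e x))
      ≤ dd A * ubar (dd A) x ^ 2 * ((γ + 2 * ε) * entSum A I x + 2 * psiSum τ A / dd A
        + Cy * (1 + L) * devSq A / ubar (dd A) x
        + 1 / (1 - x0) ^ 3 * killSum A I x / dd A) := by
  have hb := ubar_pos hD.le hx.1
  have hr := ratio_pos hI hx hx0 hD
  refine (add_le_add le_rfl (sum_le_sum fun s hs => tri_term hI hx hx0 hD hs)).trans ?_
  rw [← mul_sum, sum_add_distrib, ← mul_sum]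
  have hlink := link_bound (A := A) τ (fun e => g (ratio A I e x)) fun e => hp.1 _ (hr e)
  have hpt : ∀ s ∈ tri A, (-∑ e ∈ pairs s, log (ratio A I e x))
      * exp (-(-∑ e ∈ pairs s, log (ratio A I e x)))
      ≤ -2 * (2 * τ * ∑ e ∈ pairs s, g (ratio A I e x) ^ 2
          + ((∑ e ∈ pairs s, g (ratio A I e x)) ^ 2
            - ∑ e ∈ pairs s, g (ratio A I e x) ^ 2) / 2)
        + ∑ e ∈ pairs s, ((γ - 1) * ent (ratio A I e x) - (ratio A I e x - 1)) := by
    intro s hs
    obtain ⟨a, b, c, hab, hac, hbc, he⟩ := card_eq_three.1 (pairs_card hs)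
    have es : ∀ F : Finset V → ℝ, ∑ e ∈ ({a, b, c} : Finset (Finset V)), F e = F a + F b + F c :=
      fun F => by simp [hab, hac, hbc]; ring
    simp only [he, es, neg_neg]
    have h := hp.2 _ _ _ (hr a) (hr b) (hr c)
    rw [← log_mul (hr a).ne' (hr b).ne', ← log_mul (mul_pos (hr a) (hr b)).ne' (hr c).ne',
      exp_log (mul_pos (mul_pos (hr a) (hr b)) (hr c))]
    linarith
  have h1 := sum_le_sum hpt
  rw [sum_add_distrib, ← mul_sum, sum_tri_pairs A
    fun e => (γ - 1) * ent (ratio A I e x) - (ratio A I e x - 1)] at h1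
  have h2 : ∑ s ∈ tri A, (-∑ e ∈ pairs s, log (ratio A I e x))
      * exp (-(-∑ e ∈ pairs s, log (ratio A I e x)))
      ≤ 2 * psiSum τ A + ∑ e ∈ A, (codeg A e : ℝ)
        * ((γ - 1) * ent (ratio A I e x) - (ratio A I e x - 1)) := by linarith
  have h3 : ∀ e ∈ A, log (ratio A I e x) * ratio A I e x + (codeg A e : ℝ)
      * ((γ - 1) * ent (ratio A I e x) - (ratio A I e x - 1)) / dd A
      ≤ (γ + 2 * ε) * ent (ratio A I e x)
        + Cy * (1 + L) * dev A e ^ 2 / ubar (dd A) x := by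
    intro e _
    have hc : (codeg A e : ℝ) = dd A * (1 + dev A e) := by
      simp only [dev]; field_simp; ring
    rw [hc, mul_assoc, mul_div_cancel_left₀ _ hD.ne']
    have hR : ratio A I e x ≤ (ubar (dd A) x)⁻¹ := by
      rw [ratio, div_eq_mul_inv]
      exact mul_le_of_le_one_left (inv_nonneg.2 hb.le)
        (uval_bounds hI e ⟨hx.1, hx.2.trans hx0.le⟩).2
    have hR1 : 1 ≤ (ubar (dd A) x)⁻¹ := one_le_inv₀ hb |>.2 (ubar_le_one hD.le hx.1)
    have h := hCy (dev A e) _ _ (γ - 1) (dev_ge' A e) (hr e) hR hR1 (by linarith) (by linarith)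
    have hR0 : 0 ≤ (ubar (dd A) x)⁻¹ := inv_nonneg.2 hb.le
    have h' : Cy * dev A e ^ 2 * ((ubar (dd A) x)⁻¹ * (1 + log (ubar (dd A) x)⁻¹))
        ≤ Cy * (1 + L) * dev A e ^ 2 / ubar (dd A) x := by
      rw [div_eq_mul_inv]
      have := mul_le_mul_of_nonneg_left (hL _ rfl)
        (mul_nonneg (mul_nonneg hCy0 (sq_nonneg (dev A e))) hR0)
      linarith
    have he : log (ratio A I e x) * ratio A I e x
        = ent (ratio A I e x) + (ratio A I e x - 1) := by simp only [ent]; ring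
    linarith
  have h4 := sum_le_sum h3
  simp only [sum_add_distrib, ← mul_sum, ← sum_div] at h4
  have h5 := mul_le_mul_of_nonneg_left h2 (sq_nonneg (ubar (dd A) x))
  have h6 := mul_le_mul_of_nonneg_left h4 (mul_nonneg hD.le (sq_nonneg (ubar (dd A) x)))
  have e1 : dd A * ubar (dd A) x ^ 2 * ((∑ e ∈ A, (codeg A e : ℝ)
        * ((γ - 1) * ent (ratio A I e x) - (ratio A I e x - 1))) / dd A)
      = ubar (dd A) x ^ 2 * ∑ e ∈ A, (codeg A e : ℝ)
        * ((γ - 1) * ent (ratio A I e x) - (ratio A I e x - 1)) := by field_simp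
  have e2 : dd A * ubar (dd A) x ^ 2 * (2 * psiSum τ A / dd A)
      = ubar (dd A) x ^ 2 * (2 * psiSum τ A) := by field_simp
  have e3 : dd A * ubar (dd A) x ^ 2 * (1 / (1 - x0) ^ 3 * killSum A I x / dd A)
      = ubar (dd A) x ^ 2 * (1 / (1 - x0) ^ 3 * killSum A I x) := by field_simp
  simp only [entSum, devSq, killSum] at h6 e3 ⊢
  linarith

end

theorem inv_ubar_rpow {D x : ℝ} (hD : 0 ≤ D) (hx : 0 ≤ x) (hx1 : x ≤ 1) :
    (ubar D x ^ (399 / 200 : ℝ))⁻¹ ≤ (1 + 2 * D) ^ (399 / 400 : ℝ) := by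
  have h0 : 0 ≤ 1 + 2 * D * x := by positivity
  rw [ubar, inv_rpow (sqrt_nonneg _), inv_inv, sqrt_eq_rpow, ← rpow_mul h0,
    show (1 / 2 : ℝ) * (399 / 200) = 399 / 400 by norm_num]
  exact rpow_le_rpow h0 (by linarith [mul_le_mul_of_nonneg_left hx1 hD]) (by norm_num)

/-- The entropy stays below the barrier. -/
theorem entropy_le {τ γ : ℝ} {g : ℝ → ℝ} (hp : Pointwise τ γ g) (hγ : 1 ≤ γ)
    (hγ' : γ ≤ 199 / 100) {x0 : ℝ} (h0 : x0 < 1) :
    ∃ C D0 : ℝ, 0 ≤ C ∧ ∀ (V : Type) [Fintype V] [DecidableEq V] (A : Finset (Finset V))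
      (I : Finset V → Finset V → ℝ → ℝ), IsCav A I → D0 ≤ dd A → 1 ≤ dd A →
        ∀ x ∈ Set.Icc (0 : ℝ) x0, entSum A I x ≤ C * (1 + log (1 + 2 * dd A))
          * (devSq A + psiSum τ A / dd A + A.card / dd A) * (1 + 2 * dd A) ^ (399 / 400 : ℝ) := by
  obtain ⟨Cy, hCy0, hCy⟩ := edge_source (ε := 1 / 1000) (by norm_num)
  let a := 1 / (1 - x0) ^ 3 / (399 / 200)
  let C3 := a * (3 / (1 - x0) ^ 2)
  have hq : 0 < 1 - x0 := by linarith
  have ha : 0 ≤ a := by positivity
  have hC3 : 0 ≤ C3 := by positivity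
  refine ⟨2 * (2 + 26 * C3 + Cy), (3000 * C3) ^ 2, by positivity, ?_⟩
  intro V _ _ A I hI hD0 hD1 x hx
  have hD : 0 < dd A := by linarith
  let L := log (1 + 2 * dd A)
  have hL0 : 0 ≤ L := log_nonneg (by linarith)
  have hY : 0 ≤ devSq A := sum_nonneg fun e _ => sq_nonneg _
  have hP : 0 ≤ psiSum τ A / dd A := div_nonneg (psiSum_nonneg τ A) hD.le
  have hN : 0 ≤ (A.card : ℝ) / dd A := by positivity
  let J := fun t => entSum A I t + a / dd A * killSum A I t
  let S0 := 2 * (psiSum τ A / dd A) + C3 * (24 * (A.card / dd A) + 3 / 2 * devSq A)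
  let S1 := Cy * (1 + L) * devSq A
  have hS1 : 0 ≤ S1 := by positivity
  have hS0 : 0 ≤ S0 := by positivity
  have hex : ∀ t ∈ Set.Icc (0 : ℝ) x0, ∃ J', HasDerivWithinAt J J' (Set.Icc 0 x0) t ∧
      J' ≤ dd A * ubar (dd A) t ^ 2 * ((399 / 200) * J t + S0 + S1 / ubar (dd A) t) := by
    intro t ht
    obtain ⟨H', hH, hH'⟩ := hasDeriv_killSum hI ht h0 hD
    refine ⟨_, (hasDeriv_entSum hI ht h0 hD).add (hH.const_mul (a / dd A)), ?_⟩
    have hb := ubar_pos hD.le ht.1
    have hinv := inv_ubar_sq (x := t) hD.le ht.1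
    have ht1 : t ≤ 1 := ht.2.trans h0.le
    have hsq : (ubar (dd A) t ^ 2)⁻¹ ≤ 3 * dd A := by
      rw [hinv]; nlinarith
    have hL : ∀ R : ℝ, R = (ubar (dd A) t)⁻¹ → log R ≤ L := by
      rintro R rfl
      refine log_le_log (inv_pos.2 hb) ?_
      have h1 : (ubar (dd A) t)⁻¹ ≤ (ubar (dd A) t ^ 2)⁻¹ :=
        inv_anti₀ (by positivity) (pow_le_of_le_one hb.le (ubar_le_one hD.le ht.1) (by norm_num))
      rw [hinv] at h1
      nlinarith
    have h1 := entSum_deriv_le hI ht h0 hD hp hγ (by linarith) hCy0 hCy hL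
    have h2 := mul_le_mul_of_nonneg_left hH' (div_nonneg ha hD.le)
    have hsmall : C3 * (9 / 2) ≤ 3 / 1000 * (dd A * ubar (dd A) t) := by
      have k1 : 3 / 4 * dd A / 3 ≤ (dd A * ubar (dd A) t) ^ 2 := by
        have : 1 ≤ 3 * dd A * ubar (dd A) t ^ 2 := by
          rw [inv_le_iff_one_le_mul₀ (by positivity)] at hsq; linarith
        nlinarith
      have k2 : (3000 * C3 / 2) ^ 2 ≤ (dd A * ubar (dd A) t) ^ 2 := by nlinarith
      have k3 := abs_le_of_sq_le_sq k2 (by positivity)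
      rw [abs_of_nonneg (by positivity)] at k3
      linarith
    have h3 : a / dd A * (3 / (1 - x0) ^ 2 * dd A * (24 * A.card * ubar (dd A) t ^ 2
        + 9 / 2 * ubar (dd A) t * entSum A I t + 1 / 2 * devSq A))
        ≤ dd A * ubar (dd A) t ^ 2 * (3 / 1000 * entSum A I t
          + C3 * (24 * (A.card / dd A) + 3 / 2 * devSq A)) := by
      have k1 := mul_le_mul_of_nonneg_right hsmall
        (mul_nonneg hb.le (entSum_nonneg hI ht h0 hD))
      have k2 : devSq A ≤ 3 * dd A * ubar (dd A) t ^ 2 * devSq A := by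
        rw [inv_le_iff_one_le_mul₀ (by positivity)] at hsq
        exact le_mul_of_one_le_left hY hsq
      have k3 := mul_le_mul_of_nonneg_left k2 (by positivity : 0 ≤ C3 / 2)
      have e1 : a / dd A * (3 / (1 - x0) ^ 2 * dd A * (24 * A.card * ubar (dd A) t ^ 2
          + 9 / 2 * ubar (dd A) t * entSum A I t + 1 / 2 * devSq A))
          = C3 * (24 * A.card * ubar (dd A) t ^ 2
            + 9 / 2 * ubar (dd A) t * entSum A I t + 1 / 2 * devSq A) := by
        simp only [C3]; field_simp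
      have e2 : dd A * ubar (dd A) t ^ 2 * (C3 * (24 * (A.card / dd A)))
          = C3 * 24 * A.card * ubar (dd A) t ^ 2 := by field_simp
      rw [e1]
      linarith
    have hK := mul_nonneg (mul_nonneg hD.le (sq_nonneg (ubar (dd A) t)))
      (entSum_nonneg hI ht h0 hD)
    have hg := mul_le_mul_of_nonneg_right
      (by linarith : γ + 2 * (1 / 1000) + 3 / 1000 ≤ 399 / 200) hK
    have e3 : dd A * ubar (dd A) t ^ 2 * ((399 / 200) * (a / dd A * killSum A I t))
        = dd A * ubar (dd A) t ^ 2 * (1 / (1 - x0) ^ 3 * killSum A I t / dd A) := by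
      simp only [a]; field_simp
    simp only [J, S0, S1]
    linarith [show dd A * ubar (dd A) t ^ 2 * (2 * (psiSum τ A / dd A))
      = dd A * ubar (dd A) t ^ 2 * (2 * psiSum τ A / dd A) by ring]
  choose! J' hJ' hJ'' using hex
  have hJ0 : J 0 ≤ 0 := by
    have h0' : (0 : ℝ) ∈ Set.Icc (0 : ℝ) 1 := ⟨le_rfl, zero_le_one⟩
    have hz : ∀ s ∈ tri A, ∀ e ∈ pairs s, I s e 0 = 0 := fun s hs e he =>
      le_antisymm ((hI s hs e he 0 h0').2.1) ((hI s hs e he 0 h0').1)
    have hu : ∀ e, uval A I e 0 = 1 := fun e => prod_eq_one fun s hs => by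
      beta_reduce
      rw [hz s (mem_triEdge.1 hs).1 e (mem_triEdge.1 hs).2, sub_zero]
    simp only [J, entSum, ratio, killSum, hu, ubar_zero]
    rw [sum_eq_zero fun e _ => by simp [ent], sum_eq_zero fun s hs => sum_eq_zero (hz s hs)]
    simp
  have hb := ubar_pos hD.le hx.1
  have hbar := barrier hD.le (by norm_num : (1 : ℝ) < 399 / 200) hS1 hJ' hJ0 hJ'' hS0 hx
  have hkill : 0 ≤ killSum A I x := sum_nonneg fun s hs => sum_nonneg fun e he =>
    (hI s hs e he x ⟨hx.1, hx.2.trans h0.le⟩).1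
  have hKJ : entSum A I x ≤ J x :=
    le_add_of_nonneg_right (mul_nonneg (div_nonneg ha hD.le) hkill)
  have hp1 : S0 / (399 / 200) + S1 / (399 / 200 - 1)
      ≤ 2 * (2 + 26 * C3 + Cy) * (1 + L) * (devSq A + psiSum τ A / dd A + A.card / dd A) := by
    have k1 := mul_nonneg hC3 hY
    have k2 := mul_nonneg hC3 hN
    have k3 := mul_nonneg hC3 hP
    have k4 := mul_nonneg hL0 (mul_nonneg (by linarith : 0 ≤ 2 + 26 * C3)
      (add_nonneg (add_nonneg hY hP) hN))
    have k5 := mul_nonneg (mul_nonneg hCy0 (by linarith : 0 ≤ 1 + L)) (add_nonneg hP hN)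
    simp only [S0, S1]
    norm_num
    linarith
  have hinv := inv_ubar_rpow (D := dd A) (x := x) hD.le hx.1 (hx.2.trans h0.le)
  calc entSum A I x ≤ J x := hKJ
    _ = J x * ubar (dd A) x ^ (399 / 200 : ℝ) * (ubar (dd A) x ^ (399 / 200 : ℝ))⁻¹ := by
        rw [mul_assoc, mul_inv_cancel₀ (rpow_pos_of_pos hb _).ne', mul_one]
    _ ≤ _ := mul_le_mul (hbar.trans hp1) hinv (inv_nonneg.2 (rpow_nonneg hb.le _))
        (mul_nonneg (mul_nonneg (by linarith) (by linarith)) (add_nonneg (add_nonneg hY hP) hN))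

/-- The ODE step: the survival probabilities follow the regular solution. -/
theorem ode_of_pointwise {τ γ : ℝ} {g : ℝ → ℝ} (hp : Pointwise τ γ g) (hγ : 1 ≤ γ)
    (hγ' : γ ≤ 199 / 100) {ε B : ℝ} (hε : 0 < ε) (hB : 0 ≤ B) :
    ∃ D0 : ℝ, ∀ (V : Type) [Fintype V] [DecidableEq V] (A : Finset (Finset V))
      (I : Finset V → Finset V → ℝ → ℝ), IsCav A I → D0 ≤ dd A →
        devSq A + psiSum τ A / dd A ≤ B * A.card * dd A ^ (-999 / 1000 : ℝ) →
          |∑ e ∈ A, uval A I e 1 - A.card * (√(1 + 2 * dd A))⁻¹|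
            ≤ ε * A.card * (√(1 + 2 * dd A))⁻¹ := by
  let ε' := min ε 1
  have he0 : 0 < ε' := lt_min hε one_pos
  have he1 : ε' ≤ 1 := min_le_right _ _
  let x0 := 1 / (1 + ε' / 8)
  have hx0 : 0 < x0 := by positivity
  have hx1 : x0 < 1 := by
    rw [div_lt_one (by positivity)]; linarith
  obtain ⟨C, D1, hC, hent⟩ := entropy_le hp hγ hγ' hx1
  have hθ : 0 < (ε' / 8) / (1 + 1 / (ε' / 8)) := by positivity
  obtain ⟨D2, hD2⟩ := Filter.eventually_atTop.1
    (((tendsto_rpow_neg_atTop (y := 1 / 2000) (by norm_num)).const_mul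
      (C * 1001 * 3 * (B + 1))).eventually_le_const
      (u := (ε' / 8) / (1 + 1 / (ε' / 8))) (by rw [mul_zero]; exact hθ))
  refine ⟨max (max D1 D2) 1, fun V _ _ A I hI hD hsrc => ?_⟩
  have hD' : 1 ≤ dd A := le_trans (le_max_right _ _) hD
  have hD0 : 0 < dd A := by linarith
  have hN : (0 : ℝ) ≤ A.card := Nat.cast_nonneg _
  have hlog : 1 + log (1 + 2 * dd A) ≤ 1001 * (3 * dd A) ^ (1 / 1000 : ℝ) := by
    have k1 : log (1 + 2 * dd A) ≤ log (3 * dd A) := log_le_log (by linarith) (by linarith)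
    have k2 := log_le_rpow_div (x := 3 * dd A) (by linarith) (show (0 : ℝ) < 1 / 1000 by norm_num)
    have k3 : (1 : ℝ) ≤ (3 * dd A) ^ (1 / 1000 : ℝ) := one_le_rpow (by linarith) (by norm_num)
    linarith
  have hsmall : ∀ x ∈ Set.Icc (0 : ℝ) x0,
      entSum A I x ≤ (ε' / 8) / (1 + 1 / (ε' / 8)) * A.card := by
    intro x hx
    have h := hent V A I hI (le_trans (le_trans (le_max_left _ _) (le_max_left _ _)) hD) hD' x hx
    have k1 : devSq A + psiSum τ A / dd A + A.card / dd A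
        ≤ (B + 1) * A.card * dd A ^ (-999 / 1000 : ℝ) := by
      have : A.card / dd A ≤ A.card * dd A ^ (-999 / 1000 : ℝ) := by
        rw [div_eq_mul_inv, ← rpow_neg_one]
        gcongr 1
        exact rpow_le_rpow_of_exponent_le hD' (by norm_num)
      linarith
    have k0 : 0 ≤ devSq A + psiSum τ A / dd A + A.card / dd A :=
      add_nonneg (add_nonneg (sum_nonneg fun e _ => sq_nonneg _)
        (div_nonneg (psiSum_nonneg τ A) hD0.le)) (by positivity)
    have k2 : (1 + 2 * dd A) ^ (399 / 400 : ℝ) ≤ (3 * dd A) ^ (399 / 400 : ℝ) :=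
      rpow_le_rpow (by linarith) (by linarith) (by norm_num)
    have h3 : (3 * dd A) ^ (1 / 1000 : ℝ) * (3 * dd A) ^ (399 / 400 : ℝ)
        ≤ 3 * dd A ^ (1997 / 2000 : ℝ) := by
      rw [← rpow_add (by linarith), mul_rpow (by norm_num) hD0.le,
        show (1 / 1000 + 399 / 400 : ℝ) = 1997 / 2000 by norm_num]
      gcongr
      calc (3 : ℝ) ^ (1997 / 2000 : ℝ) ≤ 3 ^ (1 : ℝ) :=
            rpow_le_rpow_of_exponent_le (by norm_num) (by norm_num)
        _ = 3 := rpow_one 3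
    have hd := hD2 (dd A) (le_trans (le_trans (le_max_right _ _) (le_max_left _ _)) hD)
    calc entSum A I x ≤ _ := h
      _ ≤ C * (1001 * (3 * dd A) ^ (1 / 1000 : ℝ)) * ((B + 1) * A.card
            * dd A ^ (-999 / 1000 : ℝ)) * (3 * dd A) ^ (399 / 400 : ℝ) := by
          gcongr
      _ = C * 1001 * ((B + 1) * A.card * dd A ^ (-999 / 1000 : ℝ))
            * ((3 * dd A) ^ (1 / 1000 : ℝ) * (3 * dd A) ^ (399 / 400 : ℝ)) := by ring
      _ ≤ C * 1001 * ((B + 1) * A.card * dd A ^ (-999 / 1000 : ℝ))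
            * (3 * dd A ^ (1997 / 2000 : ℝ)) := by gcongr
      _ = C * 1001 * 3 * (B + 1) * dd A ^ (-(1 / 2000) : ℝ) * A.card := by
          rw [show (-(1 / 2000) : ℝ) = -999 / 1000 + 1997 / 2000 by norm_num,
            rpow_add hD0]
          ring
      _ ≤ _ := mul_le_mul_of_nonneg_right hd hN
  have hdist : ∀ x ∈ Set.Icc (0 : ℝ) x0, |∑ e ∈ A, uval A I e x - A.card * ubar (dd A) x|
      ≤ ubar (dd A) x * (A.card * (ε' / 4)) := by
    intro x hx
    have hb := ubar_pos hD0.le hx.1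
    have h := sum_le_sum fun e (_ : e ∈ A) =>
      abs_sub_one_le (ratio_pos hI hx hx1 hD0 e) (by positivity : 0 < ε' / 8)
    rw [sum_add_distrib, sum_const, nsmul_eq_mul, ← mul_sum] at h
    have h2 := mul_le_mul_of_nonneg_left (hsmall x hx) (by positivity : 0 ≤ 1 + 1 / (ε' / 8))
    rw [← mul_assoc, mul_div_cancel₀ _ (by positivity)] at h2
    have e1 : ∑ e ∈ A, uval A I e x - A.card * ubar (dd A) x
        = ubar (dd A) x * ∑ e ∈ A, (ratio A I e x - 1) := by
      simp only [ratio, mul_sum, mul_sub, mul_div_cancel₀ _ hb.ne', mul_one, sum_sub_distrib,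
        sum_const, nsmul_eq_mul]
      ring
    rw [e1, abs_mul, abs_of_pos hb]
    gcongr
    simp only [entSum] at h2
    linarith [abs_sum_le_sum_abs (fun e => ratio A I e x - 1) A]
  have hb1 : 0 < ubar (dd A) 1 := ubar_pos hD0.le zero_le_one
  have hA := abs_le.1 (hdist x0 ⟨hx0.le, le_rfl⟩)
  have hH := abs_le.1 (hdist (x0 / 2) ⟨by linarith, by linarith⟩)
  have hlo : ubar (dd A) 1 ≤ ubar (dd A) x0 :=
    inv_anti₀ (sqrt_pos.2 (by nlinarith)) (sqrt_le_sqrt (by nlinarith))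
  have hcmp : ∀ c x : ℝ, 1 ≤ c → 0 ≤ x → 1 ≤ c ^ 2 * x →
      ubar (dd A) x ≤ c * ubar (dd A) 1 := by
    intro c x hc hx hcx
    simp only [ubar, mul_one]
    rw [← div_eq_mul_inv, le_div_iff₀ (sqrt_pos.2 (by positivity)),
      inv_mul_le_iff₀ (sqrt_pos.2 (by positivity))]
    calc √(1 + 2 * dd A) ≤ √(c ^ 2 * (1 + 2 * dd A * x)) :=
          sqrt_le_sqrt (by nlinarith [mul_le_mul hc hc zero_le_one (by linarith)])
      _ = _ := by rw [sqrt_mul (sq_nonneg c), sqrt_sq (by linarith)]; ring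
  have hx0e : x0 * (1 + ε' / 8) = 1 := one_div_mul_cancel (by positivity)
  have hu0 := hcmp (1 + ε' / 8) x0 (by linarith) hx0.le (by nlinarith)
  have huh := hcmp (3 / 2) (x0 / 2) (by norm_num) (by linarith) (by nlinarith)
  have hup := sum_le_sum fun e (_ : e ∈ A) => (late_kills hI hx0 hx1.le e).1
  have hlow := sum_le_sum fun e (_ : e ∈ A) => (late_kills hI hx0 hx1.le e).2
  rw [sum_sub_distrib, ← mul_sum] at hlow
  have hfac : 2 * (1 - x0) / x0 = ε' / 4 := by
    rw [div_eq_iff hx0.ne']; linear_combination (-2) * hx0e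
  rw [hfac] at hlow
  have hNb : 0 ≤ (A.card : ℝ) * ubar (dd A) 1 := mul_nonneg hN hb1.le
  have hNe := mul_nonneg hNb he0.le
  have hNee : 0 ≤ (A.card : ℝ) * ubar (dd A) 1 * ε' * (1 - ε') :=
    mul_nonneg hNe (by linarith)
  have hmin := mul_le_mul_of_nonneg_left (min_le_left ε 1) hNb
  have p1 := mul_le_mul_of_nonneg_left hu0 (mul_nonneg hN (by linarith : 0 ≤ 1 + ε' / 4))
  have p2 := mul_le_mul_of_nonneg_left hlo (mul_nonneg hN (by linarith : 0 ≤ 1 - ε' / 4))
  have p3 := mul_le_mul_of_nonneg_left huh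
    (mul_nonneg (mul_nonneg hN (by linarith : 0 ≤ 1 + ε' / 4)) (by linarith : 0 ≤ ε' / 4))
  have p4 : ε' / 4 * ∑ e ∈ A, uval A I e (x0 / 2)
      ≤ ε' / 4 * (A.card * (1 + ε' / 4) * ubar (dd A) (x0 / 2)) :=
    mul_le_mul_of_nonneg_left (by linarith [hH.2]) (by linarith)
  rw [show (√(1 + 2 * dd A))⁻¹ = ubar (dd A) 1 by simp [ubar], abs_le]
  constructor <;> linarith

/-- N5, given the pointwise inequality at margin `11/100`. -/
theorem ode_target_of {γ : ℝ} {g : ℝ → ℝ} (hp : Pointwise (11 / 100) γ g) (hγ : 1 ≤ γ)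
    (hγ' : γ ≤ 199 / 100) : OdeTarget := by
  intro ε hε
  obtain ⟨D0, hD0⟩ := ode_of_pointwise hp hγ hγ' hε zero_le_one
  refine ⟨max D0 1, 1, one_pos, fun V _ _ A I _ hD hreg hI => ?_⟩
  have hD1 : 1 ≤ dd A := le_trans (le_max_right _ _) hD
  have hN : (0 : ℝ) < A.card := by
    have : A.card ≠ 0 := fun h => by simp [dd, h] at hD1; linarith
    exact_mod_cast Nat.pos_of_ne_zero this
  have h := mul_le_mul_of_nonneg_right hreg hN.le
  have e : ((∑ e ∈ A, dev A e ^ 2) / A.card + psiSum (11 / 100) A / (A.card * dd A)) * A.card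
      = devSq A + psiSum (11 / 100) A / dd A := by
    simp only [devSq]; field_simp
  rw [e, one_mul, mul_comm] at h
  have h' := hD0 V A I hI (le_trans (le_max_left _ _) hD)
    (by rw [one_mul, show (-999 / 1000 : ℝ) = -(999 / 1000) by norm_num]; exact h)
  rw [show liveSum A I = ∑ e ∈ A, uval A I e 1 from rfl, div_eq_mul_inv, ← mul_assoc]
  exact h'

end Vale.Agent.P046.Const.Ode
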