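import Mathlib

/-!
P046, leading constant, N5: scalar facts for the deviation equation of the tree recursion.

With `ub = (1 + 2 D x)^(-1/2)` the regular solution and `r = u / ub`, the entropy `ent r` is
compared along the flow with a barrier `ub ^ (-γ)`.
-/

namespace Vale.Agent.P046.Const.Ode

open Real Set

/-- The entropy of the ratio to the regular solution. -/
noncomputable def ent (r : ℝ) : ℝ := r * log r - r + 1

theorem ent_ge_sq {r : ℝ} (h : 0 < r) : (√r - 1) ^ 2 ≤ ent r := by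
  have hs : 0 < √r := sqrt_pos.2 h
  have h1 := one_sub_inv_le_log_of_pos hs
  rw [log_sqrt h.le] at h1
  have h2 : √r * √r = r := mul_self_sqrt h.le
  have h3 : r * (1 - (√r)⁻¹) = r - √r := by field_simp; linear_combination h2
  have h4 := mul_le_mul_of_nonneg_left h1 h.le
  rw [h3] at h4
  simp only [ent, sq]
  nlinarith

theorem ent_nonneg {r : ℝ} (h : 0 < r) : 0 ≤ ent r := (sq_nonneg _).trans (ent_ge_sq h)

/-- The distance to one is small up to the entropy. -/
theorem abs_sub_one_le {r η : ℝ} (h : 0 < r) (hη : 0 < η) :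
    |r - 1| ≤ η + (1 + 1 / η) * ent r := by
  obtain ⟨s, hs, he⟩ : ∃ s : ℝ, r - 1 = s * (s + 2) ∧ s ^ 2 ≤ ent r :=
    ⟨√r - 1, by linear_combination -(mul_self_sqrt h.le), ent_ge_sq h⟩
  have h1 : 2 * |s| ≤ η + s ^ 2 / η := by
    rw [← sub_nonneg, show η + s ^ 2 / η - 2 * |s| = (η - |s|) ^ 2 / η by
      rw [← sq_abs s]; field_simp; ring]
    positivity
  have h2 : |r - 1| ≤ s ^ 2 + 2 * |s| := by
    rw [hs, show s * (s + 2) = s ^ 2 + 2 * s by ring]
    refine (abs_add_le _ _).trans ?_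
    rw [abs_mul, abs_two, abs_of_nonneg (sq_nonneg s)]
  have h3 : (1 + 1 / η) * s ^ 2 ≤ (1 + 1 / η) * ent r :=
    mul_le_mul_of_nonneg_left he (by positivity)
  calc |r - 1| ≤ s ^ 2 + 2 * |s| := h2
    _ ≤ η + (1 + 1 / η) * s ^ 2 := by linarith [show s ^ 2 / η = 1 / η * s ^ 2 by ring]
    _ ≤ _ := by linarith

/-- A linear source is absorbed by the entropy and a square. -/
theorem lin_source {ε : ℝ} (hε : 0 < ε) :
    ∃ C : ℝ, 0 ≤ C ∧ ∀ y r : ℝ, -1 ≤ y → 0 < r → y * (1 - r) ≤ ε * ent r + C * y ^ 2 := by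
  refine ⟨(√(exp (1 + 1 / ε)) + 1) ^ 2 / (4 * ε), by positivity, fun y r hy hr => ?_⟩
  have hC : 0 ≤ (√(exp (1 + 1 / ε)) + 1) ^ 2 / (4 * ε) := by positivity
  rcases le_or_gt r (exp (1 + 1 / ε)) with hR | hR
  · have hs : √r ≤ √(exp (1 + 1 / ε)) := sqrt_le_sqrt hR
    have h0 : 0 ≤ √r := sqrt_nonneg r
    have h2 : √r * √r = r := mul_self_sqrt hr.le
    have h1 := ent_ge_sq hr
    have key : y * (1 - r) ≤ ε * (√r - 1) ^ 2 + (√r + 1) ^ 2 / (4 * ε) * y ^ 2 := by
      rw [← sub_nonneg, show ε * (√r - 1) ^ 2 + (√r + 1) ^ 2 / (4 * ε) * y ^ 2 - y * (1 - r)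
          = (2 * ε * (√r - 1) + y * (√r + 1)) ^ 2 / (4 * ε) by
        field_simp; linear_combination (-4 * ε * y) * h2]
      positivity
    have h3 : (√r + 1) ^ 2 / (4 * ε) ≤ (√(exp (1 + 1 / ε)) + 1) ^ 2 / (4 * ε) := by gcongr
    calc y * (1 - r) ≤ _ := key
      _ ≤ _ := by
          have := mul_le_mul_of_nonneg_left h1 hε.le
          have := mul_le_mul_of_nonneg_right h3 (sq_nonneg y)
          linarith
  · have hl : 1 + 1 / ε ≤ log r := by
      rw [← log_exp (1 + 1 / ε)]; exact log_le_log (exp_pos _) hR.le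
    have h1 : r * (1 / ε) + 1 ≤ ent r := by
      simp only [ent]; nlinarith [mul_le_mul_of_nonneg_left hl hr.le]
    have h2 : r + ε ≤ ε * ent r := by
      have := mul_le_mul_of_nonneg_left h1 hε.le
      rwa [mul_add, mul_one, show ε * (r * (1 / ε)) = r by field_simp] at this
    have h4 : (1 : ℝ) ≤ exp (1 + 1 / ε) := one_le_exp (by positivity)
    have h3 : y * (1 - r) ≤ r - 1 := by
      nlinarith [mul_nonneg (by linarith : 0 ≤ y + 1) (by linarith : (0 : ℝ) ≤ r - 1)]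
    nlinarith [sq_nonneg y]

theorem ent_le_bound {r R : ℝ} (h : 0 < r) (hR : r ≤ R) (hR1 : 1 ≤ R) :
    ent r ≤ R * (1 + log R) := by
  have hl : 0 ≤ log R := log_nonneg hR1
  have h0 : 0 ≤ R * log R := mul_nonneg (by linarith) hl
  rcases le_or_gt r 1 with h1 | h1
  · have := mul_nonpos_of_nonneg_of_nonpos h.le (log_nonpos h.le h1)
    simp only [ent]; linarith
  · have := mul_le_mul hR (log_le_log h hR) (log_nonneg h1.le) (by linarith : 0 ≤ R)
    simp only [ent]; linarith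

/-- The source of one edge. -/
theorem edge_source {ε : ℝ} (hε : 0 < ε) :
    ∃ C : ℝ, 0 ≤ C ∧ ∀ y r R g : ℝ, -1 ≤ y → 0 < r → r ≤ R → 1 ≤ R → 0 ≤ g → g ≤ 1 →
      g * (y * ent r) + y * (1 - r) ≤ 2 * ε * ent r + C * y ^ 2 * (R * (1 + log R)) := by
  obtain ⟨C, hC, hlin⟩ := lin_source hε
  refine ⟨C + 1 / ε, by positivity, fun y r R g hy hr hR hR1 hg0 hg1 => ?_⟩
  have hB : 1 ≤ R * (1 + log R) := one_le_mul_of_one_le_of_one_le hR1
    (by linarith [log_nonneg hR1])
  have he := ent_nonneg hr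
  have h1 : g * (y * ent r) ≤ ε * ent r + 1 / ε * y ^ 2 * (R * (1 + log R)) := by
    have h0 : 0 ≤ 1 / ε * y ^ 2 * (R * (1 + log R)) := by
      have : 0 ≤ 1 / ε * y ^ 2 := by positivity
      nlinarith
    rcases le_or_gt y ε with hye | hye
    · have a := mul_le_mul_of_nonneg_right hye he
      have b := mul_le_mul_of_nonneg_left a hg0
      nlinarith [mul_nonneg (mul_nonneg hε.le he) (by linarith : (0 : ℝ) ≤ 1 - g)]
    · have a : y * ent r ≤ y * (R * (1 + log R)) :=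
        mul_le_mul_of_nonneg_left (ent_le_bound hr hR hR1) (hε.le.trans hye.le)
      have b : g * (y * ent r) ≤ y * ent r :=
        mul_le_of_le_one_left (mul_nonneg (hε.le.trans hye.le) he) hg1
      have c : y ≤ 1 / ε * y ^ 2 := by
        rw [div_mul_eq_mul_div, le_div_iff₀ hε]; nlinarith
      nlinarith [mul_le_mul_of_nonneg_right c (le_trans zero_le_one hB), mul_nonneg hε.le he]
  have h2 := hlin y r hy hr
  have h3 : C * y ^ 2 ≤ C * y ^ 2 * (R * (1 + log R)) :=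
    le_mul_of_one_le_right (by positivity) hB
  linarith

/-- The square of a solution. -/
theorem sq_le_regular {ub r : ℝ} (hu : 0 < ub) (hr : 0 < r) (h1 : ub * r ≤ 1) :
    (ub * r) ^ 2 ≤ 16 * ub ^ 2 + 3 * (ub * ent r) := by
  have he := mul_nonneg hu.le (ent_nonneg hr)
  rcases le_or_gt r 4 with h | h
  · nlinarith [mul_nonneg (sq_nonneg ub) (by nlinarith : (0 : ℝ) ≤ 16 - r ^ 2)]
  · have h4 : log 4 ≤ log r := log_le_log (by norm_num) h.le
    have h5 : (4 / 3 : ℝ) ≤ log 4 := by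
      rw [show (4 : ℝ) = 2 ^ 2 by norm_num, log_pow]
      push_cast
      linarith [log_two_gt_d9]
    have h6 : r / 3 ≤ ent r := by
      simp only [ent]; nlinarith [mul_le_mul_of_nonneg_left (h5.trans h4) hr.le]
    have h7 := mul_le_mul_of_nonneg_left h6 hu.le
    nlinarith [mul_le_of_le_one_left (mul_nonneg hu.le hr.le) h1, sq_nonneg ub]

/-- The correction factor of a triangle. -/
theorem term_le {S ρ : ℝ} (hρ : 1 ≤ ρ) : ρ * (S * exp (-S)) ≤ S * exp (-S) + (ρ - 1) := by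
  have h : S * exp (-S) ≤ 1 := by
    rw [exp_neg, ← div_eq_mul_inv, div_le_one (exp_pos S)]
    linarith [add_one_le_exp S]
  nlinarith

/-- The inverse of a product of three survival factors. -/
theorem inv_three_le {q a b c : ℝ} (hq : 0 < q) (ha : 0 ≤ a) (hb : 0 ≤ b) (hc : 0 ≤ c)
    (ha' : a ≤ 1 - q) (hb' : b ≤ 1 - q) (hc' : c ≤ 1 - q) :
    1 / ((1 - a) * (1 - b) * (1 - c)) - 1 ≤ 1 / q ^ 3 * (a + b + c) := by
  have pa : q ≤ 1 - a := by linarith
  have pb : q ≤ 1 - b := by linarith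
  have pc : q ≤ 1 - c := by linarith
  have hp : q ^ 3 ≤ (1 - a) * (1 - b) * (1 - c) := by
    rw [show q ^ 3 = q * q * q by ring]
    have h0 : (0 : ℝ) ≤ 1 - a := by linarith
    exact mul_le_mul (mul_le_mul pa pb hq.le h0) pc hq.le (mul_nonneg h0 (by linarith))
  have hpos : 0 < (1 - a) * (1 - b) * (1 - c) := lt_of_lt_of_le (by positivity) hp
  have hn : 1 - (1 - a) * (1 - b) * (1 - c) ≤ a + b + c := by
    nlinarith [mul_nonneg ha hb, mul_nonneg (mul_nonneg hc (by linarith : (0 : ℝ) ≤ 1 - a))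
      (by linarith : (0 : ℝ) ≤ 1 - b)]
  calc 1 / ((1 - a) * (1 - b) * (1 - c)) - 1
      = (1 - (1 - a) * (1 - b) * (1 - c)) / ((1 - a) * (1 - b) * (1 - c)) := by
        rw [sub_div, div_self hpos.ne']
    _ ≤ (a + b + c) / ((1 - a) * (1 - b) * (1 - c)) := by gcongr
    _ ≤ (a + b + c) / q ^ 3 := by gcongr
    _ = _ := by ring

/-- The regular solution. -/
noncomputable def ubar (D x : ℝ) : ℝ := (√(1 + 2 * D * x))⁻¹

variable {D x : ℝ}

theorem ubar_pos (hD : 0 ≤ D) (hx : 0 ≤ x) : 0 < ubar D x :=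
  inv_pos.2 (sqrt_pos.2 (by positivity))

theorem ubar_zero (D : ℝ) : ubar D 0 = 1 := by simp [ubar]

theorem ubar_le_one (hD : 0 ≤ D) (hx : 0 ≤ x) : ubar D x ≤ 1 :=
  inv_le_one_of_one_le₀ (one_le_sqrt.2 (by nlinarith [mul_nonneg hD hx]))

theorem inv_ubar_sq (hD : 0 ≤ D) (hx : 0 ≤ x) : (ubar D x ^ 2)⁻¹ = 1 + 2 * D * x := by
  rw [ubar, inv_pow, inv_inv, sq_sqrt (by positivity)]

theorem hasDerivAt_ubar (hD : 0 ≤ D) (hx : 0 ≤ x) :
    HasDerivAt (ubar D) (-D * ubar D x ^ 3) x := by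
  have hpos : 0 < 1 + 2 * D * x := by positivity
  have h1 : HasDerivAt (fun t => 1 + 2 * D * t) (2 * D) x := by
    simpa using ((hasDerivAt_id x).const_mul (2 * D)).const_add 1
  refine ((h1.sqrt hpos.ne').inv (sqrt_pos.2 hpos).ne').congr_deriv ?_
  have hs := sqrt_pos.2 hpos
  simp only [ubar]
  field_simp

/-- The derivative of the entropy of the ratio. -/
theorem hasDerivWithinAt_ent {u : ℝ → ℝ} {u' : ℝ} {s : Set ℝ} (hD : 0 ≤ D) (hx : 0 ≤ x)
    (hu : 0 < u x) (h : HasDerivWithinAt u u' s x) :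
    HasDerivWithinAt (fun t => ent (u t / ubar D t))
      (D * ubar D x ^ 2 * (log (u x / ubar D x) * (u x / ubar D x))
        + log (u x / ubar D x) * (u' / ubar D x)) s x := by
  have hb := ubar_pos hD hx
  have hr : 0 < u x / ubar D x := div_pos hu hb
  have h1 : HasDerivAt ent (log (u x / ubar D x)) (u x / ubar D x) := by
    exact (((hasDerivAt_mul_log hr.ne').sub
      (hasDerivAt_id (u x / ubar D x))).add_const 1).congr_deriv (by ring)
  have h2 := h.div (hasDerivAt_ubar hD hx).hasDerivWithinAt hb.ne'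
  refine (h1.comp_hasDerivWithinAt x h2).congr_deriv ?_
  field_simp
  ring

/-- The barrier. -/
theorem barrier {γ S0 S1 x0 : ℝ} {J J' : ℝ → ℝ} (hD : 0 ≤ D) (hγ : 1 < γ)
    (hS1 : 0 ≤ S1) (hJ : ∀ t ∈ Icc 0 x0, HasDerivWithinAt J (J' t) (Icc 0 x0) t) (h0 : J 0 ≤ 0)
    (hbound : ∀ t ∈ Icc 0 x0, J' t ≤ D * ubar D t ^ 2 * (γ * J t + S0 + S1 / ubar D t))
    (hS0 : 0 ≤ S0) (hx : x ∈ Icc 0 x0) :
    J x * ubar D x ^ γ ≤ S0 / γ + S1 / (γ - 1) := by
  have hg : 0 < γ - 1 := by linarith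
  let Q := fun t => (J t + S0 / γ) * ubar D t ^ γ + S1 / (γ - 1) * ubar D t ^ (γ - 1)
  let Q' := fun t => ubar D t ^ γ * (J' t - γ * D * ubar D t ^ 2 * (J t + S0 / γ))
    - S1 * D * ubar D t ^ 2 * ubar D t ^ (γ - 1)
  have hQ : ∀ t ∈ Icc 0 x0, HasDerivWithinAt Q (Q' t) (Icc 0 x0) t := by
    intro t ht
    have hb := ubar_pos hD ht.1
    have hd := (hasDerivAt_ubar hD ht.1).hasDerivWithinAt (s := Icc 0 x0)
    refine (((hJ t ht).add_const (S0 / γ)).mul (hd.rpow_const (p := γ) (Or.inl hb.ne'))).add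
      ((hd.rpow_const (p := γ - 1) (Or.inl hb.ne')).const_mul (S1 / (γ - 1))) |>.congr_deriv ?_
    simp only [Q']
    rw [rpow_sub_one hb.ne' γ, rpow_sub_one hb.ne' (γ - 1), rpow_sub_one hb.ne' γ]
    field_simp
    ring
  have hanti : AntitoneOn Q (Icc 0 x0) := by
    refine antitoneOn_of_hasDerivWithinAt_nonpos (convex_Icc 0 x0)
      (fun t ht => (hQ t ht).continuousWithinAt) (f' := Q') ?_ ?_
    · exact fun t ht => (hQ t (interior_subset ht)).mono interior_subset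
    · intro t ht
      have ht' := interior_subset ht
      have hb := ubar_pos hD ht'.1
      have h1 := mul_le_mul_of_nonneg_left (hbound t ht') (rpow_nonneg hb.le γ)
      have h2 : γ * D * ubar D t ^ 2 * (J t + S0 / γ) = D * ubar D t ^ 2 * (γ * J t + S0) := by
        field_simp
      have h3 : ubar D t ^ γ = ubar D t ^ (γ - 1) * ubar D t := by
        rw [← rpow_add_one hb.ne']; ring_nf
      have h4 : ubar D t ^ γ * (D * ubar D t ^ 2 * (S1 / ubar D t))
          = S1 * D * ubar D t ^ 2 * ubar D t ^ (γ - 1) := by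
        rw [h3]; field_simp
      simp only [Q', h2]
      linarith
  have h := hanti ⟨le_rfl, hx.1.trans hx.2⟩ hx hx.1
  simp only [Q, ubar_zero, one_rpow, mul_one] at h
  have hb := ubar_pos hD hx.1
  have p1 := mul_nonneg (div_nonneg hS0 (by linarith : 0 ≤ γ)) (rpow_nonneg hb.le γ)
  have p2 := mul_nonneg (div_nonneg hS1 hg.le) (rpow_nonneg hb.le (γ - 1))
  linarith

end Vale.Agent.P046.Const.Ode
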