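import Vale.Agent.P046.Const.OdeBasic

/-!
P046, leading constant: rational bounds for `-P log P` and for the entropy weight.
-/

namespace Vale.Agent.P046.Const.Pointwise

open Real Finset Ode

theorem neg_mul_log_le {P : ℝ} (h : 0 < P) : -log P * P ≤ 1 - P := by
  have h1 := mul_le_mul_of_nonneg_right (one_sub_inv_le_log_of_pos h) h.le
  rw [sub_mul, one_mul, inv_mul_cancel₀ h.ne'] at h1
  linarith

/-- The second-order bound for `r log r` below one. -/
theorem mul_log_ge {r : ℝ} (h0 : 0 < r) (h1 : r ≤ 1) : (r ^ 2 - 1) / 2 ≤ r * log r := by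
  have hd : ∀ x : ℝ, 0 < x → HasDerivAt (fun y => y * log y - (y ^ 2 - 1) / 2) (log x + 1 - x) x :=
    fun x hx => ((hasDerivAt_mul_log hx.ne').sub
      (((hasDerivAt_pow 2 x).sub_const 1).div_const 2)).congr_deriv (by norm_num)
  have hanti : AntitoneOn (fun y : ℝ => y * log y - (y ^ 2 - 1) / 2) (Set.Ioi 0) := by
    refine antitoneOn_of_hasDerivWithinAt_nonpos (convex_Ioi 0)
      (fun x hx => (hd x hx).continuousAt.continuousWithinAt)
      (fun x hx => (hd x (by rwa [interior_Ioi] at hx)).hasDerivWithinAt) fun x hx => ?_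
    rw [interior_Ioi] at hx
    linarith [log_le_sub_one_of_pos (Set.mem_Ioi.1 hx)]
  have := hanti (Set.mem_Ioi.2 h0) (Set.mem_Ioi.2 one_pos) h1
  simp only [log_one] at this
  linarith

theorem neg_mul_log_le' {P : ℝ} (h : 0 < P) (h1 : P ≤ 1) : -log P * P ≤ (1 - P ^ 2) / 2 := by
  linarith [mul_log_ge h h1]

theorem ent_low {x : ℝ} (h : x < 1) (h0 : 0 ≤ x) : x ^ 2 / 2 ≤ ent (1 - x) := by
  have := mul_log_ge (r := 1 - x) (by linarith) (by linarith)
  unfold ent
  linarith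

theorem ent_low_series {x : ℝ} (h : x < 1) (h0 : 0 ≤ x) :
    x ^ 2 / 2 + x ^ 3 / 6 + x ^ 4 / 12 ≤ ent (1 - x) := by
  have hd : ∀ y : ℝ, y < 1 →
      HasDerivAt (fun z => ent (1 - z) - (z ^ 2 / 2 + z ^ 3 / 6 + z ^ 4 / 12))
        (-log (1 - y) - (y + y ^ 2 / 2 + y ^ 3 / 3)) y := fun y hy => by
    have h1 : HasDerivAt (fun z : ℝ => 1 - z) (-1) y := (hasDerivAt_id' y).const_sub 1
    have h2 := (((hasDerivAt_mul_log (show (1 : ℝ) - y ≠ 0 by linarith)).comp y h1).sub h1).add_const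
      (1 : ℝ)
    have h3 := (((hasDerivAt_pow 2 y).div_const 2).add ((hasDerivAt_pow 3 y).div_const 6)).add
      ((hasDerivAt_pow 4 y).div_const 12)
    refine (h2.sub h3).congr_deriv ?_
    norm_num
    ring
  have hmono : MonotoneOn (fun z : ℝ => ent (1 - z) - (z ^ 2 / 2 + z ^ 3 / 6 + z ^ 4 / 12))
      (Set.Ico 0 1) := by
    refine monotoneOn_of_hasDerivWithinAt_nonneg (convex_Ico 0 1)
      (fun y hy => (hd y hy.2).continuousAt.continuousWithinAt)
      (fun y hy => (hd y (by rw [interior_Ico] at hy; exact hy.2)).hasDerivWithinAt) fun y hy => ?_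
    rw [interior_Ico] at hy
    have hs := hasSum_pow_div_log_of_abs_lt_one (show |y| < 1 by
      rw [abs_of_pos hy.1]; exact hy.2)
    have := sum_le_hasSum (range 3) (fun i _ => by have := hy.1; positivity) hs
    norm_num [sum_range_succ] at this
    linarith
  have := hmono (Set.left_mem_Ico.2 one_pos) ⟨h0, h⟩ h0
  simp [ent] at this
  unfold ent
  linarith

/-- The lower bound for the entropy weight above one. -/
theorem ent_high {v : ℝ} (h0 : 0 ≤ v) :
    v ^ 2 * (2 * v + 3) / (v ^ 2 + 6 * v + 6) ≤ ent (1 + v) := by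
  have hd : ∀ r : ℝ, 1 ≤ r → HasDerivAt (fun y => log y - 3 * (y ^ 2 - 1) / (y ^ 2 + 4 * y + 1))
      ((r - 1) ^ 4 / (r * (r ^ 2 + 4 * r + 1) ^ 2)) r := fun r hr => by
    have hr0 : r ≠ 0 := by linarith
    have hq : r ^ 2 + 4 * r + 1 ≠ 0 := by nlinarith
    refine ((hasDerivAt_log hr0).sub ((((hasDerivAt_pow 2 r).sub_const 1).const_mul 3).div
      (((hasDerivAt_pow 2 r).add ((hasDerivAt_id' r).const_mul 4)).add_const 1) hq)).congr_deriv ?_
    simp only [Pi.add_apply]
    norm_num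
    field_simp
    ring
  have hmono : MonotoneOn (fun y : ℝ => log y - 3 * (y ^ 2 - 1) / (y ^ 2 + 4 * y + 1))
      (Set.Ici 1) := by
    refine monotoneOn_of_hasDerivWithinAt_nonneg (convex_Ici 1)
      (fun r hr => (hd r hr).continuousAt.continuousWithinAt)
      (fun r hr => (hd r (by rw [interior_Ici] at hr; exact (Set.mem_Ioi.1 hr).le)).hasDerivWithinAt)
      fun r hr => ?_
    rw [interior_Ici] at hr
    have : (1 : ℝ) < r := hr
    positivity
  have h := hmono Set.self_mem_Ici (show 1 ≤ 1 + v by linarith) (show (1 : ℝ) ≤ 1 + v by linarith)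
  simp only [log_one, one_pow, sub_self, mul_zero, zero_div] at h
  have h' := mul_le_mul_of_nonneg_left (sub_nonneg.1 h) (show 0 ≤ 1 + v by linarith)
  have hq : 0 < v ^ 2 + 6 * v + 6 := by positivity
  have e : (1 + v) * (3 * ((1 + v) ^ 2 - 1) / ((1 + v) ^ 2 + 4 * (1 + v) + 1))
      = v ^ 2 * (2 * v + 3) / (v ^ 2 + 6 * v + 6) + v := by
    rw [show (1 + v) ^ 2 + 4 * (1 + v) + 1 = v ^ 2 + 6 * v + 6 by ring]
    field_simp
    ring
  unfold ent
  linarith

theorem ent_high_div {v : ℝ} (h0 : 0 ≤ v) : v ^ 2 / (v + 2) ≤ ent (1 + v) := by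
  refine le_trans ?_ (ent_high h0)
  rw [div_le_div_iff₀ (by linarith) (by positivity)]
  nlinarith [mul_nonneg (sq_nonneg v) h0, mul_nonneg (sq_nonneg v) (sq_nonneg v)]

/-- The tangent parabola below one. -/
theorem ent_tangent {r r₀ : ℝ} (h : 0 < r) (h1 : r ≤ 1) (h₀ : 0 < r₀) (h₀1 : r₀ ≤ 1) :
    ent r₀ + log r₀ * (r - r₀) + (r - r₀) ^ 2 / 2 ≤ ent r := by
  have e : ent r - ent r₀ - log r₀ * (r - r₀) = r₀ * ent (r / r₀) := by
    unfold ent
    rw [log_div h.ne' h₀.ne']
    field_simp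
    ring
  have key : (r - r₀) ^ 2 / 2 ≤ r₀ * ent (r / r₀) := by
    rcases le_total r r₀ with hle | hle
    · have hs : 0 ≤ 1 - r / r₀ := by rw [sub_nonneg, div_le_one h₀]; exact hle
      have := mul_le_mul_of_nonneg_left (ent_low (x := 1 - r / r₀)
        (by have := div_pos h h₀; linarith) hs) h₀.le
      rw [sub_sub_cancel] at this
      refine le_trans ?_ this
      rw [show r₀ * ((1 - r / r₀) ^ 2 / 2) = (r - r₀) ^ 2 / 2 / r₀ by field_simp; ring,
        le_div_iff₀ h₀]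
      exact mul_le_of_le_one_right (by positivity) h₀1
    · have hv : 0 ≤ r / r₀ - 1 := by rw [sub_nonneg, one_le_div h₀]; exact hle
      have := mul_le_mul_of_nonneg_left (ent_high hv) h₀.le
      rw [add_sub_cancel] at this
      refine le_trans ?_ this
      set v := r / r₀ - 1
      have hr : r = r₀ * (1 + v) := by simp only [v]; field_simp; ring
      rw [show (r - r₀) ^ 2 / 2 = r₀ * (r₀ * v ^ 2 / 2) by rw [hr]; ring]
      refine mul_le_mul_of_nonneg_left ?_ h₀.le
      rw [le_div_iff₀ (by positivity), div_mul_eq_mul_div, div_le_iff₀ two_pos]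
      have hv1 : r₀ * (1 + v) ≤ 1 := hr ▸ h1
      have := mul_le_mul_of_nonneg_left hv1 (mul_nonneg (sq_nonneg v) (by positivity : (0:ℝ) ≤ 2 * (2 * v + 3)))
      nlinarith [mul_nonneg (mul_nonneg (sq_nonneg v) h₀.le) (show (0:ℝ) ≤ 2 * (2 * v + 3) * (1 + v)
        - (v ^ 2 + 6 * v + 6) by nlinarith)]
  linarith

theorem ent_at_four {r : ℝ} (h : 0 < r) (h1 : r ≤ 1) :
    3 / 4 - 1733 / 1250 * r + (r - 1 / 4) ^ 2 / 2 ≤ ent r := by
  have ht := ent_tangent h h1 (r₀ := 1 / 4) (by norm_num) (by norm_num)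
  have hl : log (1 / 4 : ℝ) = -2 * log 2 := by
    rw [one_div, log_inv, show (4 : ℝ) = 2 ^ 2 by norm_num, log_pow]; push_cast; ring
  have := mul_le_mul_of_nonneg_right log_two_lt_d9.le h.le
  unfold ent at ht
  rw [hl] at ht
  unfold ent
  linarith

theorem ent_at_eight {r : ℝ} (h : 0 < r) (h1 : r ≤ 1) :
    7 / 8 - 4159 / 2000 * r + (r - 1 / 8) ^ 2 / 2 ≤ ent r := by
  have ht := ent_tangent h h1 (r₀ := 1 / 8) (by norm_num) (by norm_num)
  have hl : log (1 / 8 : ℝ) = -3 * log 2 := by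
    rw [one_div, log_inv, show (8 : ℝ) = 2 ^ 3 by norm_num, log_pow]; push_cast; ring
  have := mul_le_mul_of_nonneg_right log_two_lt_d9.le h.le
  unfold ent at ht
  rw [hl] at ht
  unfold ent
  linarith

theorem ent_at_sixteen {r : ℝ} (h : 0 < r) (h1 : r ≤ 1) :
    15 / 16 - 1733 / 625 * r + (r - 1 / 16) ^ 2 / 2 ≤ ent r := by
  have ht := ent_tangent h h1 (r₀ := 1 / 16) (by norm_num) (by norm_num)
  have hl : log (1 / 16 : ℝ) = -4 * log 2 := by
    rw [one_div, log_inv, show (16 : ℝ) = 2 ^ 4 by norm_num, log_pow]; push_cast; ring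
  have := mul_le_mul_of_nonneg_right log_two_lt_d9.le h.le
  unfold ent at ht
  rw [hl] at ht
  unfold ent
  linarith

end Vale.Agent.P046.Const.Pointwise
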