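import Mathlib

/-!
P046, leading constant: the polynomial inequalities behind the pointwise inequality.
-/

namespace Vale.Agent.P046.Const.Pointwise

/-- One deviation below and two equal ones above, cleared of denominators. -/
noncomputable def keyPoly (c x v : ℝ) : ℝ :=
  c * ((1 + v) ^ 2 * (v ^ 2 + 6 * v + 6))
    + 2 * (x * v * (1 + v) ^ 2 * (v ^ 2 + 6 * v + 6) - 6 / 5 * x * v * (1 + v) * (v ^ 2 + 6 * v + 6)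
      + (31 / 100 + x / 2) * v ^ 2 * (v ^ 2 + 6 * v + 6)
      - 99 / 100 * v ^ 2 * (2 * v + 3) * (1 + v) ^ 2)

theorem key_p0 {x v : ℝ} (x0 : 0 ≤ x) (x1 : x ≤ 11 / 20) (v0 : 0 ≤ v) :
    keyPoly (176 / 625 * x ^ 2 - 99 / 100 * (x ^ 2 / 2)) x v ≤ 0 := by
  unfold keyPoly
  nlinarith [sq_nonneg (v - 4 / 5), sq_nonneg (x - v), sq_nonneg (x - v / 2), mul_nonneg x0 v0,
    mul_nonneg v0 v0, mul_nonneg (sub_nonneg.2 x1) (mul_nonneg v0 v0),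
    mul_nonneg (mul_nonneg v0 v0) (sq_nonneg (v - 4 / 5)), mul_nonneg (mul_nonneg v0 v0) v0,
    mul_nonneg (sub_nonneg.2 x1) x0]

theorem key_p1 {x v : ℝ} (x0 : 11 / 20 ≤ x) (x1 : x ≤ 13 / 20) (v0 : 0 ≤ v) :
    keyPoly (176 / 625 * x ^ 2 - 99 / 100 * (3 / 4 - 1733 / 1250 * (1 - x) + (1 - x - 1 / 4) ^ 2 / 2)) x v ≤ 0 := by
  unfold keyPoly
  nlinarith [sq_nonneg (v - 9 / 10), sq_nonneg (x - 3 / 5), mul_nonneg v0 v0,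
    mul_nonneg (mul_nonneg v0 v0) (sq_nonneg (v - 9 / 10)), mul_nonneg (mul_nonneg v0 v0) v0,
    mul_nonneg (sub_nonneg.2 x1) (sub_nonneg.2 x0),
    mul_nonneg (mul_nonneg (sub_nonneg.2 x1) (sub_nonneg.2 x0)) v0,
    mul_nonneg (sub_nonneg.2 x1) (mul_nonneg v0 v0),
    mul_nonneg (sub_nonneg.2 x1) (mul_nonneg v0 (sq_nonneg (v - 9 / 10))),
    mul_nonneg v0 (sq_nonneg (v - 9 / 10))]

theorem key_p2 {x v : ℝ} (x0 : 13 / 20 ≤ x) (x1 : x ≤ 7 / 10) (v0 : 0 ≤ v) :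
    keyPoly (176 / 625 * x ^ 2 - 99 / 100 * (3 / 4 - 1733 / 1250 * (1 - x) + (1 - x - 1 / 4) ^ 2 / 2)) x v ≤ 0 := by
  unfold keyPoly
  nlinarith [sq_nonneg (v - 21 / 20), sq_nonneg (x - 27 / 40), mul_nonneg v0 v0,
    mul_nonneg (mul_nonneg v0 v0) (sq_nonneg (v - 21 / 20)), mul_nonneg (mul_nonneg v0 v0) v0,
    mul_nonneg (sub_nonneg.2 x1) (sub_nonneg.2 x0),
    mul_nonneg (mul_nonneg (sub_nonneg.2 x1) (sub_nonneg.2 x0)) v0,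
    mul_nonneg (sub_nonneg.2 x1) (mul_nonneg v0 v0),
    mul_nonneg (sub_nonneg.2 x1) (mul_nonneg v0 (sq_nonneg (v - 21 / 20))),
    mul_nonneg v0 (sq_nonneg (v - 21 / 20))]

theorem key_p3 {x v : ℝ} (x0 : 7 / 10 ≤ x) (x1 : x ≤ 4 / 5) (v0 : 0 ≤ v) :
    keyPoly (176 / 625 * x ^ 2 - 99 / 100 * (3 / 4 - 1733 / 1250 * (1 - x) + (1 - x - 1 / 4) ^ 2 / 2)) x v ≤ 0 := by
  unfold keyPoly
  nlinarith [sq_nonneg (v - 6 / 5), sq_nonneg (x - 3 / 4), mul_nonneg v0 v0,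
    mul_nonneg (mul_nonneg v0 v0) (sq_nonneg (v - 6 / 5)), mul_nonneg (mul_nonneg v0 v0) v0,
    mul_nonneg (sub_nonneg.2 x1) (sub_nonneg.2 x0),
    mul_nonneg (mul_nonneg (sub_nonneg.2 x1) (sub_nonneg.2 x0)) v0,
    mul_nonneg (sub_nonneg.2 x1) (mul_nonneg v0 v0),
    mul_nonneg (sub_nonneg.2 x1) (mul_nonneg v0 (sq_nonneg (v - 6 / 5))),
    mul_nonneg v0 (sq_nonneg (v - 6 / 5))]

theorem key_p4 {x v : ℝ} (x0 : 4 / 5 ≤ x) (x1 : x ≤ 17 / 20) (v0 : 0 ≤ v) :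
    keyPoly (176 / 625 * x ^ 2 - 99 / 100 * (3 / 4 - 1733 / 1250 * (1 - x) + (1 - x - 1 / 4) ^ 2 / 2)) x v ≤ 0 := by
  unfold keyPoly
  nlinarith [sq_nonneg (v - 7 / 5), sq_nonneg (x - 33 / 40), mul_nonneg v0 v0,
    mul_nonneg (mul_nonneg v0 v0) (sq_nonneg (v - 7 / 5)), mul_nonneg (mul_nonneg v0 v0) v0,
    mul_nonneg (sub_nonneg.2 x1) (sub_nonneg.2 x0),
    mul_nonneg (mul_nonneg (sub_nonneg.2 x1) (sub_nonneg.2 x0)) v0,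
    mul_nonneg (sub_nonneg.2 x1) (mul_nonneg v0 v0),
    mul_nonneg (sub_nonneg.2 x1) (mul_nonneg v0 (sq_nonneg (v - 7 / 5))),
    mul_nonneg v0 (sq_nonneg (v - 7 / 5))]

theorem key_p5 {x v : ℝ} (x0 : 17 / 20 ≤ x) (x1 : x ≤ 9 / 10) (v0 : 0 ≤ v) :
    keyPoly (176 / 625 * x ^ 2 - 99 / 100 * (7 / 8 - 4159 / 2000 * (1 - x) + (1 - x - 1 / 8) ^ 2 / 2)) x v ≤ 0 := by
  unfold keyPoly
  nlinarith [sq_nonneg (v - 3 / 2), sq_nonneg (x - 7 / 8), mul_nonneg v0 v0,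
    mul_nonneg (mul_nonneg v0 v0) (sq_nonneg (v - 3 / 2)), mul_nonneg (mul_nonneg v0 v0) v0,
    mul_nonneg (sub_nonneg.2 x1) (sub_nonneg.2 x0),
    mul_nonneg (mul_nonneg (sub_nonneg.2 x1) (sub_nonneg.2 x0)) v0,
    mul_nonneg (sub_nonneg.2 x1) (mul_nonneg v0 v0),
    mul_nonneg (sub_nonneg.2 x1) (mul_nonneg v0 (sq_nonneg (v - 3 / 2))),
    mul_nonneg v0 (sq_nonneg (v - 3 / 2))]

theorem key_p6 {x v : ℝ} (x0 : 9 / 10 ≤ x) (x1 : x ≤ 19 / 20) (v0 : 0 ≤ v) :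
    keyPoly (176 / 625 * x ^ 2 - 99 / 100 * (15 / 16 - 1733 / 625 * (1 - x) + (1 - x - 1 / 16) ^ 2 / 2)) x v ≤ 0 := by
  unfold keyPoly
  nlinarith [sq_nonneg (v - 3 / 2), sq_nonneg (x - 37 / 40), mul_nonneg v0 v0,
    mul_nonneg (mul_nonneg v0 v0) (sq_nonneg (v - 3 / 2)), mul_nonneg (mul_nonneg v0 v0) v0,
    mul_nonneg (sub_nonneg.2 x1) (sub_nonneg.2 x0),
    mul_nonneg (mul_nonneg (sub_nonneg.2 x1) (sub_nonneg.2 x0)) v0,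
    mul_nonneg (sub_nonneg.2 x1) (mul_nonneg v0 v0),
    mul_nonneg (sub_nonneg.2 x1) (mul_nonneg v0 (sq_nonneg (v - 3 / 2))),
    mul_nonneg v0 (sq_nonneg (v - 3 / 2))]

theorem key_p7 {x v : ℝ} (x0 : 19 / 20 ≤ x) (x1 : x ≤ 1) (v0 : 0 ≤ v) :
    keyPoly (176 / 625 * x ^ 2 - 99 / 100 * (15 / 16 - 1733 / 625 * (1 - x) + (1 - x - 1 / 16) ^ 2 / 2)) x v ≤ 0 := by
  unfold keyPoly
  nlinarith [sq_nonneg (v - 8 / 5), sq_nonneg (x - 39 / 40), mul_nonneg v0 v0,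
    mul_nonneg (mul_nonneg v0 v0) (sq_nonneg (v - 8 / 5)), mul_nonneg (mul_nonneg v0 v0) v0,
    mul_nonneg (sub_nonneg.2 x1) (sub_nonneg.2 x0),
    mul_nonneg (mul_nonneg (sub_nonneg.2 x1) (sub_nonneg.2 x0)) v0,
    mul_nonneg (sub_nonneg.2 x1) (mul_nonneg v0 v0),
    mul_nonneg (sub_nonneg.2 x1) (mul_nonneg v0 (sq_nonneg (v - 8 / 5))),
    mul_nonneg v0 (sq_nonneg (v - 8 / 5))]

theorem oneA {v : ℝ} (v0' : 1 / 5 ≤ v) (v1 : v ≤ 1767 / 2500) :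
    (v - 1 / 5) ^ 2 * (v ^ 2 + 6 * v + 6) ≤ 4 * (73 / 2000 + v / 4)
      * (99 / 100 * (2 * v + 3) * (1 + v) ^ 2 - 99 / 400 * (v ^ 2 + 6 * v + 6)) := by
  have v0 : 0 ≤ v := by linarith
  nlinarith [mul_nonneg v0 v0, mul_nonneg (mul_nonneg v0 v0) v0, mul_nonneg v0 (sub_nonneg.2 v1),
    mul_nonneg (mul_nonneg v0 v0) (sub_nonneg.2 v1), mul_nonneg (mul_nonneg (mul_nonneg v0 v0) v0) (sub_nonneg.2 v1)]

theorem oneB {v : ℝ} (v0 : 0 ≤ v) (v1 : v ≤ 11 / 10) :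
    (v - 1 / 5) ^ 2 * (v ^ 2 + 6 * v + 6) ≤ 1067 / 1250
      * (99 / 100 * (2 * v + 3) * (1 + v) ^ 2 - 99 / 400 * (v ^ 2 + 6 * v + 6)) := by
  nlinarith [mul_nonneg v0 v0, mul_nonneg (mul_nonneg v0 v0) v0, mul_nonneg v0 (sub_nonneg.2 v1),
    mul_nonneg (mul_nonneg v0 v0) (sub_nonneg.2 v1), mul_nonneg (mul_nonneg (mul_nonneg v0 v0) v0) (sub_nonneg.2 v1)]

theorem oneC {v : ℝ} (v0 : 0 ≤ v) :
    v * (v - 1 / 5) * (1 + v) * (v ^ 2 + 6 * v + 6)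
      + v ^ 2 * (99 / 400 * (v ^ 2 + 6 * v + 6) - 99 / 100 * (2 * v + 3) * (1 + v) ^ 2)
      ≤ 1067 / 5000 * ((1 + v) ^ 2 * (v ^ 2 + 6 * v + 6)) := by
  nlinarith [mul_nonneg v0 v0, mul_nonneg (mul_nonneg v0 v0) v0, sq_nonneg (v - 9 / 5),
    mul_nonneg v0 (sq_nonneg (v - 9 / 5)), mul_nonneg (mul_nonneg v0 v0) (sq_nonneg (v - 9 / 5)),
    mul_nonneg (mul_nonneg (mul_nonneg v0 v0) v0) (sq_nonneg (v - 9 / 5))]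

end Vale.Agent.P046.Const.Pointwise
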