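import Vale.Agent.P046.Const.Ode
import Vale.Agent.P046.Const.PointwisePoly
import Vale.Agent.P046.Const.PointwiseLog

/-!
P046, leading constant: the pointwise inequality behind the contraction of the deviation equation.
-/

namespace Vale.Agent.P046.Const.Pointwise

open Real Ode

/-- The test weight of a relative deviation. -/
noncomputable def gfun (r : ℝ) : ℝ := if r ≤ 1 then 4 / 5 * (1 - r) else -(3 / 4) * ((r - 1) / r)

/-- The excess in the pointwise inequality. -/
noncomputable def excess (a b c : ℝ) : ℝ :=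
  -log (a * b * c) * (a * b * c) + (a - 1 + (b - 1) + (c - 1)) - 99 / 100 * (ent a + ent b + ent c)
    + (11 / 25 * (gfun a ^ 2 + gfun b ^ 2 + gfun c ^ 2)
      + 2 * (gfun a * gfun b + gfun a * gfun c + gfun b * gfun c))

theorem excess_swap (a b c : ℝ) : excess a b c = excess b a c := by
  unfold excess; rw [mul_comm a b]; ring

theorem excess_rot (a b c : ℝ) : excess a b c = excess b c a := by
  unfold excess; rw [show b * c * a = a * b * c by ring]; ring

theorem gfun_below {x : ℝ} (h : 0 ≤ x) : gfun (1 - x) = 4 / 5 * x := by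
  rw [gfun, if_pos (by linarith)]; ring

theorem gfun_above {v : ℝ} (h : 0 ≤ v) : gfun (1 + v) = -(3 / 4) * (v / (1 + v)) := by
  rcases h.lt_or_eq with h' | h'
  · rw [gfun, if_neg (by linarith)]; ring
  · subst h'; simp [gfun]

theorem all_above {a b c : ℝ} (ha : 0 ≤ a) (hb : 0 ≤ b) (hc : 0 ≤ c) :
    excess (1 + a) (1 + b) (1 + c) ≤ 0 := by
  rw [excess, gfun_above ha, gfun_above hb, gfun_above hc]
  have hP := neg_mul_log_le (P := (1 + a) * (1 + b) * (1 + c)) (by positivity)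
  have one : ∀ v : ℝ, 0 ≤ v → 0 ≤ v / (1 + v) ∧ v / (1 + v) ≤ v
      ∧ 149 / 400 * (v / (1 + v)) ^ 2 ≤ 99 / 100 * ent (1 + v) := by
    intro v hv
    refine ⟨by positivity, div_le_self hv (by linarith), ?_⟩
    refine le_trans ?_ (mul_le_mul_of_nonneg_left (ent_high_div hv) (by norm_num))
    rw [div_pow, mul_div_assoc', mul_div_assoc', div_le_div_iff₀ (by positivity) (by linarith)]
    nlinarith [mul_nonneg (sq_nonneg v) hv, mul_nonneg (sq_nonneg v) (sq_nonneg v)]
  obtain ⟨a0, a1, a2⟩ := one a ha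
  obtain ⟨b0, b1, b2⟩ := one b hb
  obtain ⟨c0, c1, c2⟩ := one c hc
  generalize a / (1 + a) = A at *
  generalize b / (1 + b) = B at *
  generalize c / (1 + c) = C at *
  linarith [mul_le_mul a1 b1 b0 ha, mul_le_mul a1 c1 c0 ha, mul_le_mul b1 c1 c0 hb,
    mul_nonneg (mul_nonneg ha hb) hc, sq_nonneg (A - B), sq_nonneg (A - C), sq_nonneg (B - C)]

theorem all_below {x y z : ℝ} (x0 : 0 ≤ x) (x1 : x < 1) (y0 : 0 ≤ y) (y1 : y < 1) (z0 : 0 ≤ z)
    (z1 : z < 1) : excess (1 - x) (1 - y) (1 - z) ≤ 0 := by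
  rw [excess, gfun_below x0, gfun_below y0, gfun_below z0]
  have hx : 0 < 1 - x := by linarith
  have hy : 0 < 1 - y := by linarith
  have hz : 0 < 1 - z := by linarith
  set P := (1 - x) * (1 - y) * (1 - z) with hP
  have hP0 : 0 < P := by positivity
  have py : (1 - y) * (1 - z) ≤ 1 := mul_le_one₀ (by linarith) hz.le (by linarith)
  have px : (1 - x) * (1 - z) ≤ 1 := mul_le_one₀ (by linarith) hz.le (by linarith)
  have pz : (1 - x) * (1 - y) ≤ 1 := mul_le_one₀ (by linarith) hy.le (by linarith)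
  have Px : P ≤ 1 - x := by rw [hP, mul_assoc]; exact mul_le_of_le_one_right hx.le py
  have Py : P ≤ 1 - y := by
    rw [hP, show (1 - x) * (1 - y) * (1 - z) = (1 - y) * ((1 - x) * (1 - z)) by ring]
    exact mul_le_of_le_one_right hy.le px
  have Pz : P ≤ 1 - z := by rw [hP]; exact mul_le_of_le_one_left hz.le pz
  have hl := neg_mul_log_le' hP0 (by linarith)
  have d1 := pow_le_pow_left₀ x0 (show x ≤ 1 - P by linarith) 2
  have d2 := pow_le_pow_left₀ y0 (show y ≤ 1 - P by linarith) 2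
  have d3 := pow_le_pow_left₀ z0 (show z ≤ 1 - P by linarith) 2
  have one : ∀ t : ℝ, 0 ≤ t → t ≤ 1 → 14 / 83 * t ^ 3 - 33 / 400 * t ^ 4 ≤ 1 / 10 * t ^ 2 := by
    intro t t0 t1
    nlinarith [mul_nonneg (mul_nonneg t0 t0) (sub_nonneg.2 t1), mul_nonneg (mul_nonneg t0 t0) t0]
  have e3 : 3 * (x * y * z) ≤ x ^ 3 + y ^ 3 + z ^ 3 := by
    nlinarith [mul_nonneg (add_nonneg (add_nonneg x0 y0) z0) (sq_nonneg (x - y)),
      mul_nonneg (add_nonneg (add_nonneg x0 y0) z0) (sq_nonneg (x - z)),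
      mul_nonneg (add_nonneg (add_nonneg x0 y0) z0) (sq_nonneg (y - z))]
  have eu : (1 - x) - 1 + ((1 - y) - 1) + ((1 - z) - 1) + (1 - P ^ 2) / 2
      = -(x * y + x * z + y * z) + x * y * z - (1 - P) ^ 2 / 2 := by rw [hP]; ring
  linarith [ent_low_series x1 x0, ent_low_series y1 y0, ent_low_series z1 z0,
    one x x0 x1.le, one y y0 y1.le, one z z0 z1.le, sq_nonneg (x - y), sq_nonneg (x - z),
    sq_nonneg (y - z), pow_nonneg x0 3, pow_nonneg y0 3, pow_nonneg z0 3, sq_nonneg x, sq_nonneg y,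
    sq_nonneg z]

/-- The separated inequality for one deviation below. -/
theorem key {x v : ℝ} (x0 : 0 ≤ x) (x1 : x < 1) (v0 : 0 ≤ v) :
    176 / 625 * x ^ 2 - 99 / 100 * ent (1 - x)
      + 2 * (x * v - 6 / 5 * x * (v / (1 + v)) + (31 / 100 + x / 2) * (v / (1 + v)) ^ 2
        - 99 / 100 * ent (1 + v)) ≤ 0 := by
  set N := (1 + v) ^ 2 * (v ^ 2 + 6 * v + 6) with hN
  have hN0 : 0 < N := by positivity
  have hv := ent_high v0
  have hr : 0 < 1 - x := by linarith
  have main : ∀ φ : ℝ, φ ≤ ent (1 - x) →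
      keyPoly (176 / 625 * x ^ 2 - 99 / 100 * φ) x v ≤ 0 →
      176 / 625 * x ^ 2 - 99 / 100 * ent (1 - x)
        + 2 * (x * v - 6 / 5 * x * (v / (1 + v)) + (31 / 100 + x / 2) * (v / (1 + v)) ^ 2
          - 99 / 100 * ent (1 + v)) ≤ 0 := by
    intro φ hφ hk
    have h : 176 / 625 * x ^ 2 - 99 / 100 * φ
        + 2 * (x * v - 6 / 5 * x * (v / (1 + v)) + (31 / 100 + x / 2) * (v / (1 + v)) ^ 2
          - 99 / 100 * (v ^ 2 * (2 * v + 3) / (v ^ 2 + 6 * v + 6))) ≤ 0 := by
      refine le_of_mul_le_mul_right (le_trans (le_of_eq ?_) (hk.trans_eq (zero_mul N).symm)) hN0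
      rw [hN, keyPoly]
      field_simp
    linarith
  rcases le_total x (11 / 20) with h0 | h0
  · exact main _ (ent_low x1 x0) (key_p0 x0 h0 v0)
  rcases le_total x (13 / 20) with h1 | h1
  · exact main _ (ent_at_four hr (by linarith)) (key_p1 h0 h1 v0)
  rcases le_total x (7 / 10) with h2 | h2
  · exact main _ (ent_at_four hr (by linarith)) (key_p2 h1 h2 v0)
  rcases le_total x (4 / 5) with h3 | h3
  · exact main _ (ent_at_four hr (by linarith)) (key_p3 h2 h3 v0)
  rcases le_total x (17 / 20) with h4 | h4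
  · exact main _ (ent_at_four hr (by linarith)) (key_p4 h3 h4 v0)
  rcases le_total x (9 / 10) with h5 | h5
  · exact main _ (ent_at_eight hr (by linarith)) (key_p5 h4 h5 v0)
  rcases le_total x (19 / 20) with h6 | h6
  · exact main _ (ent_at_sixteen hr (by linarith)) (key_p6 h5 h6 v0)
  exact main _ (ent_at_sixteen hr (by linarith)) (key_p7 h6 x1.le v0)

theorem one_below {x v w : ℝ} (x0 : 0 ≤ x) (x1 : x < 1) (v0 : 0 ≤ v) (w0 : 0 ≤ w) :
    excess (1 - x) (1 + v) (1 + w) ≤ 0 := by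
  rw [excess, gfun_below x0, gfun_above v0, gfun_above w0]
  have hx : 0 < 1 - x := by linarith
  have hl := neg_mul_log_le (P := (1 - x) * (1 + v) * (1 + w)) (by positivity)
  have kv := key x0 x1 v0
  have kw := key x0 x1 w0
  have hs : v / (1 + v) * (w / (1 + w)) ≤ v * w :=
    mul_le_mul (div_le_self v0 (by linarith)) (div_le_self w0 (by linarith)) (by positivity) v0
  generalize v / (1 + v) = a at *
  generalize w / (1 + w) = b at *
  linarith [mul_le_mul_of_nonneg_left hs hx.le,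
    mul_nonneg (show 0 ≤ x + 1 / 8 by linarith) (sq_nonneg (a - b))]

theorem quad_le {c a k S : ℝ} (hc : 0 < c) (h : a ^ 2 ≤ 4 * c * k) : S * a - c * S ^ 2 ≤ k :=
  le_of_mul_le_mul_left (by nlinarith [sq_nonneg (a - 2 * c * S)]) (show (0 : ℝ) < 4 * c by linarith)

/-- The reduced inequality for two deviations below. -/
theorem two_reduced {v t K S s : ℝ} (v0 : 0 ≤ v) (ht : t = v / (1 + v))
    (hK : K = 99 / 100 * (v ^ 2 * (2 * v + 3) / (v ^ 2 + 6 * v + 6)) - 99 / 400 * t ^ 2)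
    (hS : 0 ≤ S) (s1 : s ≤ 1) (sS : s ≤ S) (sq : S - S ^ 2 / 4 ≤ s) :
    (v - 1767 / 2500) * s + S * (1767 / 2500 - 6 / 5 * t) - 1067 / 5000 * S ^ 2 ≤ K := by
  have h1v : 0 < 1 + v := by linarith
  have hq : 0 < v ^ 2 + 6 * v + 6 := by positivity
  set N := (1 + v) ^ 2 * (v ^ 2 + 6 * v + 6) with hN
  have hN0 : 0 < N := by positivity
  have hKN : K * N = v ^ 2 * (99 / 100 * (2 * v + 3) * (1 + v) ^ 2
      - 99 / 400 * (v ^ 2 + 6 * v + 6)) := by
    rw [hK, ht, hN]; field_simp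
  set a := v - 6 / 5 * t with ha
  have haN : a ^ 2 * N = v ^ 2 * ((v - 1 / 5) ^ 2 * (v ^ 2 + 6 * v + 6)) := by
    rw [ha, ht, hN]; field_simp; ring
  have hK0 : 0 ≤ K := by
    refine nonneg_of_mul_nonneg_left (hKN ▸ mul_nonneg (sq_nonneg v) ?_) hN0
    nlinarith [mul_nonneg v0 v0, mul_nonneg (mul_nonneg v0 v0) v0]
  rcases le_total v (1767 / 2500) with hv | hv
  · have h := mul_le_mul_of_nonpos_left sq (sub_nonpos.2 hv)
    have key : S * a - (73 / 2000 + v / 4) * S ^ 2 ≤ K := by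
      rcases le_total a 0 with h0 | h0
      · linarith [mul_nonpos_of_nonneg_of_nonpos hS h0,
          mul_nonneg (show 0 ≤ 73 / 2000 + v / 4 by linarith) (sq_nonneg S)]
      · have hv5 : v = 0 ∨ 1 / 5 ≤ v := by
          rcases v0.eq_or_lt with h | h
          · exact Or.inl h.symm
          · refine Or.inr ?_
            have : 0 ≤ v * (v - 1 / 5) := by
              have := mul_nonneg h0 h1v.le
              rw [ha, ht] at this
              field_simp at this
              linarith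
            nlinarith
        refine quad_le (by linarith) (le_of_mul_le_mul_right ?_ hN0)
        rw [haN, mul_assoc, hKN]
        rcases hv5 with h | h
        · rw [h]; norm_num
        · linarith [mul_le_mul_of_nonneg_left (oneA h hv) (sq_nonneg v)]
    rw [ha] at key
    linarith [sq_nonneg S]
  · have h0 := sub_nonneg.2 hv
    have last : a - 1067 / 5000 ≤ K := by
      refine le_of_mul_le_mul_right ?_ hN0
      rw [hKN, ha, ht, hN, show (v - 6 / 5 * (v / (1 + v)) - 1067 / 5000) * ((1 + v) ^ 2 *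
        (v ^ 2 + 6 * v + 6)) = v * (v - 1 / 5) * (1 + v) * (v ^ 2 + 6 * v + 6)
          - 1067 / 5000 * ((1 + v) ^ 2 * (v ^ 2 + 6 * v + 6)) by field_simp; ring]
      linarith [oneC v0]
    rcases le_total S 1 with hS1 | hS1
    · have h := mul_le_mul_of_nonneg_left sS h0
      have key : S * a - 1067 / 5000 * S ^ 2 ≤ K := by
        rcases le_total a (1067 / 2500) with h2 | h2
        · have hv1 : v ≤ 11 / 10 := by
            have := mul_le_mul_of_nonneg_right h2 h1v.le
            rw [ha, ht] at this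
            field_simp at this
            nlinarith
          refine quad_le (by norm_num) (le_of_mul_le_mul_right ?_ hN0)
          rw [haN, mul_assoc, hKN]
          linarith [mul_le_mul_of_nonneg_left (oneB v0 hv1) (sq_nonneg v)]
        · nlinarith [mul_nonneg (sub_nonneg.2 hS1) (show 0 ≤ a - 1067 / 5000 * (1 + S) by linarith)]
      rw [ha] at key
      linarith
    · have h := mul_le_mul_of_nonneg_left s1 h0
      have ht4 : 2 / 5 ≤ t := by rw [ht, le_div_iff₀ h1v]; linarith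
      rw [ha] at last
      nlinarith [mul_nonneg (sub_nonneg.2 hS1)
        (show 0 ≤ 1067 / 5000 * (S + 1) - (1767 / 2500 - 6 / 5 * t) by linarith)]

theorem two_below {x w v : ℝ} (x0 : 0 ≤ x) (x1 : x < 1) (w0 : 0 ≤ w) (w1 : w < 1) (v0 : 0 ≤ v) :
    excess (1 - x) (1 - w) (1 + v) ≤ 0 := by
  rw [excess, gfun_below x0, gfun_below w0, gfun_above v0]
  have hx : 0 < 1 - x := by linarith
  have hw : 0 < 1 - w := by linarith
  have hl := neg_mul_log_le (P := (1 - x) * (1 - w) * (1 + v)) (by positivity)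
  have h := two_reduced v0 rfl rfl (S := x + w) (s := x + w - x * w)
    (add_nonneg x0 w0) (by linarith [mul_nonneg hx.le hw.le]) (by linarith [mul_nonneg x0 w0])
    (by linarith [sq_nonneg (x - w)])
  linarith [ent_low x1 x0, ent_low w1 w0, ent_high v0]

theorem excess_le {a b c : ℝ} (ha : 0 < a) (hb : 0 < b) (hc : 0 < c) : excess a b c ≤ 0 := by
  have up : ∀ r : ℝ, 1 ≤ r → ∃ v, 0 ≤ v ∧ r = 1 + v := fun r h => ⟨r - 1, by linarith, by ring⟩
  have dn : ∀ r : ℝ, 0 < r → r ≤ 1 → ∃ x, 0 ≤ x ∧ x < 1 ∧ r = 1 - x :=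
    fun r h h' => ⟨1 - r, by linarith, by linarith, by ring⟩
  rcases le_total a 1 with h1 | h1 <;> rcases le_total b 1 with h2 | h2 <;>
    rcases le_total c 1 with h3 | h3
  · obtain ⟨x, x0, x1, rfl⟩ := dn a ha h1
    obtain ⟨y, y0, y1, rfl⟩ := dn b hb h2
    obtain ⟨z, z0, z1, rfl⟩ := dn c hc h3
    exact all_below x0 x1 y0 y1 z0 z1
  · obtain ⟨x, x0, x1, rfl⟩ := dn a ha h1
    obtain ⟨y, y0, y1, rfl⟩ := dn b hb h2
    obtain ⟨z, z0, rfl⟩ := up c h3
    exact two_below x0 x1 y0 y1 z0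
  · obtain ⟨x, x0, x1, rfl⟩ := dn a ha h1
    obtain ⟨y, y0, rfl⟩ := up b h2
    obtain ⟨z, z0, z1, rfl⟩ := dn c hc h3
    rw [excess_rot, excess_rot]
    exact two_below z0 z1 x0 x1 y0
  · obtain ⟨x, x0, x1, rfl⟩ := dn a ha h1
    obtain ⟨y, y0, rfl⟩ := up b h2
    obtain ⟨z, z0, rfl⟩ := up c h3
    exact one_below x0 x1 y0 z0
  · obtain ⟨x, x0, rfl⟩ := up a h1
    obtain ⟨y, y0, y1, rfl⟩ := dn b hb h2
    obtain ⟨z, z0, z1, rfl⟩ := dn c hc h3
    rw [excess_rot]
    exact two_below y0 y1 z0 z1 x0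
  · obtain ⟨x, x0, rfl⟩ := up a h1
    obtain ⟨y, y0, y1, rfl⟩ := dn b hb h2
    obtain ⟨z, z0, rfl⟩ := up c h3
    rw [excess_rot]
    exact one_below y0 y1 z0 x0
  · obtain ⟨x, x0, rfl⟩ := up a h1
    obtain ⟨y, y0, rfl⟩ := up b h2
    obtain ⟨z, z0, z1, rfl⟩ := dn c hc h3
    rw [excess_rot, excess_rot]
    exact one_below z0 z1 x0 y0
  · obtain ⟨x, x0, rfl⟩ := up a h1
    obtain ⟨y, y0, rfl⟩ := up b h2
    obtain ⟨z, z0, rfl⟩ := up c h3
    exact all_above x0 y0 z0

/-- **The pointwise inequality.** -/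
theorem pointwise : Ode.Pointwise (11 / 100) (199 / 100) gfun := by
  refine ⟨fun r hr => ?_, fun a b c ha hb hc => ?_⟩
  · unfold gfun
    split_ifs with h
    · constructor <;> linarith
    · have h0 : 0 ≤ (r - 1) / r := div_nonneg (by linarith) hr.le
      have h1 : (r - 1) / r ≤ 1 := (div_le_one hr).2 (by linarith)
      constructor <;> linarith
  · have h := excess_le ha hb hc
    unfold excess at h
    linarith

end Vale.Agent.P046.Const.Pointwise
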