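import Vale.Agent.P046.Const.Clock

/-!
P046: the local rules of random greedy triangle removal and the alternating bracket.

`loc A T k e x` says that `e` is alive at time `x` according to the rule that looks `k` levels down
the tree of earlier triangles; `alive A T e x` is the exact rule.
-/

namespace Vale.Agent.P046.Const.Law

open Finset MeasureTheory

variable {V : Type} [Fintype V] [DecidableEq V]

/-- The depth `k` rule for being alive at time `x`. -/
def loc (A : Finset (Finset V)) (T : Finset V → ℝ) : ℕ → Finset V → ℝ → Prop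
  | 0, _, _ => True
  | k + 1, e, x => ∀ s ∈ tri A, e ∈ pairs s → T s < x →
      ∃ f ∈ pairs s, f ≠ e ∧ ¬ loc A T k f (T s)

/-- Being alive at time `x` in greedy removal. -/
def alive (A : Finset (Finset V)) (T : Finset V → ℝ) (e : Finset V) (x : ℝ) : Prop :=
  loc A T ((tri A).card + 1) e x

theorem loc_stable (A : Finset (Finset V)) (T : Finset V → ℝ) (k : ℕ) (e : Finset V) (x : ℝ)
    (hk : ((tri A).filter fun s => T s < x).card ≤ k) :
    loc A T (k + 1) e x ↔ loc A T (k + 2) e x := by
  induction k generalizing e x with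
  | zero =>
    have h0 : ∀ s ∈ tri A, ¬ T s < x := filter_eq_empty_iff.1 (card_eq_zero.1 (Nat.le_zero.1 hk))
    exact ⟨fun _ s hs _ h => absurd h (h0 s hs), fun _ s hs _ h => absurd h (h0 s hs)⟩
  | succ k ih =>
    refine forall₂_congr fun s hs => imp_congr_right fun _ => imp_congr_right fun hlt => ?_
    refine exists_congr fun f => and_congr_right fun _ => and_congr_right fun _ =>
      not_congr (ih f (T s) ?_)
    have hsub : (tri A).filter (fun r => T r < T s) ⊂ (tri A).filter fun r => T r < x := by
      refine Finset.ssubset_iff_subset_ne.2 ⟨fun r hr => mem_filter.2 ⟨(mem_filter.1 hr).1,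
        (mem_filter.1 hr).2.trans hlt⟩, fun h => lt_irrefl (T s) ?_⟩
      exact (mem_filter.1 (h.symm ▸ mem_filter.2 ⟨hs, hlt⟩ :
        s ∈ (tri A).filter fun r => T r < T s)).2
    have := card_lt_card hsub
    omega

theorem alive_iff (A : Finset (Finset V)) (T : Finset V → ℝ) (e : Finset V) (x : ℝ) :
    alive A T e x ↔ ∀ s ∈ tri A, e ∈ pairs s → T s < x →
      ∃ f ∈ pairs s, f ≠ e ∧ ¬ alive A T f (T s) :=
  loc_stable A T _ e x (card_filter_le _ _)

theorem alive_unique (A : Finset (Finset V)) (T : Finset V → ℝ) (P : Finset V → ℝ → Prop)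
    (hP : ∀ e x, P e x ↔ ∀ s ∈ tri A, e ∈ pairs s → T s < x →
      ∃ f ∈ pairs s, f ≠ e ∧ ¬ P f (T s)) (e : Finset V) (x : ℝ) : P e x ↔ alive A T e x := by
  suffices h : ∀ k e x, ((tri A).filter fun s => T s < x).card ≤ k → (P e x ↔ alive A T e x) from
    h _ e x le_rfl
  intro k
  induction k with
  | zero =>
    intro e x hk
    have h0 : ∀ s ∈ tri A, ¬ T s < x := filter_eq_empty_iff.1 (card_eq_zero.1 (Nat.le_zero.1 hk))
    rw [hP, alive_iff]
    exact ⟨fun _ s hs _ h => absurd h (h0 s hs), fun _ s hs _ h => absurd h (h0 s hs)⟩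
  | succ k ih =>
    intro e x hk
    rw [hP, alive_iff]
    refine forall₂_congr fun s hs => imp_congr_right fun _ => imp_congr_right fun hlt => ?_
    refine exists_congr fun f => and_congr_right fun _ => and_congr_right fun _ =>
      not_congr (ih f (T s) ?_)
    have hsub : (tri A).filter (fun r => T r < T s) ⊂ (tri A).filter fun r => T r < x := by
      refine Finset.ssubset_iff_subset_ne.2 ⟨fun r hr => mem_filter.2 ⟨(mem_filter.1 hr).1,
        (mem_filter.1 hr).2.trans hlt⟩, fun h => lt_irrefl (T s) ?_⟩
      exact (mem_filter.1 (h.symm ▸ mem_filter.2 ⟨hs, hlt⟩ :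
        s ∈ (tri A).filter fun r => T r < T s)).2
    have := card_lt_card hsub
    omega

/-- Greedy removal lies between two consecutive local rules. -/
theorem alive_between (A : Finset (Finset V)) (T : Finset V → ℝ) (k : ℕ) :
    (∀ e x, (alive A T e x → loc A T k e x) ∧ (loc A T (k + 1) e x → alive A T e x)) ∨
      ∀ e x, (loc A T k e x → alive A T e x) ∧ (alive A T e x → loc A T (k + 1) e x) := by
  have up : ∀ j, (∀ e x, alive A T e x → loc A T j e x) →
      ∀ e x, loc A T (j + 1) e x → alive A T e x := by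
    intro j hj e x h
    rw [alive_iff]
    intro s hs he hlt
    obtain ⟨f, hf, hne, hn⟩ := h s hs he hlt
    exact ⟨f, hf, hne, fun ha => hn (hj f _ ha)⟩
  have down : ∀ j, (∀ e x, loc A T j e x → alive A T e x) →
      ∀ e x, alive A T e x → loc A T (j + 1) e x := by
    intro j hj e x h s hs he hlt
    obtain ⟨f, hf, hne, hn⟩ := (alive_iff A T e x).1 h s hs he hlt
    exact ⟨f, hf, hne, fun ha => hn (hj f _ ha)⟩
  induction k with
  | zero => exact Or.inl fun e x => ⟨fun _ => trivial, up 0 (fun _ _ _ => trivial) e x⟩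
  | succ k ih =>
    rcases ih with h | h
    · exact Or.inr fun e x =>
        ⟨(h e x).2, down (k + 1) (fun e x => (h e x).2) e x⟩
    · exact Or.inl fun e x =>
        ⟨(h e x).2, up (k + 1) (fun e x => (h e x).2) e x⟩

/-- Where two consecutive local rules agree they are exact. -/
theorem alive_of_agree (A : Finset (Finset V)) (T : Finset V → ℝ) (k : ℕ) (e : Finset V) (x : ℝ)
    (h : loc A T k e x ↔ loc A T (k + 1) e x) : alive A T e x ↔ loc A T k e x := by
  rcases alive_between A T k with hb | hb
  · exact ⟨(hb e x).1, fun hk => (hb e x).2 (h.1 hk)⟩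
  · exact ⟨fun ha => h.2 ((hb e x).2 ha), (hb e x).1⟩

theorem measurableSet_loc (A : Finset (Finset V)) (k : ℕ) (e : Finset V)
    {φ : (Finset V → ℝ) → ℝ} (hφ : Measurable φ) :
    MeasurableSet {T | loc A T k e (φ T)} := by
  induction k generalizing e φ with
  | zero => simp [loc]
  | succ k ih =>
    have : {T | loc A T (k + 1) e (φ T)} = ⋂ s ∈ (tri A).filter (fun s => e ∈ pairs s),
        {T | T s < φ T}ᶜ ∪ ⋃ f ∈ (pairs s).erase e, {T | loc A T k f (T s)}ᶜ := by
      ext T
      simp only [loc, Set.mem_ofPred_eq, Set.mem_iInter, Set.mem_union, Set.mem_compl_iff,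
        Set.mem_iUnion, mem_filter, mem_erase, exists_prop, and_imp, ← imp_iff_not_or]
      refine forall₂_congr fun s _ => forall_congr' fun _ => forall_congr' fun _ => ?_
      exact exists_congr fun f => by tauto
    rw [this]
    exact MeasurableSet.biInter (Set.to_countable _) fun s _ =>
      ((measurableSet_lt (measurable_pi_apply s) hφ).compl).union
        (MeasurableSet.biUnion (Set.to_countable _)
          fun f _ => (ih f (measurable_pi_apply s)).compl)

open Classical in
/-- The edges alive at time one. -/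
noncomputable def aliveSet (A : Finset (Finset V)) (T : Finset V → ℝ) : Finset (Finset V) :=
  A.filter fun e => alive A T e 1

theorem alive_step (A : Finset (Finset V)) (T : Finset V → ℝ) {t : Finset V} (ht : t ∈ tri A)
    (hmin : ∀ s ∈ (tri A).erase t, T t < T s) (e : Finset V) (x : ℝ) :
    alive A T e x ↔
      (e ∈ pairs t → x ≤ T t) ∧ (e ∉ pairs t → alive (A \ pairs t) T e x) := by
  refine (alive_unique A T
    (fun e x => (e ∈ pairs t → x ≤ T t) ∧ (e ∉ pairs t → alive (A \ pairs t) T e x))
    (fun e x => ?_) e x).symm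
  have hle : ∀ s ∈ tri A, T t ≤ T s := fun s hs => by
    by_cases h : s = t
    · rw [h]
    · exact (hmin s (mem_erase.2 ⟨h, hs⟩)).le
  by_cases he : e ∈ pairs t
  · simp only [he, true_implies, not_true, false_implies, and_true]
    constructor
    · intro hx s hs _ hlt
      exact absurd (hle s hs) (not_le.2 (hlt.trans_le hx))
    · intro h
      by_contra hx
      obtain ⟨f, hf, -, hn⟩ := h t ht he (not_le.1 hx)
      exact hn ⟨fun _ => le_rfl, fun hft => absurd hf hft⟩
  · simp only [he, false_implies, not_false_iff, true_implies, true_and]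
    rw [alive_iff]
    constructor
    · intro h s hs hes hlt
      by_cases hs' : s ∈ tri (A \ pairs t)
      · obtain ⟨f, hf, hne, hn⟩ := h s hs' hes hlt
        have hft : f ∉ pairs t := (mem_sdiff.1 (tri_sub hs' hf)).2
        exact ⟨f, hf, hne, fun hP => hn (hP.2 hft)⟩
      · have hsub : ¬ pairs s ⊆ A \ pairs t := fun h =>
          hs' (mem_filter.2 ⟨(mem_filter.1 hs).1, h⟩)
        obtain ⟨f, hf, hfn⟩ := not_subset.1 hsub
        have hft : f ∈ pairs t := by
          by_contra hc
          exact hfn (mem_sdiff.2 ⟨tri_sub hs hf, hc⟩)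
        have hst : s ≠ t := fun h => he (h ▸ hes)
        exact ⟨f, hf, fun h => he (h ▸ hft),
          fun hP => not_lt.2 (hP.1 hft) (hmin s (mem_erase.2 ⟨hst, hs⟩))⟩
    · intro h s hs hes hlt
      obtain ⟨f, hf, hne, hn⟩ := h s (mem_of_mem_erase (tri_sdiff_subset ht hs)) hes hlt
      have hft : f ∉ pairs t := (mem_sdiff.1 (tri_sub hs hf)).2
      exact ⟨f, hf, hne, fun hal => hn ⟨fun h => absurd h hft, fun _ => hal⟩⟩

theorem greedy_eq_aliveSet (g : Finset (Finset V) → ℝ) (A : Finset (Finset V)) :
    ∀ T : Finset V → ℝ, Set.InjOn T (tri A : Set (Finset V)) → (∀ s ∈ tri A, T s < 1) →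
      greedy g A T = g (aliveSet A T) := by
  classical
  induction A using Finset.strongInduction with
  | H A ih =>
    intro T hinj hlt
    by_cases h : tri A = ∅
    · rw [greedy, if_pos h]
      congr 1
      refine (filter_true_of_mem fun e _ => ?_).symm
      rw [alive_iff]
      simp [h]
    · obtain ⟨t, ht, hmin⟩ := exists_min_image (tri A) T (nonempty_of_ne_empty h)
      have hmin' : ∀ s ∈ (tri A).erase t, T t < T s := fun s hs =>
        (hmin s (mem_of_mem_erase hs)).lt_of_ne fun he =>
          ne_of_mem_erase hs (hinj (mem_of_mem_erase hs) ht he.symm)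
      rw [greedy_of_ne g T h, sum_eq_single_of_mem t ht fun s hs hst => if_neg fun hs' =>
          lt_asymm (hmin' s (mem_erase.2 ⟨hst, hs⟩)) (hs' t (mem_erase.2 ⟨Ne.symm hst, ht⟩)),
        if_pos hmin', ih _ (sdiff_pairs_ssubset ht) T
          (hinj.mono fun s hs => mem_of_mem_erase (tri_sdiff_subset ht hs))
          fun s hs => hlt s (mem_of_mem_erase (tri_sdiff_subset ht hs))]
      congr 1
      ext e
      simp only [aliveSet, mem_filter, mem_sdiff, alive_step A T ht hmin' e 1]
      constructor
      · rintro ⟨⟨hA, hn⟩, ha⟩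
        exact ⟨hA, fun h => absurd h hn, fun _ => ha⟩
      · rintro ⟨hA, h1, h2⟩
        have hn : e ∉ pairs t := fun h => not_le.2 (hlt t ht) (h1 h)
        exact ⟨⟨hA, hn⟩, h2 hn⟩

omit [DecidableEq V] in
theorem times_lt_one (s : Finset V) : ∀ᵐ T ∂times V, T s < 1 := by
  have h : ∀ᵐ y ∂clock, y < 1 := by
    have hne : ∀ᵐ y ∂clock, y ≠ 1 :=
      Measure.absolutelyContinuous_of_le Measure.restrict_le_self
        (compl_mem_ae_iff.2 (measure_singleton (1 : ℝ)))
    filter_upwards [hne, ae_restrict_mem (μ := volume) measurableSet_Icc] with y hy hy'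
    exact lt_of_le_of_ne hy'.2 hy
  exact (measurePreserving_eval (μ := fun _ : Finset V => clock) s).quasiMeasurePreserving.ae h

theorem times_ne {a b : Finset V} (hab : a ≠ b) : ∀ᵐ T ∂times V, T a ≠ T b := by
  have : NullSingletonClass clock := by unfold clock; infer_instance
  have hm : MeasurableSet {T : Finset V → ℝ | T a = T b} :=
    measurableSet_eq_fun (measurable_pi_apply a) (measurable_pi_apply b)
  rw [ae_iff]
  simp only [ne_eq, not_not]
  rw [← times_split a, Measure.map_apply (by fun_prop) hm,
    Measure.prod_apply_symm (measurableSet_preimage (by fun_prop) hm)]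
  simp [Function.update_of_ne hab.symm]

theorem aliveSet_ae_eq_greedy (g : Finset (Finset V) → ℝ) (A : Finset (Finset V)) :
    ∀ᵐ T ∂times V, greedy g A T = g (aliveSet A T) := by
  have h1 : ∀ᵐ T ∂times V, ∀ s ∈ tri A, T s < 1 :=
    (Filter.eventually_all_finset _).2 fun s _ => times_lt_one s
  have h2 : ∀ᵐ T ∂times V, ∀ a ∈ tri A, ∀ b ∈ (tri A).erase a, T a ≠ T b :=
    (Filter.eventually_all_finset _).2 fun a _ => (Filter.eventually_all_finset _).2 fun b hb =>
      times_ne (ne_of_mem_erase hb).symm
  filter_upwards [h1, h2] with T hT hT'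
  refine greedy_eq_aliveSet g A T (fun a ha b hb hab => ?_) hT
  by_contra hne
  exact hT' a ha b (mem_erase.2 ⟨Ne.symm hne, hb⟩) hab

/-- The removal process is the alive set at time one for uniform times. -/
theorem integral_aliveSet (g : Finset (Finset V) → ℝ) (A : Finset (Finset V)) :
    ∫ T, g (aliveSet A T) ∂times V = procVal g A :=
  (integral_congr_ae (aliveSet_ae_eq_greedy g A)).symm.trans (integral_greedy g A)

end Vale.Agent.P046.Const.Law
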